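import Vale.Agent.P269.Cv.Emb

/-!
# Local isomorphisms, pull-back of bundles, sub and sum surfaces
-/

set_option linter.unusedSectionVars false

namespace Vale.Agent.P269.Cv

open Set Function Topology Filter Module

variable {X X' X'' : Type} [TopologicalSpace X] [TopologicalSpace X'] [TopologicalSpace X'']
  {R : RS X} {R' : RS X'} {R'' : RS X''} {f : X' → X} {g : X'' → X} {L : LB R} {s : X → ℂ} {x : X'}

/-- `f` is a local biholomorphism -/
structure LIso (R' : RS X') (R : RS X) (f : X' → X) : Prop where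
  cont : Continuous f
  hol : ∀ x, R'.Hol (fun y => R.e (f x) (f y)) x
  ne : ∀ x, R'.d (fun y => R.e (f x) (f y)) x ≠ 0

theorem LIso.ev_src (h : LIso R' R f) (x : X') : ∀ᶠ y in 𝓝 x, f y ∈ (R.e (f x)).source :=
  h.cont.continuousAt (R.src_nhds (f x))

theorem LIso.ev_tr (h : LIso R' R f) {α : Type} (u : X → α) (x : X') :
    (fun t => u (f (R'.i x t))) =ᶠ[𝓝 0]
      (fun t => u (R.i (f x) t)) ∘ fun t => R.e (f x) (f (R'.i x t)) :=
  (R'.ev_iff.1 (h.ev_src x)).mono fun _ ht => congrArg u (R.i_e ht).symm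

theorem tr_zero (R' : RS X') (R : RS X) (f : X' → X) (x : X') :
    R.e (f x) (f (R'.i x 0)) = 0 := by rw [R'.i_zero, R.zero]

theorem LIso.an (h : LIso R' R f) (x : X') :
    AnalyticAt ℂ (fun t => R.e (f x) (f (R'.i x t))) 0 := h.hol x

theorem LIso.dn (h : LIso R' R f) (x : X') :
    deriv (fun t => R.e (f x) (f (R'.i x t))) 0 ≠ 0 := h.ne x

theorem LIso.hol_iff (h : LIso R' R f) {F : Type} [NormedAddCommGroup F] [NormedSpace ℂ F]
    [CompleteSpace F] {u : X → F} : R'.Hol (fun y => u (f y)) x ↔ R.Hol u (f x) := by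
  rw [RS.Hol, RS.Hol, analyticAt_congr (h.ev_tr u x),
    analyticAt_comp_iff_of_deriv_ne_zero (h.an x) (h.dn x), tr_zero]

theorem LIso.order_eq (h : LIso R' R f) (u : X → ℂ) :
    analyticOrderAt (fun t => u (f (R'.i x t))) 0 = analyticOrderAt (fun t => u (R.i (f x) t)) 0 := by
  rw [analyticOrderAt_congr (h.ev_tr u x),
    analyticOrderAt_comp_of_deriv_ne_zero (h.an x) (h.dn x), tr_zero]

theorem LIso.deriv_eq (h : LIso R' R f) {F : Type} [NormedAddCommGroup F] [NormedSpace ℂ F]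
    {u : X → F} (a : R.Hol u (f x)) : deriv (fun t => u (f (R'.i x t))) 0 =
      R'.d (fun y => R.e (f x) (f y)) x • deriv (fun t => u (R.i (f x) t)) 0 := by
  rw [(h.ev_tr u x).deriv_eq, deriv.scomp 0 (by rw [tr_zero]; exact AnalyticAt.differentiableAt a)
    (h.an x).differentiableAt, tr_zero]
  rfl

/-- the chain rule -/
theorem LIso.d_comp (h : LIso R' R f) {u : X → ℂ} (a : R.Hol u (f x)) :
    R'.d (fun y => u (f y)) x = R'.d (fun y => R.e (f x) (f y)) x * R.d u (f x) := h.deriv_eq a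

theorem LIso.map_nhds (h : LIso R' R f) (x : X') : map f (𝓝 x) = 𝓝 (f x) := by
  rw [← R'.map_i x, map_map]
  refine (map_congr (h.ev_tr id x)).trans ?_
  rw [← map_map, (h.an x).hasStrictDerivAt.map_nhds_eq (h.dn x), tr_zero]
  exact R.map_i (f x)

theorem LIso.isOpenMap (h : LIso R' R f) : IsOpenMap f :=
  isOpenMap_iff_nhds_le.2 fun x => (h.map_nhds x).ge

theorem LIso.id (R : RS X) : LIso R R id :=
  ⟨continuous_id, fun x => RS.hol_e (R.mem x), fun x => RS.d_e_ne (R.mem x)⟩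

theorem LIso.comp {k : X'' → X'} (h : LIso R' R f) (h' : LIso R'' R' k) : LIso R'' R (f ∘ k) :=
  ⟨h.cont.comp h'.cont, fun x => h'.hol_iff.2 (h.hol (k x)), fun x =>
    (h'.d_comp (h.hol (k x))).trans_ne (mul_ne_zero (h'.ne x) (h.ne (k x)))⟩

theorem LIso.symm (e : X' ≃ X) (h : LIso R' R e) : LIso R R' e.symm := by
  have a : ∀ x, R.Hol (fun y => R'.e (e.symm (e x)) (e.symm y)) (e x) := fun x =>
    h.hol_iff.1 (by simpa only [e.symm_apply_apply] using RS.hol_e (R'.mem x))
  refine ⟨continuous_iff_continuousAt.2 (e.surjective.forall.2 fun x => ?_),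
    e.surjective.forall.2 a, e.surjective.forall.2 fun x b => ?_⟩
  · rw [ContinuousAt, ← h.map_nhds, tendsto_map'_iff, e.symm_comp_self, e.symm_apply_apply]
    exact tendsto_id
  · have := h.d_comp (a x)
    rw [b, mul_zero] at this
    simp only [e.symm_apply_apply] at this
    exact RS.d_e_ne (R'.mem x) this

/-- the pull-back of bundles -/
noncomputable def LIso.pb (h : LIso R' R f) : LB R →* LB R' where
  toFun L := ⟨fun x y => L.φ (f x) (f y), fun _ => L.self _, fun _ _ => L.ne _ _, fun x =>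
    (h.cont.continuousAt.eventually (L.hol (f x))).mono fun _ a => h.hol_iff.2 a⟩
  map_one' := rfl
  map_mul' _ _ := rfl

@[simp] theorem LIso.pb_φ (h : LIso R' R f) (L : LB R) (x y : X') :
    (h.pb L).φ x y = L.φ (f x) (f y) := rfl

theorem LIso.sec_pb (h : LIso R' R f) : (h.pb L).Sec (fun y => s (f y)) x ↔ L.Sec s (f x) :=
  h.hol_iff (u := fun z => s z / L.φ (f x) z)

theorem LIso.ord_pb (h : LIso R' R f) : (h.pb L).ord (fun y => s (f y)) x = L.ord s (f x) :=
  h.order_eq fun z => s z / L.φ (f x) z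

theorem LIso.pb_mem (h : LIso R' R f) (hs : s ∈ L.Γ) : (fun y => s (f y)) ∈ (h.pb L).Γ :=
  fun _ => h.sec_pb.2 (hs _)

/-- logarithmic differentials with poles along `S`; the value at `p ∈ S` is the residue -/
noncomputable def lg (R : RS X) [T2Space X] (S : Finset X) : LB R := R.K * ∏ p ∈ S, R.pt p

open Classical in
theorem omega_eq [T2Space X] {N : Finset (X × X)} {P : Finset X} (hN : Nd N) (hP : ∀ p ∈ P, Sm N p) :
    omega R N P = lg R (N.image Prod.fst ∪ N.image Prod.snd ∪ P) *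
      LB.cst R (fun x => if ∃ n ∈ N, n.2 = x then -1 else 1) fun x => by split_ifs <;> simp := by
  rw [omega, lg, Finset.prod_union, Finset.prod_union, Finset.prod_image hN.inj1,
    Finset.prod_image hN.inj2, Finset.prod_mul_distrib, mul_assoc R.K]
  · exact Finset.disjoint_left.2 fun x a b => by
      obtain ⟨n, a, d⟩ := Finset.mem_image.1 a
      obtain ⟨n', b, c⟩ := Finset.mem_image.1 b
      exact hN.ne n a n' b (d.trans c.symm)
  · exact Finset.disjoint_left.2 fun x a b => by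
      rcases Finset.mem_union.1 a with a | a <;> obtain ⟨n, a, c⟩ := Finset.mem_image.1 a
      exacts [(hP x b n a).1 c, (hP x b n a).2 c]

open Classical in
theorem LIso.update_mem [T2Space X] [T2Space X'] (h : LIso R' R f) (hf : Injective f) (p : X') :
    update (1 : X' → ℂ) p (R'.d (fun z => R.e (f p) (f z)) p)⁻¹ ∈
      (R'.pt p / h.pb (R.pt (f p))).Γ := fun x => by
  by_cases e : x = p
  · subst e
    refine ((P275RR.an_dsl (h.an x)).inv (by rw [dslope_same]; exact h.dn x)).congr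
      (((R'.tgt_nhds x).and (R'.ev_iff.1 (h.ev_src x))).mono fun t ht => ?_)
    by_cases a : t = 0
    · rw [a, LB.loc_zero, update_self, Pi.inv_apply, dslope_same]
      rfl
    · have b : R'.i x t ≠ x := fun b => a ((R'.i_eq ht.1).1 b)
      simp [LB.loc, RS.pt, b, hf.ne b, ht.2, R'.i_mem ht.1, R'.e_i ht.1, dslope_of_ne _ a,
        slope_def_field, tr_zero, div_eq_mul_inv, mul_comm]
  · exact LB.sec_iff.2 <| (RS.hol_const (1 : ℂ)).congr ((eventually_ne_nhds e).mono fun z hz => by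
      simp [R'.pt_φ_ne e, R.pt_φ_ne (hf.ne e), hz])

theorem LIso.exists_pt [T2Space X] [T2Space X'] (h : LIso R' R f) (hf : Injective f) (p : X') :
    ∃ u ∈ (R'.pt p / h.pb (R.pt (f p))).Γ, (∀ y, u y ≠ 0) ∧ ∀ y ≠ p, u y = 1 := by
  classical
  refine ⟨_, h.update_mem hf p, fun y => ?_, fun y hy => update_of_ne hy _ _⟩
  by_cases e : y = p
  · rw [e, update_self]; exact inv_ne_zero (h.ne p)
  · simp [e]

theorem LIso.pb_pt [T2Space X] (h : LIso R' R f) {q : X} (hq : q ∉ range f) : h.pb (R.pt q) = 1 :=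
  LB.ext (funext₂ fun x _ => R.pt_φ_ne fun e => hq ⟨x, e⟩)

/-- the derivative of `f` -/
theorem LIso.d_mem (h : LIso R' R f) :
    (fun y => R'.d (fun z => R.e (f y) (f z)) y) ∈ (R'.K / h.pb R.K).Γ := fun x =>
  ((h.hol x).sec_d.div (h.sec_pb.2 (RS.hol_e (R.mem _)).sec_d) (RS.d_e_ne (R.mem _))).congr
    ((h.ev_src x).mono fun y hy => by
      rw [Pi.div_apply, h.d_comp (RS.hol_e hy), mul_div_cancel_right₀ _ (RS.d_e_ne hy)])

theorem LIso.exists_lg [T2Space X] [T2Space X'] (h : LIso R' R f) (hf : Injective f) {S : Finset X}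
    {S' : Finset X'} (hS : ∀ y, y ∈ S' ↔ f y ∈ S) :
    ∃ u ∈ (lg R' S' / h.pb (lg R S)).Γ, (∀ y, u y ≠ 0) ∧ (∀ y ∈ S', u y = 1) ∧
      ∀ y ∉ S', u y = R'.d (fun z => R.e (f y) (f z)) y := by
  classical
  have e : lg R' S' / h.pb (lg R S) =
      R'.K / h.pb R.K * ∏ p ∈ S', R'.pt p / h.pb (R.pt (f p)) := by
    rw [lg, lg, map_mul, map_prod, Finset.prod_div_distrib, mul_div_mul_comm,
      Finset.prod_of_injOn (g := fun q => h.pb (R.pt q)) f hf.injOn (fun y => (hS y).1)
        (fun q a b => h.pb_pt fun ⟨y, c⟩ => b ⟨y, (hS y).2 (c ▸ a), c⟩) fun _ _ => rfl]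
  have m := LB.mul_mem h.d_mem (LB.prod_mem (T := S') fun p _ => h.update_mem hf p)
  have k : ∀ u : X' → ℂ, (∀ y ∈ S', u y = 1) →
      (∀ y ∉ S', u y = R'.d (fun z => R.e (f y) (f z)) y) → (∀ y, u y ≠ 0) ∧ (∀ y ∈ S', u y = 1) ∧
        ∀ y ∉ S', u y = R'.d (fun z => R.e (f y) (f z)) y := fun u a b => ⟨fun y => by
    by_cases hy : y ∈ S'
    · rw [a y hy]; exact one_ne_zero
    · rw [b y hy]; exact h.ne y, a, b⟩
  refine ⟨_, e ▸ m, k _ (fun y hy => ?_) fun y hy => ?_⟩
  · rw [Pi.mul_apply, Finset.prod_apply, Finset.prod_eq_single_of_mem y hy fun p _ a =>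
      update_of_ne a.symm _ _, update_self, mul_inv_cancel₀ (h.ne y)]
  · rw [Pi.mul_apply, Finset.prod_apply, Finset.prod_eq_one fun p a =>
      update_of_ne (ne_of_mem_of_not_mem a hy).symm _ _, mul_one]

section
variable [T2Space X] [CompactSpace X] [T2Space X'] [CompactSpace X'] [T2Space X''] [CompactSpace X'']

theorem LIso.isClopen_image (h : LIso R' R f) {U : Set X'} (hU : IsClopen U) : IsClopen (f '' U) :=
  ⟨(hU.isClosed.isCompact.image h.cont).isClosed, h.isOpenMap U hU.isOpen⟩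

theorem LIso.isClopen_range (h : LIso R' R f) : IsClopen (range f) :=
  image_univ ▸ h.isClopen_image isClopen_univ

theorem LIso.extend_mem (h : LIso R' R f) (hf : Injective f) {s' : X' → ℂ} (hs : s' ∈ (h.pb L).Γ) :
    extend f s' 0 ∈ L.Γ := fun y => by
  by_cases a : y ∈ range f
  · obtain ⟨x, rfl⟩ := a
    exact h.sec_pb.1 (by simpa only [hf.extend_apply] using hs x)
  · exact LB.sec_zero.congr (Eventually.mono (h.isClopen_range.compl.isOpen.mem_nhds a)
      fun z hz => (extend_apply' _ _ _ hz).symm)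

theorem LIso.degOn_pb (h : LIso R' R f) (hf : Injective f) {U : Set X'} (hU : IsClopen U) :
    degOn (h.pb L) U = degOn L (f '' U) := by
  classical
  have k : ∀ L : LB R, Eff L → degOn (h.pb L) U = degOn L (f '' U) := fun L ⟨s, a, b⟩ => by
    have a' := h.pb_mem a
    have b' : U ⊆ Gen fun y => s (f y) := fun y _ =>
      (a' y).ord_ne_top.1 (h.ord_pb ▸ (a _).ord_ne_top.2 (b ▸ mem_univ _))
    have z := finite_zeros_on hU (fun y _ => a' y) b'
    rw [degOn_eq_sum hU (fun y _ => a' y) b' (Z := z.toFinset)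
      (fun y c d e => d (z.mem_toFinset.2 ⟨c, e⟩)) fun y c => (z.mem_toFinset.1 c).1,
      degOn_eq_sum (h.isClopen_image hU) (fun y _ => a y) (b ▸ subset_univ _)
        (Z := z.toFinset.image f) (fun _ ⟨y, c, d⟩ e e' => e (Finset.mem_image.2
          ⟨y, z.mem_toFinset.2 ⟨c, d ▸ e'⟩, d⟩)) fun _ c =>
        let ⟨y, d, e⟩ := Finset.mem_image.1 c; ⟨y, (z.mem_toFinset.1 d).1, e⟩,
      Finset.sum_image hf.injOn]
    simp only [h.ord_pb]
  obtain ⟨E, a, b⟩ := exists_eff L
  have c := k _ b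
  rw [map_mul, degOn_mul, degOn_mul, k E a] at c
  exact add_right_cancel c

theorem LIso.degOn_K (h : LIso R' R f) (hf : Injective f) {U : Set X'} (hU : IsClopen U) :
    degOn R'.K U = degOn R.K (f '' U) := by
  rw [← h.degOn_pb hf hU, ← sub_eq_zero, ← degOn_div]
  exact degOn_of_ne (fun x _ => h.d_mem x) fun x _ => h.ne x

theorem LIso.chi_add (h : LIso R' R f) (hf : Injective f) (h' : LIso R'' R g) (hg : Injective g)
    (hc : IsCompl (range f) (range g)) : chi L = chi (h.pb L) + chi (h'.pb L) := by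
  have a := degOn_add_compl (L := L) h.isClopen_range
  have b := degOn_add_compl (L := R.K) h.isClopen_range
  rw [hc.compl_eq, ← image_univ, ← image_univ] at a b
  rw [← h.degOn_pb hf isClopen_univ, ← h'.degOn_pb hg isClopen_univ, degOn_univ, degOn_univ] at a
  rw [← h.degOn_K hf isClopen_univ, ← h'.degOn_K hg isClopen_univ, degOn_univ, degOn_univ,
    deg_K, deg_K, deg_K] at b
  rw [chi_eq L, chi_eq (h.pb L), chi_eq (h'.pb L)]
  omega

theorem LIso.ge_pb (h : LIso R' R f) (hf : Injective f) {n : ℤ} (a : Ge L n) : Ge (h.pb L) n :=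
  fun _ b c => h.degOn_pb hf b ▸ a _ (h.isClopen_image b) (c.image f)

end

/-- the structure induced by an open embedding -/
theorem RS.exists_comap (R : RS X) (hf : IsOpenEmbedding f) : ∃ R' : RS X', LIso R' R f := by
  let e : X' → OpenPartialHomeomorph X' ℂ := fun x =>
    (@IsOpenEmbedding.toOpenPartialHomeomorph _ _ _ _ f hf ⟨x⟩).trans (R.e (f x))
  let R' : RS X' := ⟨e, fun x => ⟨mem_univ x, R.mem _⟩, fun x => R.zero _, fun x y hy => by
    have a : (fun t => R.e (f x) (R.i (f y) t)) =ᶠ[𝓝 0] fun t => e x ((e y).symm t) :=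
      Eventually.mono (R.tends_i (f y) (hf.isOpen_range.mem_nhds ⟨y, rfl⟩)) fun t ht =>
        congrArg (R.e (f x)) (@IsOpenEmbedding.toOpenPartialHomeomorph_right_inv _ _ _ _ f hf ⟨y⟩
          _ ht).symm
    exact ⟨(R.hol _ _ hy.2).1.congr a, a.deriv_eq ▸ (R.hol _ _ hy.2).2⟩⟩
  exact ⟨R', hf.continuous, fun x => RS.hol_e (R'.mem x), fun x => RS.d_e_ne (R'.mem x)⟩

theorem RS.exists_sub (R : RS X) {U : Set X} (hU : IsOpen U) : ∃ R' : RS U, LIso R' R Subtype.val :=
  R.exists_comap hU.isOpenEmbedding_subtypeVal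

theorem lift_hol (R' : RS X') (hf : IsOpenEmbedding f) {x y : X'} (hy : y ∈ (R'.e x).source) :
    AnalyticAt ℂ (fun t => (R'.e x).lift_openEmbedding hf
      (((R'.e y).lift_openEmbedding hf).symm t)) 0 ∧ deriv (fun t => (R'.e x).lift_openEmbedding hf
      (((R'.e y).lift_openEmbedding hf).symm t)) 0 ≠ 0 := by
  simpa only [OpenPartialHomeomorph.lift_openEmbedding_symm, comp_apply,
    OpenPartialHomeomorph.lift_openEmbedding_apply] using R'.hol x y hy

theorem liso_lift (hf : IsOpenEmbedding f) (e : ∀ x, R.e (f x) = (R'.e x).lift_openEmbedding hf) :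
    LIso R' R f := by
  refine ⟨hf.continuous, fun x => ?_, fun x => ?_⟩ <;>
    simp only [e, OpenPartialHomeomorph.lift_openEmbedding_apply]
  exacts [RS.hol_e (R'.mem x), RS.d_e_ne (R'.mem x)]

theorem RS.exists_sum (R : RS X) (R' : RS X') :
    ∃ S : RS (X ⊕ X'), LIso R S Sum.inl ∧ LIso R' S Sum.inr := by
  refine ⟨⟨Sum.elim (fun x => (R.e x).lift_openEmbedding .inl)
    fun x => (R'.e x).lift_openEmbedding .inr, ?_, ?_, ?_⟩,
    liso_lift .inl fun _ => rfl, liso_lift .inr fun _ => rfl⟩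
  · rintro (x | x)
    exacts [⟨x, R.mem x, rfl⟩, ⟨x, R'.mem x, rfl⟩]
  · rintro (x | x)
    exacts [((R.e x).lift_openEmbedding_apply .inl).trans (R.zero x),
      ((R'.e x).lift_openEmbedding_apply .inr).trans (R'.zero x)]
  · rintro (x | x) _ ⟨y, hy, rfl⟩
    exacts [lift_hol R .inl hy, lift_hol R' .inr hy]

theorem RS.exists_sigma {α : Type} {Y : α → Type} [∀ a, TopologicalSpace (Y a)] (R : ∀ a, RS (Y a)) :
    ∃ S : RS (Σ a, Y a), ∀ a, LIso (R a) S (Sigma.mk a) := by
  refine ⟨⟨fun x => ((R x.1).e x.2).lift_openEmbedding .sigmaMk, fun x => ⟨x.2, (R _).mem _, rfl⟩,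
    fun x => (((R x.1).e x.2).lift_openEmbedding_apply .sigmaMk).trans ((R _).zero _), ?_⟩,
    fun a => liso_lift .sigmaMk fun _ => rfl⟩
  rintro x _ ⟨y, hy, rfl⟩
  exact lift_hol (R x.1) .sigmaMk hy

/-- gluing of bundles along a partition into open pieces -/
theorem exists_lb_glue {α : Type} {Y : α → Type} [∀ a, TopologicalSpace (Y a)] {Q : ∀ a, RS (Y a)}
    {k : ∀ a, Y a → X} (h : ∀ a, LIso (Q a) R (k a)) (hb : Bijective fun z : Σ a, Y a => k z.1 z.2)
    (B : ∀ a, LB (Q a)) : ∃ L : LB R, ∀ a, (h a).pb L = B a := by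
  let e := Equiv.ofBijective _ hb
  let ψ : (Σ a, Y a) → X → ℂ := fun z => extend (k z.1) ((B z.1).φ z.2) 1
  have i : ∀ a, Injective (k a) := fun a => hb.1.comp (sigma_mk_injective (i := a))
  have v : ∀ a x y, ψ (e.symm (k a x)) (k a y) = (B a).φ x y := fun a x y =>
    (congrFun (congrArg ψ (e.symm_apply_apply ⟨a, x⟩)) _).trans ((i a).extend_apply ..)
  refine ⟨⟨fun x => ψ (e.symm x), hb.2.forall.2 fun z => (v ..).trans ((B _).self _),
    fun x y => ?_, hb.2.forall.2 fun z => ?_⟩, fun a => LB.ext (funext₂ (v a))⟩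
  · by_cases a : ∃ z, k (e.symm x).1 z = y
    · obtain ⟨z, rfl⟩ := a
      exact ((i _).extend_apply ..).trans_ne ((B _).ne _ _)
    · exact (extend_apply' _ _ _ a).trans_ne one_ne_zero
  · rw [← (h z.1).map_nhds, eventually_map]
    exact ((B z.1).hol z.2).mono fun y a => (h z.1).hol_iff.1 (by simpa only [v] using a)

theorem Par.transport {ι : Type} [Fintype ι] {M : ι → ℕ} {o : ι} {C : Set (V M)} [DecidableEq X']
    {N : Finset (X × X)} {A : ι → LB R} {π : X → V M} (e : X' ≃ X) (h : LIso R' R e)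
    (p : Par o C N A π) : Par o C (N.image (Prod.map e.symm e.symm)) (fun i => h.pb (A i)) (π ∘ e) := by
  have m : ∀ n, n ∈ N.image (Prod.map e.symm e.symm) ↔ (e n.1, e n.2) ∈ N := fun n => by
    rw [Finset.mem_image]
    exact ⟨fun ⟨n', a, b⟩ => by simpa [← b] using a, fun a => ⟨_, a, by simp⟩⟩
  have d : ∀ x, deriv (br (fun i => h.pb (A i)) (π ∘ e) x) 0 o =
      Units.mk0 _ (h.ne x) • deriv (br A π (e x)) 0 o := fun x =>
    congrFun (h.deriv_eq (u := fun y i j => π y i j / (A i).φ (e x) y)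
      (an_br' fun i j => (p.sec i j).1 _)) o
  refine ⟨⟨fun n a n' b c => p.nd.ne _ ((m n).1 a) _ ((m n').1 b) (congrArg e c),
    fun n a n' b c => ?_, fun n a n' b c => ?_⟩, fun i j => ⟨h.pb_mem (p.sec i j).1,
      fun n a => (p.sec i j).2 _ ((m n).1 a)⟩, fun x => p.ne _,
    fun c => (p.img c).trans e.surjective.exists, fun x y t a => ?_, fun x => ?_, fun n a => ?_⟩
  · have := p.nd.inj1 ((m n).1 a) ((m n').1 b) (congrArg e c)
    exact Prod.ext c (e.injective (congrArg Prod.snd this))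
  · have := p.nd.inj2 ((m n).1 a) ((m n').1 b) (congrArg e c)
    exact Prod.ext (e.injective (congrArg Prod.fst this)) c
  · exact (p.inj _ _ t a).imp (fun b => e.injective b) (Or.imp (m _).2 (m _).2)
  · convert (p.imm (e x)).units_smul ![1, Units.mk0 _ (h.ne x)] using 1
    funext i
    fin_cases i
    exacts [(one_smul ℂˣ _).symm, d x]
  · convert (p.cross _ ((m n).1 a)).units_smul
      ![1, Units.mk0 _ (h.ne n.1), Units.mk0 _ (h.ne n.2)] using 1
    funext i
    fin_cases i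
    exacts [(one_smul ℂˣ _).symm, d _, d _]

end Vale.Agent.P269.Cv
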