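import Vale.Agent.P269.Cv.P1
import Vale.Agent.P269.Cv.Map

/-!
# Rational components
-/

set_option linter.unusedSectionVars false

namespace Vale.Agent.P269.Cv

open Set Function Topology Filter Module

variable {X : Type} [TopologicalSpace X] {R : RS X} {L : LB R} {s : X → ℂ} {x : X}

theorem d_ne_of_ord {f : X → ℂ} (h : R.Hol f x) (o : (1 : LB R).ord f x = 1) : R.d f x ≠ 0 := by
  have e : (1 : LB R).loc f x = fun t => f (R.i x t) := funext fun t => div_one _
  have h0 : f (R.i x 0) = 0 := by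
    rw [R.i_zero]
    exact by_contra fun a => one_ne_zero (o.symm.trans ((LB.ord_eq_zero (LB.sec_one.2 h)).2 a))
  have := AnalyticAt.analyticOrderAt_deriv_add_one h
  simp only [h0, sub_zero] at this
  rw [← e, ← LB.ord, o, e] at this
  refine (AnalyticAt.analyticOrderAt_eq_zero (AnalyticAt.deriv h)).1 ?_
  exact WithTop.add_right_cancel ENat.one_ne_top (this.trans (zero_add 1).symm)

variable [T2Space X] [CompactSpace X] {E : Set X}

section conn
variable [ConnectedSpace X]

theorem gen_univ (h : s ∈ L.Γ) (h0 : s x ≠ 0) : Gen s = univ :=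
  (isClopen_gen h).eq_univ ⟨x, (h x).mem_gen h0⟩

theorem const_of_mem (h : s ∈ (1 : LB R).Γ) : ∃ c : ℂ, s = c • (1 : X → ℂ) :=
  let ⟨c, hc⟩ := exists_const isClopen_univ isConnected_univ (fun x _ => LB.one_mem x)
    (fun x _ => h x) fun _ _ => one_ne_zero
  ⟨c, funext fun x => hc x (mem_univ x)⟩

theorem finrank_one : finrank ℂ (1 : LB R).Γ = 1 := by
  rw [show (1 : LB R).Γ = Submodule.span ℂ {1} from le_antisymm (fun s hs =>
    let ⟨c, e⟩ := const_of_mem hs
    Submodule.mem_span_singleton.2 ⟨c, e.symm⟩) ((Submodule.span_singleton_le_iff_mem _ _).2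
      LB.one_mem), finrank_span_singleton one_ne_zero]

/-- a section of a bundle of degree one has exactly one zero, which is simple -/
theorem one_zero (hL : deg L = 1) (h : s ∈ L.Γ) (h0 : s x ≠ 0) :
    ∃ y, s y = 0 ∧ L.ord s y = 1 ∧ ∀ z, s z = 0 → z = y := by
  classical
  have g := gen_univ h h0
  obtain ⟨y, hy⟩ : ∃ y, s y = 0 := by_contra fun a => by
    have := deg_of_ne h (not_exists.1 a)
    omega
  have u : ∀ z, s z = 0 → z = y := fun z hz => by_contra fun a => by
    have := card_le_degOn isClopen_univ (fun x _ => h x) g.ge (T := {z, y}) (by simp [hz, hy])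
    rw [Finset.card_pair a, degOn_univ] at this
    omega
  refine ⟨y, hy, ?_, u⟩
  have := deg_eq_sum h g (Z := {y}) fun z a b => a (by simp [u z b])
  rw [hL, Finset.sum_singleton] at this
  rw [← ENat.natCast_toNat ((h y).ord_ne_top.2 (g ▸ mem_univ y)),
    show (L.ord s y).toNat = 1 by omega]
  rfl

theorem exists_iso (h : chi (1 : LB R) = 1) {p q r : X} (hpq : p ≠ q) (hpr : p ≠ r) (hqr : q ≠ r) :
    ∃ e : X ≃ OnePoint ℂ, LIso R P1 e ∧ e p = (0 : ℂ) ∧ e q = OnePoint.infty ∧ e r = (1 : ℂ) := by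
  classical
  obtain ⟨s₀, m₀, n₀⟩ : ∃ s ∈ (R.pt q).Γ, s q ≠ 0 := by
    by_contra! a
    have k := finrank_le_of_forall (W := (R.pt q).Γ) (W' := (1 : LB R).Γ) (RS.can q) fun s hs =>
      let ⟨s', b, c, _⟩ := exists_div (L := 1) ((one_mul (R.pt q)).symm ▸ hs) (a s hs)
      ⟨s', b, c⟩
    have := chi_le (R.pt q)
    rw [chi_eq, deg_pt, h] at this
    rw [finrank_one] at k
    omega
  have sub : ∀ s ∈ (R.pt q).Γ, ∀ c : ℂ, s - c • RS.can q ∈ (R.pt q).Γ := fun s hs c =>
    sub_mem hs (Submodule.smul_mem _ c (R.can_mem q))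
  obtain ⟨s, m, n, sp, sr⟩ : ∃ s ∈ (R.pt q).Γ, s q ≠ 0 ∧ s p = 0 ∧ s r = 1 := by
    have a : (s₀ - s₀ p • RS.can q) p = 0 := by simp [can_ne hpq]
    obtain ⟨y, -, -, u⟩ := one_zero (deg_pt q) (sub s₀ m₀ (s₀ p)) (x := q) (by simpa using n₀)
    have b : (s₀ - s₀ p • RS.can q) r ≠ 0 := fun b => hpr ((u p a).trans (u r b).symm)
    refine ⟨((s₀ - s₀ p • RS.can q) r)⁻¹ • (s₀ - s₀ p • RS.can q),
      Submodule.smul_mem _ _ (sub s₀ m₀ _), mul_ne_zero (inv_ne_zero b) (by simpa using n₀), ?_,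
      inv_mul_cancel₀ b⟩
    rw [Pi.smul_apply, a, smul_zero]
  have key := fun c => one_zero (deg_pt q) (sub s m c) (x := q) (by simpa using n)
  have ev : ∀ c y, y ≠ q → ((s - c • RS.can q) y = 0 ↔ s y = c) := fun c y hy => by
    simp [can_ne hy, sub_eq_zero]
  let F : X → OnePoint ℂ := fun y => if y = q then OnePoint.infty else (s y : ℂ)
  have F0 : F q = OnePoint.infty := if_pos rfl
  have F1 : ∀ y, y ≠ q → F y = (s y : ℂ) := fun y hy => if_neg hy
  have bij : Bijective F := by
    refine ⟨fun y z e => ?_, fun w => ?_⟩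
    · by_cases a : y = q <;> by_cases b : z = q
      · rw [a, b]
      · exact absurd (a ▸ e) (by simp [F0, F1 z b])
      · exact absurd (b ▸ e) (by simp [F0, F1 y a])
      · rw [F1 y a, F1 z b, OnePoint.coe_eq_coe] at e
        obtain ⟨v, -, -, u⟩ := key (s z)
        exact (u y ((ev _ y a).2 e)).trans (u z ((ev _ z b).2 rfl)).symm
    · induction w using OnePoint.rec with
      | infty => exact ⟨q, F0⟩
      | coe c =>
        obtain ⟨y, a, -⟩ := key c
        have b : y ≠ q := fun b => n (by simpa [b] using a)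
        exact ⟨y, by rw [F1 y b, (ev c y b).1 a]⟩
  have hs : ∀ t ∈ (R.pt q).Γ, ∀ y, y ≠ q → R.Hol t y := fun t ht y hy => by
    simpa [LB.sec_iff, R.pt_φ_ne hy] using ht y
  have e1 : ∀ y, y ≠ q → (s - s y • RS.can q) =ᶠ[𝓝 y] fun z => P1.e (F y) (F z) := fun y hy =>
    (eventually_ne_nhds hy).mono fun z hz => by
      simp [F1 y hy, F1 z hz, P1_e_coe, can_ne hz]
  have e2 : (fun z => P1.e (F q) (F z)) = fun z => RS.can q z / s z := funext fun z => by
    by_cases a : z = q
    · simp [a, F0, P1_e_infty]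
    · simp [F0, F1 z a, P1_e_infty, can_ne a]
  have h2 : R.Hol (fun z => RS.can q z / s z) q := (R.can_mem q q).hol_div (m q) n
  refine ⟨Equiv.ofBijective F bij, ⟨continuous_iff_continuousAt.2 fun y => ?_, fun y => ?_,
    fun y => ?_⟩, (F1 p hpq).trans (by rw [sp]), F0, (F1 r hqr.symm).trans (by rw [sr])⟩
  · by_cases a : y = q
    · subst a
      refine ((P1.contAt_i (x := OnePoint.infty) (mem_univ _)).comp h2.continuousAt).congr
        (((m y).ev_ne n).mono fun z hz => ?_)
      by_cases b : z = y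
      · simp [b, F0, P1_i_infty]
      · simp [F1 z b, P1_i_infty, can_ne b, iv_ne (inv_ne_zero hz)]
    · exact (OnePoint.continuous_coe.continuousAt.comp (hs s m y a).continuousAt).congr
        ((eventually_ne_nhds a).mono fun z hz => (F1 z hz).symm)
  · by_cases a : y = q
    · exact a ▸ (e2 ▸ h2 : R.Hol (fun z => P1.e (F q) (F z)) q)
    · exact (hs _ (sub s m _) y a).congr (e1 y a)
  · by_cases a : y = q
    · subst a
      refine (congrArg (R.d · y) e2).trans_ne (d_ne_of_ord h2 ?_)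
      have := LB.ord_mul (R.can_mem y y) ((m y).inv n)
      rwa [(LB.ord_eq_zero ((m y).inv n)).2 (inv_ne_zero n), add_zero, mul_inv_cancel,
        R.ord_can] at this
    · refine (RS.d_congr (e1 y a)).symm.trans_ne (d_ne_of_ord (hs _ (sub s m _) y a) ?_)
      obtain ⟨v, -, o, u⟩ := key (s y)
      rw [← u y ((ev _ y a).2 rfl)] at o
      rw [← o, LB.ord, LB.ord]
      congr 1
      funext t
      rw [LB.loc, LB.loc, R.pt_φ_ne a, LB.one_φ]

end conn

/-- `E` is a rational component -/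
structure IsRat (R : RS X) (E : Set X) : Prop where
  clopen : IsClopen E
  conn : IsConnected E
  deg : degOn R.K E = -2

theorem exists_sub_conn (hE : IsClopen E) (hc : IsConnected E) : ∃ (R' : RS E)
    (_ : CompactSpace E), ConnectedSpace E ∧ ∃ h : LIso R' R Subtype.val,
      degOn R.K E = -2 * chi (1 : LB R') ∧ ∀ L : LB R, deg (h.pb L) = degOn L E := by
  obtain ⟨R', h⟩ := R.exists_sub hE.isOpen
  have c : CompactSpace E := isCompact_iff_compactSpace.1 hE.isClosed.isCompact
  refine ⟨R', c, isConnected_iff_connectedSpace.1 hc, h, ?_, fun L => ?_⟩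
  · rw [← deg_K, ← degOn_univ, h.degOn_K Subtype.val_injective isClopen_univ, image_univ,
      Subtype.range_coe]
  · rw [← degOn_univ, h.degOn_pb Subtype.val_injective isClopen_univ, image_univ,
      Subtype.range_coe]

theorem degOn_K_ge (hE : IsClopen E) (hc : IsConnected E) :
    -2 ≤ degOn R.K E ∧ Even (degOn R.K E) := by
  obtain ⟨R', _, _, -, e, -⟩ := exists_sub_conn (R := R) hE hc
  have := chi_le (1 : LB R')
  rw [finrank_one] at this
  exact ⟨by omega, -chi (1 : LB R'), by omega⟩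

theorem IsRat.exists_param (h : IsRat R E) {p q r : X} (hp : p ∈ E) (hq : q ∈ E) (hr : r ∈ E)
    (hpq : p ≠ q) (hpr : p ≠ r) (hqr : q ≠ r) : ∃ k : OnePoint ℂ → X, LIso P1 R k ∧ Injective k ∧
      range k = E ∧ k (0 : ℂ) = p ∧ k OnePoint.infty = q ∧ k (1 : ℂ) = r := by
  obtain ⟨R', _, _, k, e, -⟩ := exists_sub_conn (R := R) h.clopen h.conn
  obtain ⟨F, a, b, c, d⟩ := exists_iso (R := R') (by have := h.deg; omega) (p := ⟨p, hp⟩)
    (q := ⟨q, hq⟩) (r := ⟨r, hr⟩) (by simpa using hpq) (by simpa using hpr) (by simpa using hqr)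
  refine ⟨Subtype.val ∘ F.symm, k.comp (LIso.symm F a),
    Subtype.val_injective.comp F.symm.injective, ?_, ?_, ?_, ?_⟩
  · rw [F.symm.surjective.range_comp, Subtype.range_coe]
  · rw [← b, comp_apply, F.symm_apply_apply]
  · rw [← c, comp_apply, F.symm_apply_apply]
  · rw [← d, comp_apply, F.symm_apply_apply]

theorem isRat_range {k : OnePoint ℂ → X} (h : LIso P1 R k) (hk : Injective k) :
    IsRat R (range k) where
  clopen := image_univ ▸ h.isClopen_image isClopen_univ
  conn := isConnected_range h.cont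
  deg := by rw [← image_univ, ← h.degOn_K hk isClopen_univ, degOn_univ, deg_K, P1_chi, mul_one]

theorem IsRat.exists_triv (h : IsRat R E) (hL : degOn L E = 0) :
    ∃ s ∈ L.Γ, (∀ x ∈ E, s x ≠ 0) ∧ ∀ x ∉ E, s x = 0 := by
  obtain ⟨R', _, _, k, e, e'⟩ := exists_sub_conn (R := R) h.clopen h.conn
  have d := (e' L).trans hL
  obtain ⟨s, m, y, n⟩ : ∃ s ∈ (k.pb L).Γ, ∃ y, s y ≠ 0 := by
    by_contra! a
    have b := chi_le (k.pb L)
    have := h.deg
    rw [(Submodule.eq_bot_iff _).2 fun s hs => funext (a s hs), finrank_bot, chi_eq] at b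
    omega
  refine ⟨_, k.extend_mem Subtype.val_injective m, fun x hx => ?_, fun x hx =>
    extend_apply' _ _ _ (by simpa using hx)⟩
  rw [show x = (⟨x, hx⟩ : E).val from rfl, Subtype.val_injective.extend_apply]
  intro a
  have := card_le_degOn isClopen_univ (fun x _ => m x) (gen_univ m n).ge (T := {⟨x, hx⟩})
    (by simpa using a)
  rw [degOn_univ, d] at this
  simp at this

open Classical in
/-- the form `dz / z` -/
theorem P1_log : (fun x : OnePoint ℂ => x.elim (-1) fun z => if z = 0 then 1 else z⁻¹) ∈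
    (lg P1 {((0 : ℂ) : OnePoint ℂ), OnePoint.infty}).Γ := fun x => by
  rw [lg, Finset.prod_pair (OnePoint.coe_ne_infty _)]
  induction x using OnePoint.rec with
  | infty =>
    refine (analyticAt_const (v := (-1 : ℂ))).congr (.of_forall fun t => ?_)
    by_cases h : t = 0
    · simp [h]
    · rw [P1_loc_infty, LB.mul_φ, LB.mul_φ, P1_pt_infty h, P1_K_infty, if_neg h,
        P1.pt_φ_ne (OnePoint.infty_ne_coe _), iv_ne h]
      simp only [OnePoint.elim_some, if_neg (inv_ne_zero h)]
      field_simp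
  | coe a =>
    by_cases h : a = 0
    · subst h
      refine (analyticAt_const (v := (1 : ℂ))).congr (.of_forall fun t => ?_)
      by_cases h : t = 0
      · simp [h]
      · simp [P1_loc_coe, P1_K_coe, h, RS.pt, P1_src_coe, P1_e_coe]
    · have an : AnalyticAt ℂ (fun t : ℂ => (t + a)⁻¹) 0 :=
        (analyticAt_id.add analyticAt_const).inv (by simpa using h)
      refine an.congr (((continuous_add_const a).continuousAt.eventually_ne
        (by simpa using h)).mono fun t ht => ?_)
      simp [P1_loc_coe, P1_K_coe, P1.pt_φ_ne (OnePoint.coe_ne_infty a), ht,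
        P1.pt_φ_ne (OnePoint.coe_injective.ne h)]

theorem IsRat.exists_log (h : IsRat R E) {S : Finset X} {p q : X} (hpq : p ≠ q)
    (hS : ∀ x ∈ E, x ∈ S ↔ x = p ∨ x = q) (hp : p ∈ E) (hq : q ∈ E) :
    ∃ s ∈ (lg R S).Γ, (∀ x ∈ E, s x ≠ 0) ∧ s p = 1 ∧ s q = -1 := by
  classical
  have := R.neBot p
  obtain ⟨r, ⟨r1, r2⟩, r3⟩ := ((Eventually.and (h.clopen.isOpen.mem_nhds hp)
    (eventually_ne_nhds hpq)).filter_mono (nhdsWithin_le_nhds (s := {p}ᶜ))).and
      self_mem_nhdsWithin |>.exists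
  obtain ⟨k, a, b, c, k0, k1, -⟩ := h.exists_param hp hq r1 hpq (Ne.symm r3) r2.symm
  obtain ⟨u, u1, u2, u3, -⟩ := a.exists_lg b (S := S)
    (S' := {((0 : ℂ) : OnePoint ℂ), OnePoint.infty}) fun y => by
      rw [hS _ (c ▸ mem_range_self y), ← k0, ← k1, b.eq_iff, b.eq_iff, Finset.mem_insert,
        Finset.mem_singleton]
  have m := LB.mul_mem P1_log (LB.inv_mem u1 u2)
  rw [inv_div, mul_div_cancel] at m
  refine ⟨_, a.extend_mem b m, fun x hx => ?_, ?_, ?_⟩
  · obtain ⟨y, rfl⟩ := c.ge hx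
    rw [b.extend_apply]
    refine mul_ne_zero ?_ (inv_ne_zero (u2 y))
    induction y using OnePoint.rec with
    | infty => simp
    | coe z => by_cases e : z = 0 <;> simp [e]
  · rw [← k0, b.extend_apply]
    simp [u3]
  · rw [← k1, b.extend_apply]
    simp [u3]

end Vale.Agent.P269.Cv
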