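import Vale.Agent.P269.Cv.Ctr

/-!
# Contraction of a rational bubble: sections, degrees, the dualising bundle
-/

set_option linter.unusedSectionVars false

namespace Vale.Agent.P269.Cv

open Set Function Topology Filter Module Classical

variable {X X' Y Y' : Type} [TopologicalSpace X] [TopologicalSpace X'] [T2Space X] [CompactSpace X]
  [T2Space X'] [CompactSpace X'] [TopologicalSpace Y] [TopologicalSpace Y'] [T2Space Y]
  [CompactSpace Y] [T2Space Y'] [CompactSpace Y'] {ν : Type} [Fintype ν]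
  {R : RS X} {R' : RS X'} {N : Finset (X × X)} {N' : Finset (X' × X')} {p : ν → X}
  {p' : Option ν → X'} {c : X} {j : X → X'} {r : X' → X} {L : LB R} {L' : LB R'}

theorem Jn.sg_eq (hN : Nd N) {x y : X} (h : Jn N x y) : Xi.sg N y = -Xi.sg N x := by
  rcases h with a | a
  · rw [show Xi.sg N x = 1 from Xi.sg_fst hN a, show Xi.sg N y = -1 from Xi.sg_snd a]
  · rw [show Xi.sg N y = 1 from Xi.sg_fst hN a, show Xi.sg N x = -1 from Xi.sg_snd a, neg_neg]

theorem Jn.not_sm {x y : X} (h : Jn N x y) : ¬Sm N x := fun a => sm_iff.1 a y h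

theorem mem_special (N : Finset (X × X)) (P : Finset X) (y : X) :
    y ∈ N.image Prod.fst ∪ N.image Prod.snd ∪ P ↔ ¬(Sm N y ∧ y ∉ P) := by
  simp only [not_and_or, not_not, Sm, not_forall, Finset.mem_union, Finset.mem_image, exists_prop,
    and_or_left, exists_or]

theorem omega_insert {P : Finset X} {q : X} (hq : q ∉ P) :
    omega R N (insert q P) / R.pt q = omega R N P := by
  rw [omega, omega, Finset.prod_insert hq, div_eq_iff_eq_mul]
  ac_rfl

/-- the comparison of the dualising bundles on the normalisations -/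
theorem LIso.exists_omega' {f : X → X'} (h : LIso R R' f) (hf : Injective f) (hN : Nd N)
    (hN' : Nd N') {P : Finset X} {P' : Finset X'} (hP : ∀ p ∈ P, Sm N p) (hP' : ∀ p ∈ P', Sm N' p)
    (hS : ∀ y, (Sm N y ∧ y ∉ P) ↔ Sm N' (f y) ∧ f y ∉ P') :
    ∃ u ∈ (omega R N P / h.pb (omega R' N' P')).Γ, (∀ y, u y ≠ 0) ∧
      (∀ y, Sm N y ∧ y ∉ P → u y = R.d (fun z => R'.e (f y) (f z)) y) ∧
      ∀ y, ¬(Sm N y ∧ y ∉ P) → u y = Xi.sg N y * Xi.sg N' (f y) := by
  obtain ⟨u, a, b, d, e⟩ := h.exists_lg hf (S := N'.image Prod.fst ∪ N'.image Prod.snd ∪ P')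
    (S' := N.image Prod.fst ∪ N.image Prod.snd ∪ P) fun y => by rw [mem_special, mem_special, hS]
  have s1 : ∀ y, Sm N y ∧ y ∉ P → Xi.sg N y * Xi.sg N' (f y) = 1 := fun y hy => by
    rw [Xi.sg_sm hy.1, Xi.sg_sm ((hS y).1 hy).1, mul_one]
  refine ⟨u * fun y => Xi.sg N y * Xi.sg N' (f y), ?_,
    fun y => mul_ne_zero (b y) (mul_ne_zero (Xi.sg_ne _) (Xi.sg_ne _)),
    fun y hy => by simp [s1 y hy, e y (by rw [mem_special]; exact not_not.2 hy)],
    fun y hy => by simp [d y ((mem_special _ _ _).2 hy)]⟩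
  rw [omega_eq hN hP, omega_eq hN' hP', map_mul, mul_div_mul_comm]
  refine LB.mul_mem a fun y => ?_
  refine ((LB.cst_mem _ y).div (h.pb_mem (LB.cst_mem _) y) (Xi.sg_ne _)).congr
    (.of_forall fun z => ?_)
  exact (div_eq_iff (Xi.sg_ne _)).2 (by
    rw [mul_assoc]; exact ((congrArg _ (Xi.sg_sq _)).trans (mul_one _)).symm)

namespace Ctr

variable (h : Ctr R R' N N' p p' c j r)
include h

theorem clopen : IsClopen (range j) := h.liso.isClopen_range

theorem ev_out {y : X'} (a : y ∉ range j) : ∀ᶠ z in 𝓝 y, z ∉ range j :=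
  h.clopen.compl.isOpen.mem_nhds a

theorem of_not_surj (a : ¬Surjective j) : IsRat R' (range j)ᶜ ∧ p' none ∉ range j :=
  h.alt.elim (fun b => (a b.1).elim) fun b => ⟨b.1, b.2.1⟩

theorem conn_out {y : X'} (a : y ∉ range j) : IsConnected (range j)ᶜ :=
  (h.of_not_surj fun b => a (b y)).1.conn

theorem continuous_r : Continuous r := continuous_iff_continuousAt.2 fun y => by
  by_cases a : y ∈ range j
  · obtain ⟨x, rfl⟩ := a
    rw [ContinuousAt, ← h.liso.map_nhds, tendsto_map'_iff, h.left.comp_eq_id, h.left]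
    exact tendsto_id
  · exact (continuousAt_const (y := c)).congr ((h.ev_out a).mono fun z hz => (h.out z hz).symm)

theorem r_mark (n : Option ν) : r (p' n) = n.elim c p := by
  rcases h.alt with ⟨-, -, a⟩ | ⟨-, a, -, -, ⟨m, b, d, e, -⟩ | ⟨-, -, -, -, b, -⟩⟩
  · rw [a, h.left]
  · rcases n with _ | n
    · exact h.out _ a
    · by_cases f : n = m
      · rw [f, h.out _ d]; exact b.symm
      · rw [e n f, h.left]; rfl
  · rcases n with _ | n
    · exact h.out _ a
    · rw [b, h.left]; rfl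

theorem r_jn {a b : X'} (e : Jn N' a b) : r a = r b ∨ Jn N (r a) (r b) := by
  rcases h.alt with ⟨h1, h2, -⟩ | ⟨-, -, f, hf, ⟨n, -, -, -, h1⟩ | ⟨c', f', hf', h1, -, h2⟩⟩
  · obtain ⟨x, rfl⟩ := h1 a
    obtain ⟨y, rfl⟩ := h1 b
    rw [h.left, h.left]
    exact .inr ((h2 x y).1 e)
  · rcases (h1 a b).1 e with ⟨x, y, d, rfl, rfl⟩ | d
    · rw [h.left, h.left]
      exact .inr d
    · rcases Sym2.eq_iff.1 d with ⟨rfl, rfl⟩ | ⟨rfl, rfl⟩ <;> rw [h.left, h.out _ hf] <;>
        exact .inl rfl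
  · rcases (h2 a b).1 e with ⟨x, y, d, -, rfl, rfl⟩ | d | d
    · rw [h.left, h.left]
      exact .inr d
    · rcases Sym2.eq_iff.1 d with ⟨rfl, rfl⟩ | ⟨rfl, rfl⟩ <;> rw [h.left, h.out _ hf] <;>
        exact .inl rfl
    · rcases Sym2.eq_iff.1 d with ⟨rfl, rfl⟩ | ⟨rfl, rfl⟩ <;> rw [h.left, h.out _ hf']
      exacts [.inr h1.symm, .inr h1]

theorem jn_down {x y : X} (e : Jn N' (j x) (j y)) : Jn N x y := by
  have := h.r_jn e
  rw [h.left, h.left] at this
  exact this.resolve_left fun a => e.ne h.nd' (congrArg j a)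

theorem jn_range {a b : X'} (e : Jn N' a b) : a ∈ range j ∨ b ∈ range j := by
  rcases h.alt with ⟨h1, -⟩ | ⟨-, -, f, -, ⟨n, -, -, -, h1⟩ | ⟨c', f', -, -, -, h2⟩⟩
  · exact .inl (h1 a)
  · rcases (h1 a b).1 e with ⟨x, y, -, rfl, rfl⟩ | d
    · exact .inl ⟨x, rfl⟩
    · exact (Sym2.eq_iff.1 d).imp (fun a => ⟨c, a.1.symm⟩) fun a => ⟨c, a.2.symm⟩
  · rcases (h2 a b).1 e with ⟨x, y, -, -, rfl, rfl⟩ | d | d
    · exact .inl ⟨x, rfl⟩
    · exact (Sym2.eq_iff.1 d).imp (fun a => ⟨c, a.1.symm⟩) fun a => ⟨c, a.2.symm⟩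
    · exact (Sym2.eq_iff.1 d).imp (fun a => ⟨c', a.1.symm⟩) fun a => ⟨c', a.2.symm⟩

theorem jn_up {x y : X} (e : Jn N x y) : ∃ b, Jn N' (j x) b := by
  rcases h.alt with ⟨-, h1, -⟩ | ⟨-, -, f, -, ⟨n, -, -, -, h1⟩ | ⟨c', f', -, -, -, h2⟩⟩
  · exact ⟨_, (h1 x y).2 e⟩
  · exact ⟨_, (h1 _ _).2 (.inl ⟨x, y, e, rfl, rfl⟩)⟩
  · by_cases a : s(x, y) = s(c, c')
    · rcases Sym2.eq_iff.1 a with ⟨rfl, -⟩ | ⟨rfl, -⟩
      exacts [⟨f, (h2 _ _).2 (.inr (.inl rfl))⟩, ⟨f', (h2 _ _).2 (.inr (.inr rfl))⟩]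
    · exact ⟨_, (h2 _ _).2 (.inl ⟨x, y, e, a, rfl, rfl⟩)⟩

theorem mark_up (n : ν) : p' (some n) = j (p n) ∨ ∃ b, Jn N' (j (p n)) b := by
  rcases h.alt with ⟨-, -, h1⟩ | ⟨-, -, f, -, ⟨m, h1, -, h2, h3⟩ | ⟨c', f', -, -, h1, -⟩⟩
  · exact .inl (h1 _)
  · by_cases a : n = m
    · exact .inr ⟨f, (h3 _ _).2 (.inr (by rw [a, h1]))⟩
    · exact .inl (h2 n a)
  · exact .inl (h1 n)

theorem special (a : ¬Surjective j) : ¬(Sm N c ∧ c ∉ Finset.univ.image p) := by
  rcases h.alt with ⟨h1, -⟩ | ⟨-, -, f, -, ⟨m, h1, -⟩ | ⟨c', f', -, h1, -⟩⟩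
  · exact (a h1).elim
  · exact fun b => b.2 (Finset.mem_image.2 ⟨m, Finset.mem_univ _, h1⟩)
  · exact fun b => h1.not_sm b.1

/-- the special points on the image of `j`, the new marked point being ignored -/
theorem sp_iff (x : X) : (Sm N x ∧ x ∉ Finset.univ.image p) ↔
    Sm N' (j x) ∧ j x ∉ Finset.univ.image fun n => p' (some n) := by
  refine ⟨fun a => ⟨Cv.sm_iff.2 fun b e => ?_, fun e => ?_⟩,
    fun a => ⟨Cv.sm_iff.2 fun y e => ?_, fun e => ?_⟩⟩
  · by_cases d : b ∈ range j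
    · obtain ⟨y, rfl⟩ := d
      exact (h.jn_down e).not_sm a.1
    · have := h.r_jn e
      rw [h.left, h.out b d] at this
      exact this.elim (fun f => h.special (fun g => d (g b)) (f ▸ a)) fun f => f.not_sm a.1
  · obtain ⟨n, -, e⟩ := Finset.mem_image.1 e
    refine a.2 (Finset.mem_image.2 ⟨n, Finset.mem_univ _, ?_⟩)
    rw [← h.left x, ← e, h.r_mark]
    rfl
  · exact let ⟨_, b⟩ := h.jn_up e; b.not_sm a.1
  · obtain ⟨n, -, rfl⟩ := Finset.mem_image.1 e
    exact (h.mark_up n).elim (fun b => a.2 (Finset.mem_image.2 ⟨n, Finset.mem_univ _, b⟩))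
      fun ⟨_, b⟩ => b.not_sm a.1

omit h in
theorem image_eq (p' : Option ν → X') :
    Finset.univ.image p' = insert (p' none) (Finset.univ.image fun n => p' (some n)) := by
  ext y
  simp [Option.exists, eq_comm]

theorem sm_iff {x : X} (h1 : x ≠ c) (h2 : ¬Jn N c x) : (Sm N' (j x) ∧ j x ∉ Finset.univ.image p') ↔
    Sm N x ∧ x ∉ Finset.univ.image p := by
  have _ := h2
  have : j x ≠ p' none := fun e => h1 (by rw [← h.left x, e, h.r_mark]; rfl)
  rw [h.sp_iff, image_eq, Finset.mem_insert, or_iff_right this]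

/-- the two special points of the bubble other than the new marked point -/
theorem bubble (a : ¬Surjective j) : ∃ e ∉ range j, ∃ e' ∉ range j, e ≠ e' ∧ Jn N' (j c) e ∧
    (∀ y ∉ range j, ¬(Sm N' y ∧ y ∉ Finset.univ.image fun n => p' (some n)) ↔ y = e ∨ y = e') ∧
    ∀ x, ∀ y ∉ range j, Jn N' (j x) y → x = c ∧ y = e ∨ Jn N c x ∧ y = e' := by
  have i := h.left.injective
  rcases h.alt with ⟨h1, -⟩ | ⟨-, -, e, he, ⟨m, -, h1, h2, h3⟩ | ⟨c', e', he', h1, h2, h3⟩⟩
  · exact (a h1).elim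
  · have k : Jn N' (j c) e := (h3 _ _).2 (.inr rfl)
    have k' : ∀ x, ∀ y ∉ range j, Jn N' (j x) y → x = c ∧ y = e := fun x y hy d => by
      rcases (h3 _ _).1 d with ⟨_, z, -, -, rfl⟩ | d
      · exact (hy ⟨z, rfl⟩).elim
      · exact (Sym2.eq_iff.1 d).elim (fun b => ⟨i b.1, b.2⟩) fun b => (he ⟨x, b.1⟩).elim
    refine ⟨e, he, _, h1, fun b => k.symm.not_sm (b ▸ h.sm' _), k, fun y hy => ⟨fun b => ?_, ?_⟩,
      fun x y hy d => .inl (k' x y hy d)⟩
    · refine (not_and_or.1 b).imp (fun b => ?_) fun b => ?_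
      · obtain ⟨z, b⟩ := Classical.not_forall_not.1 (mt Cv.sm_iff.2 b)
        obtain ⟨x, rfl⟩ := (h.jn_range b).resolve_left hy
        exact (k' x y hy b.symm).2
      · obtain ⟨n, -, rfl⟩ := Finset.mem_image.1 (not_not.1 b)
        exact by_contra fun d => hy ⟨_, (h2 n fun f => d (by rw [f])).symm⟩
    · rintro (rfl | rfl)
      exacts [fun b => k.symm.not_sm b.1,
        fun b => b.2 (Finset.mem_image.2 ⟨m, Finset.mem_univ _, rfl⟩)]
  · have k : Jn N' (j c) e := (h3 _ _).2 (.inr (.inl rfl))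
    have k1 : Jn N' (j c') e' := (h3 _ _).2 (.inr (.inr rfl))
    have k' : ∀ x, ∀ y ∉ range j, Jn N' (j x) y → x = c ∧ y = e ∨ Jn N c x ∧ y = e' :=
      fun x y hy d => by
        rcases (h3 _ _).1 d with ⟨_, z, -, -, -, rfl⟩ | d | d
        · exact (hy ⟨z, rfl⟩).elim
        · exact .inl ((Sym2.eq_iff.1 d).elim (fun b => ⟨i b.1, b.2⟩) fun b => (he ⟨x, b.1⟩).elim)
        · exact .inr ((Sym2.eq_iff.1 d).elim (fun b => ⟨i b.1 ▸ h1, b.2⟩)
            fun b => (he' ⟨x, b.1⟩).elim)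
    refine ⟨e, he, e', he', fun b => h1.ne h.nd (i (k.symm.unique h.nd' (b ▸ k1.symm))), k,
      fun y hy => ⟨fun b => ?_, ?_⟩, k'⟩
    · rcases not_and_or.1 b with b | b
      · obtain ⟨z, b⟩ := Classical.not_forall_not.1 (mt Cv.sm_iff.2 b)
        obtain ⟨x, rfl⟩ := (h.jn_range b).resolve_left hy
        exact (k' x y hy b.symm).imp And.right And.right
      · obtain ⟨n, -, rfl⟩ := Finset.mem_image.1 (not_not.1 b)
        exact (hy ⟨_, (h2 n).symm⟩).elim
    · rintro (rfl | rfl)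
      exacts [fun b => k.symm.not_sm b.1, fun b => k1.symm.not_sm b.1]

/-- a function that is constant on the bubble and compatible with the nodes comes from `X` -/
theorem lift {α : Type} {u : X' → α} (a : ∀ y ∉ range j, ∀ z ∉ range j, u y = u z)
    (b : ∀ y z, Jn N' y z → u y = u z) :
    (∀ y, u y = u (j (r y))) ∧ ∀ x y, Jn N x y → u (j x) = u (j y) := by
  refine ⟨fun y => ?_, fun x y d => ?_⟩
  · by_cases d : y ∈ range j
    · obtain ⟨x, rfl⟩ := d
      rw [h.left]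
    · obtain ⟨e, he, -, -, -, f, -⟩ := h.bubble fun f => d (f y)
      rw [h.out y d, b _ _ f, a y d e he]
  · obtain ⟨x', e⟩ := h.jn_up d
    obtain ⟨y', e'⟩ := h.jn_up d.symm
    by_cases f : x' ∈ range j
    · obtain ⟨z, rfl⟩ := f
      rw [d.unique h.nd (h.jn_down e), b _ _ e]
    by_cases f' : y' ∈ range j
    · obtain ⟨z, rfl⟩ := f'
      rw [d.symm.unique h.nd (h.jn_down e'), b _ _ e']
    rw [b _ _ e, b _ _ e', a _ f _ f']

theorem sec_up {s : X' → ℂ} {x : X} : (h.up L).Sec s (j x) ↔ L.Sec (fun y => s (j y)) x := by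
  rw [← h.liso.sec_pb, h.pb_up]

theorem sec_one {y : X'} (a : y ∉ range j) : (h.up L).Sec 1 y :=
  LB.sec_iff.2 <| (RS.hol_const (1 : ℂ)).congr ((h.ev_out a).mono fun z hz => by
    simp [h.out _ a, h.out _ hz, L.self])

theorem mem_up {s : X' → ℂ} : s ∈ H0 N' (h.up L) ↔ ∃ t ∈ H0 N L, s = fun y => t (r y) := by
  constructor
  · intro a
    obtain ⟨b, d⟩ := h.lift (u := s) (fun y hy z hz => by
      obtain ⟨κ, e⟩ := exists_const h.clopen.compl (h.conn_out hy) (fun y => h.sec_one)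
        (fun y _ => a.1 y) fun _ _ => one_ne_zero
      exact (e y hy).trans (e z hz).symm) (mem_H0_iff.1 a).2
    exact ⟨fun x => s (j x), mem_H0_iff.2 ⟨fun x => h.sec_up.1 (a.1 _), d⟩, funext b⟩
  · rintro ⟨t, a, rfl⟩
    refine mem_H0_iff.2 ⟨fun y => ?_, fun y z e =>
      (h.r_jn e).elim (congrArg t) ((mem_H0_iff.1 a).2 _ _)⟩
    by_cases b : y ∈ range j
    · obtain ⟨x, rfl⟩ := b
      exact h.sec_up.2 (by simpa only [h.left _] using a.1 x)
    · exact ((h.sec_one b).smul (t c)).congr ((h.ev_out b).mono fun z hz => by simp [h.out z hz])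

theorem finrank_up : finrank ℂ (H0 N' (h.up L)) = finrank ℂ (H0 N L) := by
  rw [show H0 N' (h.up L) = (H0 N L).map (LinearMap.funLeft ℂ ℂ r) from
    Submodule.ext fun s => h.mem_up.trans (exists_congr fun t => and_congr_right fun _ => eq_comm)]
  exact (Submodule.equivMapOfInjective _
    (LinearMap.funLeft_injective_of_surjective ℂ ℂ r h.left.surjective) _).finrank_eq.symm

theorem degOn_up {U : Set X'} (hU : IsClopen U) : degOn (h.up L) U = degOn L (j ⁻¹' U) := by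
  rw [← degOn_inter_add_diff hU h.clopen, degOn_of_ne (U := U \ range j)
    (fun y hy => h.sec_one hy.2) fun _ _ => one_ne_zero, add_zero, ← image_preimage_eq_inter_range,
    ← h.liso.degOn_pb h.left.injective (hU.preimage h.liso.cont), h.pb_up]

theorem deg_up : deg (h.up L) = deg L := by
  rw [← degOn_univ, h.degOn_up isClopen_univ, preimage_univ, degOn_univ]

theorem ge_up (a : Ge L 0) : Ge (h.up L) 0 := fun _ b _ => h.degOn_up b ▸ a.nonneg _

theorem bpf_up (a : Bpf N L) : Bpf N' (h.up L) := fun y =>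
  let ⟨t, b, d⟩ := a (r y)
  ⟨_, h.mem_up.2 ⟨t, b, rfl⟩, d⟩

theorem conn_iff : Conn N' ↔ Conn N := by
  have k : ∀ {Z : Type} {M : Finset (Z × Z)} {U : Set Z}, (∀ n ∈ M, n.1 ∈ U ↔ n.2 ∈ U) →
      ∀ x y, Jn M x y → (x ∈ U) = (y ∈ U) := fun a x y b =>
    propext (b.elim (a _) fun b => (a _ b).symm)
  refine ⟨fun a => ⟨⟨c⟩, fun U b d => ?_⟩, fun a => ⟨⟨j c⟩, fun U b d => ?_⟩⟩
  · refine (a.2 _ (b.preimage h.continuous_r) fun n hn => ?_).imp (fun e => ?_) fun e => ?_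
    · exact ((h.r_jn (.inl hn)).elim (congrArg (· ∈ U)) (k d _ _)).to_iff
    · rw [← h.left.surjective.image_preimage U, e, image_empty]
    · rw [← h.left.surjective.image_preimage U, e, image_univ, h.left.surjective.range_eq]
  · have o : ∀ y ∉ range j, ∀ z ∉ range j, y ∈ U → z ∈ U := fun y hy z hz e =>
      (h.conn_out hy).isPreconnected.subset_isClopen b ⟨y, hy, e⟩ hz
    obtain ⟨e, f⟩ := h.lift (u := (· ∈ U))
      (fun y hy z hz => propext ⟨o y hy z hz, o z hz y hy⟩) (k d)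
    refine (a.2 _ (b.preimage h.liso.cont) fun n hn => (f _ _ (.inl hn)).to_iff).imp
      (fun g => eq_empty_of_forall_notMem fun y hy => ?_) fun g => eq_univ_of_forall fun y => ?_
    · exact (g.le ((e y).mp hy)).elim
    · exact (e y).mpr (g.ge (mem_univ _))

/-- gluing of a trivialisation on the image of `j` and one on the bubble -/
theorem glue {u : X → ℂ} {t : X' → ℂ} (hu : u ∈ (h.liso.pb L' / L).Γ) (u0 : ∀ x, u x ≠ 0)
    (ht : ∀ y ∉ range j, L'.Sec t y ∧ t y ≠ 0) (h1 : ∀ x y, Jn N' (j x) (j y) → u x = u y)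
    (h2 : ∀ x, ∀ y ∉ range j, Jn N' (j x) y → u x = t y) :
    ∃ w ∈ H0 N' (L' / h.up L), (∀ y, w y ≠ 0) ∧ ∀ x, w (j x) = u x := by
  let w := (range j).piecewise (fun y => u (r y)) t
  have w1 : ∀ x, w (j x) = u x := fun x =>
    (piecewise_eq_of_mem _ _ _ (mem_range_self x)).trans (by rw [h.left])
  have w2 : ∀ y ∉ range j, w y = t y := fun y => piecewise_eq_of_notMem _ _ _
  have k : ∀ x b, Jn N' (j x) b → w (j x) = w b := fun x b e => by
    by_cases d : b ∈ range j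
    · obtain ⟨y, rfl⟩ := d
      rw [w1, w1, h1 x y e]
    · rw [w1, w2 b d, h2 x b d e]
  refine ⟨w, mem_H0_iff.2 ⟨LB.piecewise_mem h.clopen (forall_mem_range.2 fun x =>
    h.liso.sec_pb.1 ?_) fun y hy => ?_, fun a b e => ?_⟩, fun y => ?_, w1⟩
  · rw [map_div, h.pb_up]
    simpa only [h.left _] using hu x
  · simpa using (ht y hy).1.div (h.sec_one (L := L) hy) one_ne_zero
  · rcases h.jn_range e with ⟨x, rfl⟩ | ⟨x, rfl⟩
    exacts [k x b e, (k x a e.symm).symm]
  · by_cases d : y ∈ range j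
    · obtain ⟨x, rfl⟩ := d
      exact w1 x ▸ u0 x
    · exact w2 y d ▸ (ht y d).2

/-- `ω'_log = r^* ω_log (q)` -/
theorem exists_omega : ∃ w ∈ H0 N' (omega R' N' (Finset.univ.image p') / R'.pt (p' none) /
    h.up (omega R N (Finset.univ.image p))), (∀ y, w y ≠ 0) ∧ ∀ x ≠ c, Sm N x →
      x ∉ Finset.univ.image p → w (j x) * R.d (fun z => R'.e (j x) (j z)) x = 1 := by
  have hQ : ∀ y ∈ Finset.univ.image fun n => p' (some n), Sm N' y := fun y hy =>
    let ⟨_, _, e⟩ := Finset.mem_image.1 hy; e ▸ h.sm' _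
  obtain ⟨u, u1, u2, u3, u4⟩ := h.liso.exists_omega' h.left.injective h.nd h.nd'
    (fun y hy => let ⟨_, _, e⟩ := Finset.mem_image.1 hy; e ▸ h.sm _) hQ h.sp_iff
  have u5 : ∀ x y, Jn N' (j x) y → u x = Xi.sg N x * Xi.sg N' (j x) := fun x y e =>
    u4 x fun a => e.not_sm ((h.sp_iff x).1 a).1
  obtain ⟨t, t1, t2⟩ : ∃ t : X' → ℂ, (∀ y ∉ range j,
      (omega R' N' (Finset.univ.image fun n => p' (some n))).Sec t y ∧ t y ≠ 0) ∧
      ∀ x, ∀ y ∉ range j, Jn N' (j x) y → u⁻¹ x = t y := by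
    by_cases a : Surjective j
    · exact ⟨0, fun y hy => (hy (a y)).elim, fun _ y hy => (hy (a y)).elim⟩
    obtain ⟨e, he, e', he', b, -, d, f⟩ := h.bubble a
    obtain ⟨s, s1, s2, s3, s4⟩ := (h.of_not_surj a).1.exists_log (S := N'.image Prod.fst ∪
      N'.image Prod.snd ∪ Finset.univ.image fun n => p' (some n)) b
      (fun y hy => (mem_special _ _ y).trans (d y hy)) he he'
    refine ⟨-Xi.sg N c • (s * Xi.sg N'), fun y hy => ⟨?_, mul_ne_zero (neg_ne_zero.2 (Xi.sg_ne c))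
      (mul_ne_zero (s2 y hy) (Xi.sg_ne y))⟩, fun x y hy g => ?_⟩
    · rw [omega_eq h.nd' hQ]
      exact (LB.mul_mem s1 (LB.cst_mem _) y).smul _
    · have g1 := Xi.sg_sq (N := N) c
      have g2 := Xi.sg_sq (N := N') (j x)
      refine inv_eq_of_mul_eq_one_right ?_
      rw [u5 x y g, Pi.smul_apply, Pi.mul_apply, g.sg_eq h.nd', smul_eq_mul]
      rcases f x y hy g with ⟨rfl, rfl⟩ | ⟨g3, rfl⟩
      · rw [s3]
        linear_combination Xi.sg N' (j x) * Xi.sg N' (j x) * g1 + g2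
      · rw [s4, g3.sg_eq h.nd]
        linear_combination Xi.sg N' (j x) * Xi.sg N' (j x) * g1 + g2
  obtain ⟨w, w1, w2, w3⟩ := h.glue (L := omega R N (Finset.univ.image p)) (u := u⁻¹)
    (by rw [← inv_div]; exact LB.inv_mem u1 u2) (fun x => inv_ne_zero (u2 x)) t1 (fun x y e => by
      rw [Pi.inv_apply, Pi.inv_apply, u5 x _ e, u5 y _ e.symm, e.sg_eq h.nd',
        (h.jn_down e).sg_eq h.nd, neg_mul_neg]) t2
  refine ⟨w, ?_, w2, fun x _ a b => ?_⟩
  · rwa [image_eq, omega_insert fun a => ?_]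
    obtain ⟨n, -, a⟩ := Finset.mem_image.1 a
    exact Option.some_ne_none n (h.inj' a)
  · rw [w3, ← u3 x ⟨a, b⟩]
    exact inv_mul_cancel₀ (u2 x)

theorem gen_eq : gen R' N' = gen R N := by
  obtain ⟨w, a, b, -⟩ := h.exists_omega
  have := deg_of_ne a.1 b
  rw [deg_div, deg_div, h.deg_up, deg_pt, deg_omega, deg_omega,
    Finset.card_image_of_injective _ h.inj, Finset.card_image_of_injective _ h.inj',
    Finset.card_univ, Finset.card_univ, Fintype.card_option] at this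
  omega

theorem h1_up : h1 N' (h.up L) = h1 N L := by
  rw [h1, h1, h.finrank_up, h.deg_up, h.gen_eq]

/-- a bundle of degree zero on the bubble is a pull-back -/
theorem exists_down (a : degOn L' (range j)ᶜ = 0) :
    ∃ L : LB R, ∃ w ∈ H0 N' (L' / h.up L), ∀ y, w y ≠ 0 := by
  obtain ⟨t, ht⟩ : ∃ t : X' → ℂ, ∀ y ∉ range j, L'.Sec t y ∧ t y ≠ 0 := by
    by_cases b : Surjective j
    · exact ⟨0, fun y hy => (hy (b y)).elim⟩
    · obtain ⟨t, m, n, -⟩ := (h.of_not_surj b).1.exists_triv a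
      exact ⟨t, fun y hy => ⟨m y, n y hy⟩⟩
  let u : X → ℂ := fun x => if hx : ∃ y ∉ range j, Jn N' (j x) y then t hx.choose else 1
  have u0 : ∀ x, u x ≠ 0 := fun x => by
    simp only [u]
    split_ifs with hx
    exacts [(ht _ hx.choose_spec.1).2, one_ne_zero]
  have u1 : ∀ x y, Jn N' (j x) (j y) → u x = 1 := fun x y e =>
    dif_neg fun ⟨z, b, d⟩ => b ⟨y, e.unique h.nd' d⟩
  obtain ⟨w, b, d, -⟩ := h.glue (L := h.liso.pb L' / LB.cst R u u0) (u := u)
    (by rw [div_div_cancel]; exact LB.cst_mem u0) u0 ht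
    (fun x y e => (u1 x y e).trans (u1 y x e.symm).symm) fun x y hy e => by
      have hx : ∃ y ∉ range j, Jn N' (j x) y := ⟨y, hy, e⟩
      exact (dif_pos hx).trans (congrArg t (hx.choose_spec.2.unique h.nd' e))
  exact ⟨_, w, b, d⟩

theorem degOn_omega_up {U : Set X'} (hU : IsClopen U) :
    degOn (omega R' N' (Finset.univ.image p') * h.up L) U =
      (if p' none ∈ U then 1 else 0) + degOn (omega R N (Finset.univ.image p) * L) (j ⁻¹' U) := by
  obtain ⟨w, a, b, -⟩ := h.exists_omega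
  have := degOn_of_ne (U := U) (fun x _ => a.1 x) fun x _ => b x
  rw [degOn_div, degOn_div, degOn_pt hU, h.degOn_up hU] at this
  rw [degOn_mul, degOn_mul, h.degOn_up hU]
  linarith

theorem stable_up (a : Ge (omega R N (Finset.univ.image p) * L) 1) :
    Ge (omega R' N' (Finset.univ.image p') * h.up L) 1 := fun U b ⟨y, hy⟩ => by
  rw [h.degOn_omega_up b]
  by_cases d : y ∈ range j
  · obtain ⟨x, rfl⟩ := d
    have := a _ (b.preimage h.liso.cont) ⟨x, hy⟩
    split_ifs <;> omega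
  · have := (a.mono zero_le_one).nonneg (j ⁻¹' U)
    rw [if_pos ((h.conn_out d).isPreconnected.subset_isClopen b ⟨y, d, hy⟩
      (h.of_not_surj fun e => d (e y)).2)]
    omega

theorem stable_down (a : ¬Surjective j) (b : Ge (omega R' N' (Finset.univ.image p') * h.up L) 1) :
    Ge (omega R N (Finset.univ.image p) * L) 1 := fun U d e => by
  have := b _ (h.liso.isClopen_image d) (e.image j)
  rwa [h.degOn_omega_up (h.liso.isClopen_image d), if_neg fun f => (h.of_not_surj a).2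
    (image_subset_range _ _ f), zero_add, h.left.injective.preimage_image] at this

theorem compl_range (a : ¬Surjective j) : (range j)ᶜ = connectedComponent (p' none) :=
  let ⟨b, d⟩ := h.of_not_surj a
  (b.conn.isPreconnected.subset_connectedComponent d).antisymm
    (b.clopen.connectedComponent_subset d)

theorem surj_iff (a : Ge (omega R N (Finset.univ.image p) * L) 1) : Surjective j ↔
    2 ≤ degOn (omega R' N' (Finset.univ.image p') * h.up L) (connectedComponent (p' none)) := by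
  have k := (exists_comp (R := R') (p' none)).1
  rw [h.degOn_omega_up k, if_pos mem_connectedComponent]
  refine ⟨fun b => ?_, fun b => by_contra fun d => ?_⟩
  · obtain ⟨x, e⟩ := b (p' none)
    have := a _ (k.preimage h.liso.cont) ⟨x, e ▸ mem_connectedComponent⟩
    omega
  · rw [← h.compl_range d, preimage_compl, preimage_range, compl_univ, degOn_empty] at b
    omega

end Ctr

end Vale.Agent.P269.Cv
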