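import Vale.Agent.P269.Cv.Emb2
import Vale.Agent.P269.Cv.CtrA

/-!
# Embeddings in which some factors contract a bubble
-/

set_option linter.unusedSectionVars false

namespace Vale.Agent.P269.Cv

open Set Function Topology Filter Module

variable {X X' : Type} [TopologicalSpace X] [TopologicalSpace X'] [T2Space X] [CompactSpace X]
  [T2Space X'] [CompactSpace X'] {ν : Type} [Fintype ν] {R : RS X} {R' : RS X'}
  {N : Finset (X × X)} {N' : Finset (X' × X')} {p : ν → X} {p' : Option ν → X'} {c : X} {j : X → X'}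
  {r : X' → X} {L F B : LB R} {B' : LB R'} {ι : Type} [Fintype ι] {M : ι → ℕ} {o : ι}
  {A : ι → LB R'} {π : X' → V M}

theorem Small.bz {A : ι → LB R} {a : ι → ℕ} (h : ∀ i, a i ≠ 0 → Small N (A i) F) :
    Small N (bz A fun i => a i) F :=
  prod_mem fun i _ => by
    by_cases e : a i = 0
    · simp [e]
    · simpa using pow_mem (h i e) (a i)

variable (B L) in
/-- `L` is close to `B ^ k` -/
def Near (k n : ℕ) : Prop := Ge (L * B ^ n / B ^ k) 0 ∧ Ge (B ^ k * B ^ n / L) 0

theorem Near.ge {k n m : ℕ} (h : Near L B k n) (hB : Ge B 1) (hk : n + m ≤ k) :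
    Ge (L / B ^ m) 0 := fun U a b => by
  have := h.1 U a b
  have := hB U a b
  have : (n + m : ℤ) ≤ k := by exact_mod_cast hk
  simp only [degOn_div, degOn_mul, degOn_pow] at *
  nlinarith

theorem ge_omega_of {m : ℕ} (h : Ge (L / B ^ (m + 1)) 0) (hB : Ge B 1) (hω : Ge (B / omega R N ∅) 0) :
    Ge (L / omega R N ∅) m := fun U a b => by
  have := h U a b
  have := hB U a b
  have := hω U a b
  simp only [degOn_div, degOn_pow] at *
  push_cast at *
  nlinarith

namespace Ctr

variable (h : Ctr R R' N N' p p' c j r)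
include h

theorem H0_le_up (e : H0 N (F * L) ≤ H0 N F * H0 N L) :
    H0 N' (h.up F * h.up L) ≤ H0 N' (h.up F) * H0 N' (h.up L) := fun s hs => by
  obtain ⟨t, a, rfl⟩ := h.mem_up.1 (map_mul h.up F L ▸ hs)
  refine Submodule.mul_induction_on (C := fun t : X → ℂ => (fun y => t (r y)) ∈ _) (e a)
    (fun u hu v hv => ?_) fun u v => add_mem
  exact Submodule.mul_mem_mul (h.mem_up.2 ⟨u, hu, rfl⟩) (h.mem_up.2 ⟨v, hv, rfl⟩)

theorem small_up {F : LB R'} (hB : Ge B 1) (hω : Ge (B / omega R N ∅) 0) (hB' : Ge B' 1)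
    (hω' : Ge (B' / omega R' N' ∅) 0) (hu : Ge (B' / h.up B) 0) {k n : ℕ} (hk : n + 6 ≤ k)
    (hL : Near L B k n) (hF : Ge (F / B' ^ (2 * n + 7)) 0) : Small N' (h.up L) F := by
  have := Submonoid.mem_map_of_mem h.up (mem_closure_of_ge h.nd hB hω hk hL.1 hL.2)
  rw [MonoidHom.map_mclosure] at this
  refine Submonoid.closure_mono ?_ this
  rintro _ ⟨P, ⟨a, b⟩, rfl⟩
  refine ⟨h.bpf_up a, fun U d e => ?_⟩
  have := h.ge_up b U d e
  have := hB' U d e
  have := hω' U d e
  have := hu U d e
  have := hF U d e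
  simp only [map_div, map_pow, degOn_div, degOn_pow] at *
  push_cast at *
  nlinarith

/-- **joint embedding**: every factor is close to a power of `B'` or the pull-back of a bundle close
to a power of `B` -/
theorem isCurve (hf : Full N' A π) (hB : Ge B 1) (hω : Ge (B / omega R N ∅) 0) (hB' : Ge B' 1)
    (hω' : Ge (B' / omega R' N' ∅) 0) (hu : Ge (B' / h.up B) 0) {k : ι → ℕ} {n : ℕ}
    (hk : ∀ i, 3 * n + 7 ≤ k i) (ho : Near (A o) B' (k o) n)
    (hA : ∀ i, Near (A i) B' (k i) n ∨ ∃ L, A i = h.up L ∧ Near L B (k i) n) :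
    Par o (cone π) N' A π ∧ IsCurve o (gen R' N') (fun i => deg (A i)) (cone π) := by
  classical
  have s1 : ∀ i i', Near (A i') B' (k i') n → Small N' (A i) (A i') := fun i i' a => by
    have b := a.ge hB' (m := 2 * n + 7) (by have := hk i'; omega)
    have := hk i
    rcases hA i with d | ⟨L, e, d⟩
    · exact small_of_ge h.nd' hB' hω' (by omega) d.1 d.2 b
    · exact e ▸ h.small_up hB hω hB' hω' hu (by omega) d b
  have b : ∀ i, Bpf N' (A i) := fun i => (s1 i o ho).bpf
  have p := hf.par h.nd' (by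
    exact_mod_cast ge_omega_of (m := 3) (ho.ge hB' (by have := hk o; omega)) hB' hω') b
  have alt : ∀ a : ι → ℕ, a ≠ 0 → (∃ i, a i ≠ 0 ∧ Near (A i) B' (k i) n) ∨
      ∃ F, (bz A fun i => a i) = h.up F ∧ Ge (F / B ^ (2 * n + 7)) 0 := fun a ha => by
    refine or_iff_not_imp_left.2 fun d => ?_
    choose! L e f using fun i (hi : a i ≠ 0) => (hA i).resolve_left fun e => d ⟨i, hi, e⟩
    obtain ⟨i, hi⟩ := ne_iff.1 ha
    have g : ∀ i, a i ≠ 0 → Ge (L i / B ^ (2 * n + 7)) 0 := fun i hi =>
      (f i hi).ge hB (by have := hk i; omega)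
    refine ⟨bz (fun i => if a i = 0 then 1 else L i) fun i => a i, ?_, ?_⟩
    · simp only [bz, map_prod, map_zpow]
      exact Finset.prod_congr rfl fun i _ => by by_cases t : a i = 0 <;> simp [t, e]
    · have := (ge_bz_div (A := fun i => if a i = 0 then 1 else L i) (fun i => by
        split_ifs with t
        · exact eff_one.ge
        · simpa using ((g i t).mul (hB.pow (2 * n + 7))).mono (n' := 0) (by positivity)) hi).mul
          (g i hi)
      simpa [show a i ≠ 0 from hi] using this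
  refine ⟨p, p.isCurve (hf.normal fun a ha i => ?_) fun a ha => ?_⟩
  · rcases alt a ha with ⟨i', d, e⟩ | ⟨F, d, e⟩
    · exact ((s1 i i' e).mono (ge_bz_div (fun i => (b i).ge) d)).H0_le h.nd'
    · rcases hA i with f | ⟨L, f, g⟩
      · rw [mul_comm, mul_comm (H0 N' _)]
        exact (Small.bz fun i' _ => s1 i' i f).H0_le h.nd'
      · rw [d, f]
        exact h.H0_le_up ((small_of_ge h.nd hB hω (by have := hk i; omega) g.1 g.2 e).H0_le h.nd)
  · rcases alt a ha with ⟨i', d, e⟩ | ⟨F, d, e⟩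
    · refine h1_eq_zero h.nd' ?_
      have := (ge_bz_div (fun i => (b i).ge) d).mul
        (ge_omega_of (m := 1) (e.ge hB' (by have := hk i'; omega)) hB' hω')
      simpa using this
    · rw [d, h.h1_up]
      exact h1_eq_zero h.nd ((ge_omega_of (m := 2 * n + 6) e hB hω).mono (by push_cast; omega))

end Ctr

end Vale.Agent.P269.Cv
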