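import Vale.Agent.P269.Cv.Defs
import Vale.Agent.P269.Base.Fam

/-!
# The normalisation of a nodal multicone
-/

namespace Vale.Agent.P269.Cv

open Set Function Topology Filter Module

namespace Nrm

section Lin

variable {α : Type} [Fintype α] {w w' : α → ℂ}

/-- the squared norm -/
noncomputable def nq (w : α → ℂ) : ℂ := ∑ c, w c * (starRingEnd ℂ) (w c)

theorem nq_ne (h : w ≠ 0) : nq w ≠ 0 := by
  obtain ⟨a, ha⟩ := Function.ne_iff.1 h
  have e : nq w = ((∑ c, Complex.normSq (w c) : ℝ) : ℂ) := by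
    simp [nq, Complex.mul_conj]
  rw [e, Complex.ofReal_ne_zero]
  exact (Finset.sum_pos' (fun c _ => Complex.normSq_nonneg _)
    ⟨a, Finset.mem_univ a, Complex.normSq_pos.2 ha⟩).ne'

/-- the orthogonal projection to the line through `w` -/
noncomputable def pr (w : α → ℂ) : α → α → ℂ := fun a b => w a * (starRingEnd ℂ) (w b) / nq w

theorem pr_smul {s : ℂ} (hs : s ≠ 0) (w : α → ℂ) : pr (s • w) = pr w := by
  have e : nq (s • w) = s * (starRingEnd ℂ) s * nq w := by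
    simp only [nq, Finset.mul_sum, Pi.smul_apply, smul_eq_mul, map_mul]
    exact Finset.sum_congr rfl fun c _ => by ring
  have h : s * (starRingEnd ℂ) s ≠ 0 := mul_ne_zero hs (by simpa using hs)
  funext a b
  simp only [pr, e, Pi.smul_apply, smul_eq_mul, map_mul]
  rw [← mul_div_mul_left (w a * (starRingEnd ℂ) (w b)) _ h]
  congr 1
  ring

/-- a matrix applied to a vector -/
noncomputable def ap (P : α → α → ℂ) (v : α → ℂ) : α → ℂ := fun a => ∑ b, P a b * v b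

theorem ap_pr (w v : α → ℂ) : ap (pr w) v = ((∑ b, (starRingEnd ℂ) (w b) * v b) / nq w) • w := by
  funext a
  simp only [ap, pr, Pi.smul_apply, smul_eq_mul, Finset.sum_div, Finset.sum_mul]
  exact Finset.sum_congr rfl fun c _ => by ring

theorem ap_self (h : w ≠ 0) : ap (pr w) w = w := by
  rw [ap_pr]
  have : ∑ b, (starRingEnd ℂ) (w b) * w b = nq w := Finset.sum_congr rfl fun c _ => mul_comm _ _
  rw [this, div_self (nq_ne h), one_smul]

theorem exists_of_pr (h' : w' ≠ 0) (e : pr w' = pr w) : ∃ s : ℂ, s ≠ 0 ∧ w' = s • w := by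
  have h1 := ap_self h'
  rw [e, ap_pr] at h1
  exact ⟨_, fun a => h' (by rw [← h1, a, zero_smul]), h1.symm⟩

theorem continuousAt_pr (h : w ≠ 0) : ContinuousAt (pr : (α → ℂ) → _) w := by
  refine continuousAt_pi.2 fun a => continuousAt_pi.2 fun b => ContinuousAt.div ?_ ?_ (nq_ne h)
  · fun_prop
  · unfold nq
    fun_prop

/-- the exterior product -/
def wd (w v : α → ℂ) : α × α → ℂ := fun p => w p.1 * v p.2 - w p.2 * v p.1

omit [Fintype α] in
theorem exists_of_wd {v : α → ℂ} (h : w ≠ 0) (e : wd w v = 0) : ∃ s : ℂ, v = s • w := by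
  obtain ⟨a, ha⟩ := Function.ne_iff.1 h
  refine ⟨v a / w a, funext fun b => ?_⟩
  have := congrFun e (a, b)
  simp only [wd, Pi.zero_apply] at this ha
  simp only [Pi.smul_apply, smul_eq_mul]
  field_simp
  linear_combination this

omit [Fintype α] in
theorem wd_lin (w v : α → ℂ) (s a b : ℂ) : wd (s • w) (a • w + b • v) = (s * b) • wd w v := by
  funext p
  simp only [wd, Pi.smul_apply, Pi.add_apply, smul_eq_mul]
  ring

omit [Fintype α] in
theorem wd_ne {v : α → ℂ} (h : LinearIndependent ℂ ![w, v]) : wd w v ≠ 0 := fun e => by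
  obtain ⟨s, hs⟩ := exists_of_wd (h.ne_zero 0) e
  exact one_ne_zero (Base.of_li_pair h (e := 1) (s := s) (by rw [one_smul]; exact hs))

omit [Fintype α] in
theorem li_of_wd {v : α → ℂ} (h : wd w v ≠ 0) : LinearIndependent ℂ ![w, v] := by
  refine Base.li_pair (fun e => h ?_) fun e s he => by_contra fun h1 => h ?_
  · funext p
    simp [wd, e]
  · have h2 : v = (s / e) • w + (0 : ℂ) • v := by
      rw [zero_smul, add_zero, div_eq_inv_mul, mul_smul, ← he, inv_smul_smul₀ h1]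
    have h3 := wd_lin w v 1 (s / e) 0
    rw [← h2, one_smul, mul_zero, zero_smul] at h3
    exact h3

theorem pr_ne_of_li {v v' : α → ℂ} (h : LinearIndependent ℂ ![w, v, v']) :
    pr (wd w v) ≠ pr (wd w v') := fun e => by
  have h0 : w ≠ 0 := h.ne_zero 0
  have h1 : wd w v ≠ 0 := wd_ne (Base.li_pair h0 fun a s ha =>
    (Base.of_li_triple h (e' := 0) (s := s) (by rw [zero_smul, add_zero, ha])).1)
  obtain ⟨s, -, hs⟩ := exists_of_pr h1 e
  obtain ⟨a, ha⟩ := exists_of_wd (v := v - s • v') h0 (by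
    funext p
    have := congrFun hs p
    simp only [wd, Pi.smul_apply, smul_eq_mul, Pi.sub_apply, Pi.zero_apply] at this ⊢
    linear_combination this)
  exact one_ne_zero (Base.of_li_triple h (e := 1) (e' := -s) (s := a) (by
    rw [← ha]; module)).1

theorem li_of_pr_ne {v v' : α → ℂ} (h : LinearIndependent ℂ ![w, v])
    (h' : LinearIndependent ℂ ![w, v']) (e : pr (wd w v) ≠ pr (wd w v')) :
    LinearIndependent ℂ ![w, v, v'] := by
  refine Base.li_triple (h.ne_zero 0) fun a b s hs => ?_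
  by_cases hb : b = 0
  · rw [hb, zero_smul, add_zero] at hs
    exact ⟨Base.of_li_pair h hs, hb⟩
  · by_cases ha : a = 0
    · rw [ha, zero_smul, zero_add] at hs
      exact ⟨ha, Base.of_li_pair h' hs⟩
    · refine absurd ?_ e
      have h2 : v' = (s / b) • w + (-a / b) • v := by
        rw [div_eq_inv_mul, mul_smul, ← hs, div_eq_inv_mul, mul_smul, ← smul_add, neg_smul,
          add_neg_cancel_comm, inv_smul_smul₀ hb]
      have h3 := wd_lin w v 1 (s / b) (-a / b)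
      rw [← h2, one_smul, one_mul] at h3
      rw [h3, pr_smul (div_ne_zero (neg_ne_zero.2 ha) hb)]

end Lin

variable {ι : Type} [Fintype ι] {M : ι → ℕ} {o : ι} {C : Set (V M)} {γ δ : ℂ → V M}

/-- the point of the product of projective spaces -/
noncomputable def P (c : V M) : ∀ i, Fin (M i) → Fin (M i) → ℂ := fun i => pr (c i)

variable (M o) in
/-- the ambient space of the normalisation -/
abbrev Y : Type := (∀ i, Fin (M i) → Fin (M i) → ℂ) ×
  (Fin (M o) × Fin (M o) → Fin (M o) × Fin (M o) → ℂ)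

variable (o) in
/-- the point and the tangent line of a disc -/
noncomputable def J (γ : ℂ → V M) (t : ℂ) : Y M o := (P (γ t), pr (wd (γ t o) (deriv γ t o)))

omit [Fintype ι] in
theorem P_smul {s : ι → ℂ} (hs : ∀ i, s i ≠ 0) (c : V M) : P (s • c) = P c :=
  funext fun i => pr_smul (hs i) (c i)

omit [Fintype ι] in
theorem exists_of_P {c c' : V M} (h : ∀ i, c' i ≠ 0) (e : P c' = P c) :
    ∃ s : ι → ℂ, (∀ i, s i ≠ 0) ∧ c' = s • c := by
  choose s hs using fun i => exists_of_pr (h i) (congrFun e i)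
  exact ⟨s, fun i => (hs i).1, funext fun i => (hs i).2⟩

omit [Fintype ι] in
theorem continuousAt_P {c : V M} (h : ∀ i, c i ≠ 0) : ContinuousAt (P : V M → _) c :=
  continuousAt_pi.2 fun i => (continuousAt_pr (h i)).comp (f := fun c : V M => c i)
    (continuous_apply i).continuousAt

/-- the disc centred at another point -/
def sh (γ : ℂ → V M) (t : ℂ) : ℂ → V M := fun z => γ (t + z)

theorem J_sh (γ : ℂ → V M) (t z : ℂ) : J o (sh γ t) z = J o γ (t + z) := by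
  unfold J sh
  rw [deriv_comp_const_add]

theorem J_congr {t : ℂ} (e : γ =ᶠ[𝓝 t] δ) : J o γ t = J o δ t := by
  unfold J
  rw [e.deriv_eq, e.eq_of_nhds]

theorem contAt_wd (h : AnalyticAt ℂ γ 0) :
    ContinuousAt (fun t => wd (γ t o) (deriv γ t o)) 0 := by
  have a := continuousAt_pi.1 (continuousAt_pi.1 h.continuousAt o)
  have b := continuousAt_pi.1 (continuousAt_pi.1 h.deriv.continuousAt o)
  exact continuousAt_pi.2 fun p => ((a p.1).mul (b p.2)).sub ((a p.2).mul (b p.1))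

theorem branch_sh (h : IsBranch o C γ) : ∀ᶠ t in 𝓝 0, IsBranch o C (sh γ t) := by
  filter_upwards [h.holo.eventually_analyticAt, h.mem.eventually_nhds,
    (contAt_wd h.holo).eventually_ne (wd_ne h.imm)] with t a b c
  have h2 : Tendsto (fun z => t + z) (𝓝 0) (𝓝 t) :=
    (continuous_const.add continuous_id).tendsto' _ _ (add_zero t)
  refine ⟨AnalyticAt.comp (g := γ) (f := fun z => t + z) (by simpa using a)
    (analyticAt_const.add analyticAt_id), h2.eventually b, li_of_wd ?_⟩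
  unfold sh
  rw [deriv_comp_const_add, add_zero]
  exact c

theorem J_comp {s : ℂ → ι → ℂ} {φ : ℂ → ℂ} {t : ℂ} (hs : AnalyticAt ℂ s t) (hφ : AnalyticAt ℂ φ t)
    (hγ : AnalyticAt ℂ γ (φ t)) (h0 : ∀ i, s t i ≠ 0) (h1 : deriv φ t ≠ 0) :
    J o (fun z => s z • γ (φ z)) t = J o γ (φ t) := by
  have h2 := Base.hasDerivAt_smul hs.differentiableAt.hasDerivAt
    (hγ.differentiableAt.hasDerivAt.scomp t hφ.differentiableAt.hasDerivAt)
  unfold J
  refine Prod.ext (P_smul h0 _) ?_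
  simp only
  erw [h2.deriv]
  have h3 := wd_lin (γ (φ t) o) (deriv γ (φ t) o) (s t o) (deriv s t o) (s t o * deriv φ t)
  rw [mul_smul] at h3
  erw [h3]
  exact pr_smul (mul_ne_zero (h0 o) (mul_ne_zero (h0 o) h1)) _

theorem J_smul {s : ι → ℂ} (h0 : ∀ i, s i ≠ 0) (hγ : AnalyticAt ℂ γ 0) :
    J o (fun z => s • γ z) 0 = J o γ 0 :=
  J_comp (s := fun _ => s) (φ := id) analyticAt_const analyticAt_id hγ h0 (by simp)

theorem contAt_J (h : IsBranch o C γ) (hne : ∀ i, γ 0 i ≠ 0) : ContinuousAt (J o γ) 0 :=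
  ((continuousAt_P hne).comp h.holo.continuousAt).prodMk ((continuousAt_pr (wd_ne h.imm)).comp
    (f := fun t => wd (γ t o) (deriv γ t o)) (contAt_wd h.holo))

theorem branch_smul (hC : IsNodal o C) (h : IsBranch o C γ) {s : ι → ℂ} (hs : ∀ i, s i ≠ 0) :
    IsBranch o C fun z => s • γ z := by
  refine ⟨Base.an_smul (s := fun _ => s) analyticAt_const h.holo,
    h.mem.mono fun z hz => hC.cone s hs _ hz, li_of_wd ?_⟩
  have h2 := Base.hasDerivAt_smul (hasDerivAt_const (0 : ℂ) s) h.holo.differentiableAt.hasDerivAt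
  rw [h2.deriv]
  have h3 := wd_lin (γ 0 o) (deriv γ 0 o) (s o) 0 (s o)
  erw [h3]
  exact smul_ne_zero (mul_ne_zero (hs o) (hs o)) (wd_ne h.imm)

theorem ne_of_branch (hC : IsNodal o C) (h : IsBranch o C γ) (i : ι) : γ 0 i ≠ 0 :=
  hC.ne_zero _ h.mem.self_of_nhds i

/-- a branch is a chart of the empty family -/
theorem chart_empty (h : IsBranch o C γ) : Base.Chart o (fun _ : Unit => (∅ : Set (V M)))
    (fun _ => (0 : ℂ)) () (fun q : ℂ × ℂ => γ q.2) fun _ => ∅ :=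
  ⟨h.holo.comp (f := Prod.snd) analyticAt_snd, fun e s he => by
    rw [fderiv_eq_smul_deriv] at he
    exact Base.of_li_pair h.imm he, .of_forall fun _ a => a.elim,
    fun _ _ => .of_forall fun _ a => a.elim⟩

theorem inj_branch (hC : IsNodal o C) (h : IsBranch o C γ) :
    ∃ U ∈ 𝓝 (0 : ℂ), ∀ t ∈ U, ∀ t' ∈ U, ∀ s : ι → ℂ, γ t' = s • γ t → t = t' := by
  have h1 := (Holo.tendsto_inr (0 : ℂ) ((0 : ℂ), (0 : ℂ))).eventually
    ((chart_empty h).inj (ne_of_branch hC h))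
  rw [nhds_prod_eq] at h1
  obtain ⟨U, hU, h2⟩ := mem_prod_self_iff.1 h1
  exact ⟨U, hU, fun t a t' b s e => (h2 (mk_mem_prod a b) s e).2⟩

/-- `δ` is a reparametrisation of `γ` up to the torus -/
def Fac (γ δ : ℂ → V M) : Prop :=
  ∃ (s : ℂ → ι → ℂ) (φ : ℂ → ℂ), AnalyticAt ℂ s 0 ∧ AnalyticAt ℂ φ 0 ∧ (∀ i, s 0 i ≠ 0) ∧
    φ 0 = 0 ∧ deriv φ 0 ≠ 0 ∧ ∀ᶠ z in 𝓝 0, δ z = s z • γ (φ z)

theorem Fac.trans {ε : ℂ → V M} (a : Fac γ δ) (b : Fac δ ε) : Fac γ ε := by
  obtain ⟨s, φ, a1, a2, a3, a4, a5, a6⟩ := a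
  obtain ⟨r, ψ, b1, b2, b3, b4, b5, b6⟩ := b
  have h : Tendsto ψ (𝓝 0) (𝓝 0) := by simpa only [ContinuousAt, b4] using b2.continuousAt
  refine ⟨fun z => r z * s (ψ z), fun z => φ (ψ z), b1.mul (a1.comp_of_eq b2 b4),
    a2.comp_of_eq b2 b4, fun i => ?_, by simp only [b4, a4], ?_, ?_⟩
  · simp only [b4]
    exact mul_ne_zero (b3 i) (a3 i)
  · have := deriv_comp (h₂ := φ) (h := ψ) 0 (by rw [b4]; exact a2.differentiableAt)
      b2.differentiableAt
    erw [this, b4]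
    exact mul_ne_zero a5 b5
  · filter_upwards [b6, h.eventually a6] with z h1 h2
    rw [h1, h2, mul_smul]

theorem Fac.symm (a : Fac γ δ) : Fac δ γ := by
  obtain ⟨s, φ, a1, a2, a3, a4, a5, a6⟩ := a
  have hd := a2.hasStrictDerivAt
  let ψ := hd.localInverse φ _ 0 a5
  have h1 : ∀ᶠ z in 𝓝 0, φ (ψ z) = z := a4 ▸ hd.eventually_right_inverse a5
  have h2 : ψ 0 = 0 := by
    have := (hd.eventually_left_inverse a5).self_of_nhds
    rwa [a4] at this
  have h3 : AnalyticAt ℂ ψ 0 := a4 ▸ a2.analyticAt_localInverse a5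
  have h : Tendsto ψ (𝓝 0) (𝓝 0) := by simpa only [ContinuousAt, h2] using h3.continuousAt
  have h4 : ∀ᶠ z in 𝓝 0, ∀ i, s z i ≠ 0 := eventually_all.2 fun i =>
    (continuousAt_pi.1 a1.continuousAt i).eventually_ne (a3 i)
  refine ⟨fun z => (s (ψ z))⁻¹, ψ, analyticAt_pi_iff.2 fun i =>
    (analyticAt_pi_iff.1 (a1.comp_of_eq h3 h2) i).inv (by simpa only [comp_apply, h2] using a3 i),
    h3, fun i => by simpa only [h2, Pi.inv_apply] using inv_ne_zero (a3 i), h2, fun e => ?_, ?_⟩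
  · have := deriv_comp (h₂ := φ) (h := ψ) 0 (by rw [h2]; exact a2.differentiableAt)
      h3.differentiableAt
    rw [e, mul_zero, EventuallyEq.deriv_eq (f₁ := φ ∘ ψ) (f := id) h1, deriv_id] at this
    exact one_ne_zero this
  · filter_upwards [h1, h.eventually a6, h.eventually h4] with z b1 b2 b3
    rw [b2, Base.inv_smul_smul' b3, b1]

theorem Fac.ev (a : Fac γ δ) (h : AnalyticAt ℂ γ 0) : ∃ (s : ℂ → ι → ℂ) (φ : ℂ → ℂ),
    AnalyticAt ℂ s 0 ∧ AnalyticAt ℂ φ 0 ∧ φ 0 = 0 ∧ deriv φ 0 ≠ 0 ∧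
      ∀ᶠ z in 𝓝 0, δ z = s z • γ (φ z) ∧ J o δ z = J o γ (φ z) := by
  obtain ⟨s, φ, a1, a2, a3, a4, a5, a6⟩ := a
  have h0 : Tendsto φ (𝓝 0) (𝓝 0) := by simpa only [ContinuousAt, a4] using a2.continuousAt
  have h4 : ∀ᶠ z in 𝓝 0, ∀ i, s z i ≠ 0 := eventually_all.2 fun i =>
    (continuousAt_pi.1 a1.continuousAt i).eventually_ne (a3 i)
  refine ⟨s, φ, a1, a2, a4, a5, ?_⟩
  filter_upwards [a6.eventually_nhds, a1.eventually_analyticAt, a2.eventually_analyticAt,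
    h0.eventually h.eventually_analyticAt, h4, a2.deriv.continuousAt.eventually_ne a5]
    with z b1 b2 b3 b4 b5 b6
  exact ⟨b1.self_of_nhds, (J_congr b1).trans (J_comp b2 b3 b4 b5 b6)⟩

theorem Fac.J_eq (a : Fac γ δ) (h : AnalyticAt ℂ γ 0) : J o δ 0 = J o γ 0 := by
  obtain ⟨s, φ, -, -, a1, -, a2⟩ := a.ev (o := o) h
  rw [a2.self_of_nhds.2, a1]

theorem fac_smul {s : ι → ℂ} (hs : ∀ i, s i ≠ 0) : Fac γ fun z => s • γ z :=
  ⟨fun _ => s, id, analyticAt_const, analyticAt_id, hs, rfl, by simp, .of_forall fun _ => rfl⟩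

theorem isCross_of_ne (a : IsBranch o C γ) (b : IsBranch o C δ) (e : δ 0 = γ 0)
    (h : J o γ 0 ≠ J o δ 0) : IsCross o C (γ 0) γ δ := by
  refine ⟨a, b, rfl, e, li_of_pr_ne a.imm (e ▸ b.imm) fun k => h ?_⟩
  unfold J
  rw [e, k]

theorem ne_of_isCross {c : V M} (h : IsCross o C c γ δ) : J o γ 0 ≠ J o δ 0 := fun e => by
  obtain ⟨-, -, a, b, k⟩ := h
  have := congrArg Prod.snd e
  simp only [J, a, b] at this
  exact pr_ne_of_li k this

/-- The local structure of the curve at a point. -/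
structure Loc (o : ι) (C : Set (V M)) (c : V M) (γ₁ γ₂ : ℂ → V M) : Prop where
  b1 : IsBranch o C γ₁
  b2 : IsBranch o C γ₂
  e1 : γ₁ 0 = c
  e2 : γ₂ 0 = c
  ne : γ₂ = γ₁ ∨ J o γ₁ 0 ≠ J o γ₂ 0
  fac : ∀ δ, IsBranch o C δ → δ 0 = c → Fac γ₁ δ ∨ Fac γ₂ δ
  sub : ∀ U ∈ 𝓝 (0 : ℂ), ∀ᶠ y in 𝓝 c, y ∈ C → ∃ s : ι → ℂ, ∃ z ∈ U, y = s • γ₁ z ∨ y = s • γ₂ z
  iso : ∀ᶠ y in 𝓝 c, y ∈ C → (∃ s : ι → ℂ, y = s • c) ∨ ¬ IsNode o C y

theorem fac_of {s : ℂ → ι → ℂ} {φ : ℂ → ℂ} (a : AnalyticAt ℂ γ 0) (b : IsBranch o C δ)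
    (hs : AnalyticAt ℂ s 0) (hφ : AnalyticAt ℂ φ 0) (h1 : s 0 = 1) (h0 : φ 0 = 0)
    (e : ∀ᶠ z in 𝓝 0, δ z = s z • γ (φ z)) : Fac γ δ := by
  refine ⟨s, φ, hs, hφ, fun i => by simp [h1], h0, fun k => ?_, e⟩
  have h2 := Base.hasDerivAt_smul hs.differentiableAt.hasDerivAt
    ((show AnalyticAt ℂ γ (φ 0) by rw [h0]; exact a).differentiableAt.hasDerivAt.scomp 0
      hφ.differentiableAt.hasDerivAt)
  have h3 := (EventuallyEq.deriv_eq e).trans h2.deriv
  have h4 : δ 0 = γ (φ 0) := by rw [e.self_of_nhds, h1, one_smul]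
  rw [k, zero_smul, smul_zero, add_zero] at h3
  refine one_ne_zero (Base.of_li_pair b.imm (e := 1) (s := deriv s 0 o) ?_)
  rw [one_smul, h3, h4]
  rfl

theorem exists_loc (hC : IsNodal o C) {c : V M} (hc : c ∈ C) : ∃ γ₁ γ₂, Loc o C c γ₁ γ₂ := by
  have hf := Base.Nod.locFam (t₀ := ()) ⟨hC.ne_zero, hC.closed, hC.cone, hC.nodal⟩
    (fun _ : Unit => (0 : ℂ)) (.of_forall fun _ => continuousAt_const)
  have hne := hC.ne_zero c hc
  have ht := Holo.tendsto_inr () c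
  rcases hf.chart c hc with h0 | ⟨τ, σ, rfl, h3, h2, h1⟩
  · obtain ⟨σ, rfl, h1⟩ := id h0
    have b := h1.isBranch0 (hne o)
    refine ⟨_, _, b, b, rfl, rfl, Or.inl rfl, fun δ a e => Or.inl ?_, fun U hU => ?_, ?_⟩
    · obtain ⟨s, φ, k1, k2, k3, k4, k5, -⟩ :=
        h1.factor continuousAt_const hne hf.cone a.holo e a.mem
      exact fac_of b.holo a k1 k2 k3 k4 (k5.mono fun z hz => hz.2)
    · refine (ht.eventually (h1.sub U hU)).mono fun y hy k => ?_
      obtain ⟨s, z, k1, -, k2⟩ := hy k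
      exact ⟨s, z, k1, Or.inl k2⟩
    · exact (ht.eventually (h0.eventually hf)).mono fun y hy k => Or.inr ((hy k).not_isNode hf)
  · have b := h1.isCross h2 (hne o)
    refine ⟨_, _, b.1, b.2.1, rfl, rfl, Or.inr (ne_of_isCross b), fun δ a e => ?_,
      fun U hU => ?_, ?_⟩
    · obtain ⟨s, φ, k1, k2, k3, k4, k5, -⟩ :=
        h1.factor continuousAt_const hne hf.cone a.holo e a.mem
      have m1 : AnalyticAt ℂ (fun z => (φ z).1) 0 := analyticAt_fst.comp k2
      have m2 : AnalyticAt ℂ (fun z => (φ z).2) 0 := analyticAt_snd.comp k2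
      have m3 : ∀ᶠ z in 𝓝 0, (φ z).1 * (φ z).2 = 0 := k5.mono fun z hz => hz.1.trans h2
      rcases m1.eventually_eq_zero_or_eventually_ne_zero with m4 | m4
      · refine Or.inr (fac_of b.2.1.holo a k1 m2 k3 (by simp only [k4, Prod.snd_zero]) ?_)
        filter_upwards [k5, m4] with z m5 m6
        rw [m5.2, ← m6]
      · have m5 : ∀ᶠ z in 𝓝 0, (φ z).2 = 0 := by
          refine m2.frequently_zero_iff_eventually_zero.1 (Eventually.frequently ?_)
          filter_upwards [m4, nhdsWithin_le_nhds m3] with z m6 m7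
          exact (mul_eq_zero.1 m7).resolve_left m6
        refine Or.inl (fac_of b.1.holo a k1 m1 k3 (by simp only [k4, Prod.fst_zero]) ?_)
        filter_upwards [k5, m5] with z m6 m7
        rw [m6.2, ← m7]
    · refine (ht.eventually (h1.sub _ (prod_mem_nhds hU hU))).mono fun y hy k => ?_
      obtain ⟨s, ⟨z, w⟩, k1, k2, k3⟩ := hy k
      rcases mul_eq_zero.1 (k2.trans h2) with rfl | rfl
      · exact ⟨s, w, k1.2, Or.inr k3⟩
      · exact ⟨s, z, k1.1, Or.inl k3⟩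
    · refine (ht.eventually (Base.NdAt.eventually h1 h3 h2 hf)).mono fun y hy k => ?_
      rcases hy k with m | m
      exacts [Or.inr (m.not_isNode hf), Or.inl m.2.1]

/-- A branch can be moved to any point of the orbit of its centre. -/
theorem exists_branch (hC : IsNodal o C) (h : IsBranch o C γ) {c : V M} (hc : ∀ i, c i ≠ 0)
    (e : P c = P (γ 0)) : ∃ δ, IsBranch o C δ ∧ δ 0 = c ∧ J o δ 0 = J o γ 0 ∧ Fac γ δ := by
  obtain ⟨s, h1, h2⟩ := exists_of_P hc e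
  exact ⟨_, branch_smul hC h h1, h2.symm, J_smul h1 h.holo, fac_smul h1⟩

theorem Loc.J_eq {c : V M} {γ₁ γ₂ : ℂ → V M} (hC : IsNodal o C) (l : Loc o C c γ₁ γ₂)
    (h : IsBranch o C δ) (e : P c = P (δ 0)) :
    (Fac γ₁ δ ∧ J o δ 0 = J o γ₁ 0) ∨ (Fac γ₂ δ ∧ J o δ 0 = J o γ₂ 0) := by
  obtain ⟨ε, h1, h2, -, h3⟩ := exists_branch hC h (l.e1 ▸ ne_of_branch hC l.b1) e
  rcases l.fac ε h1 h2 with k | k
  · exact Or.inl ⟨k.trans h3.symm, (k.trans h3.symm).J_eq l.b1.holo⟩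
  · exact Or.inr ⟨k.trans h3.symm, (k.trans h3.symm).J_eq l.b2.holo⟩

theorem fac_of_J (hC : IsNodal o C) (a : IsBranch o C γ) (b : IsBranch o C δ)
    (e : J o γ 0 = J o δ 0) : Fac γ δ := by
  obtain ⟨γ₁, γ₂, l⟩ := exists_loc hC a.mem.self_of_nhds
  rcases l.J_eq hC a rfl with ⟨h1, h2⟩ | ⟨h1, h2⟩ <;>
    rcases l.J_eq hC b (congrArg Prod.fst e) with ⟨h3, h4⟩ | ⟨h3, h4⟩
  · exact h1.symm.trans h3
  · rcases l.ne with k | k
    exacts [h1.symm.trans (k ▸ h3), absurd (h2.symm.trans (e.trans h4)) k]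
  · rcases l.ne with k | k
    exacts [h1.symm.trans (k ▸ h3), absurd (h4.symm.trans (e.symm.trans h2)) k]
  · exact h1.symm.trans h3

variable (o C) in
/-- the normalisation as a set -/
def S : Set (Y M o) := {y | ∃ γ, IsBranch o C γ ∧ J o γ 0 = y}

theorem eq_of_not_node (hC : IsNodal o C) (a : IsBranch o C γ) (h : ¬ IsNode o C (γ 0))
    {y : Y M o} (hy : y ∈ S o C) (e : P (γ 0) = y.1) : y = J o γ 0 := by
  obtain ⟨δ, b, rfl⟩ := hy
  obtain ⟨ε, h1, h2, h3, -⟩ := exists_branch hC b (ne_of_branch hC a) e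
  by_contra k
  exact h ⟨_, _, isCross_of_ne a h1 h2 fun m => k (h3.symm.trans m.symm)⟩

theorem Loc.near {c : V M} {γ₁ γ₂ : ℂ → V M} (hC : IsNodal o C) (l : Loc o C c γ₁ γ₂)
    {U : Set ℂ} (hU : U ∈ 𝓝 0) : ∀ᶠ p in 𝓝 (P c), ∀ y ∈ S o C, y.1 = p →
      ∃ z ∈ U, y = J o γ₁ z ∨ y = J o γ₂ z := by
  have hne : ∀ i, c i ≠ 0 := l.e1 ▸ ne_of_branch hC l.b1
  have h1 : Tendsto (fun p : ∀ i, Fin (M i) → Fin (M i) → ℂ => fun i => ap (p i) (c i))
      (𝓝 (P c)) (𝓝 c) := by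
    refine Continuous.tendsto' ?_ _ _ (funext fun i => ap_self (hne i))
    unfold ap
    fun_prop
  filter_upwards [h1.eventually (l.sub _ (inter_mem hU ((branch_sh l.b1).and (branch_sh l.b2)))),
    h1.eventually l.iso, h1.eventually (Base.eventually_ne hne)] with p h2 h3 h4
  rintro _ ⟨δ, a, rfl⟩ rfl
  have h5 : P (fun i => ap ((J o δ 0).1 i) (c i)) = P (δ 0) := funext fun i => by
    have k := h4 i
    change ap (pr (δ 0 i)) (c i) ≠ 0 at k
    change pr (ap (pr (δ 0 i)) (c i)) = pr (δ 0 i)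
    rw [ap_pr] at k ⊢
    exact pr_smul (left_ne_zero_of_smul k) _
  obtain ⟨ε, b1, b2, b3, -⟩ := exists_branch hC a h4 h5
  have h6 := b2 ▸ b1.mem.self_of_nhds
  rcases h3 h6 with ⟨s, k⟩ | k
  · have k0 : ∀ i, (s • c) i ≠ 0 := by
      rw [← k]
      exact h4
    have k1 : P c = P (δ 0) := by rw [← h5, k, P_smul (Base.ne_of_smul_ne k0)]
    exact ⟨0, mem_of_mem_nhds hU, (l.J_eq hC a k1).imp And.right And.right⟩
  · obtain ⟨s, z, ⟨k1, k2, k3⟩, k4⟩ := h2 h6
    have k5 : ∀ ζ : ℂ → V M, IsBranch o C (sh ζ z) → ε 0 = s • ζ z → J o δ 0 = J o ζ z := by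
      intro ζ m1 m2
      have m3 : P (ε 0) = (J o (sh ζ z) 0).1 := by
        rw [J_sh, add_zero, m2, P_smul (Base.ne_of_smul_ne (m2 ▸ ne_of_branch hC b1))]
        rfl
      have m4 := eq_of_not_node hC b1 (b2 ▸ k) ⟨_, m1, rfl⟩ m3
      rw [← b3, ← m4, J_sh, add_zero]
    exact ⟨z, k1, k4.imp (fun m => k5 _ k2 (b2.trans m)) fun m => k5 _ k3 (b2.trans m)⟩

/-- The image of a small disc is a neighbourhood in the normalisation. -/
theorem near_branch (hC : IsNodal o C) (h : IsBranch o C γ) {U : Set ℂ} (hU : U ∈ 𝓝 0) :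
    ∀ᶠ y in 𝓝 (J o γ 0), y ∈ S o C → ∃ z ∈ U, y = J o γ z := by
  have key : ∀ γ₁ γ₂, Loc o C (γ 0) γ₁ γ₂ ∨ Loc o C (γ 0) γ₂ γ₁ → Fac γ₁ γ →
      J o γ 0 = J o γ₁ 0 → ∀ᶠ y in 𝓝 (J o γ 0), y ∈ S o C → ∃ z ∈ U, y = J o γ z := by
    intro γ₁ γ₂ l f e
    obtain ⟨s, φ, -, a2, a3, -, a4⟩ := f.symm.ev (o := o) h.holo
    have a5 : Tendsto φ (𝓝 0) (𝓝 0) := by simpa only [ContinuousAt, a3] using a2.continuousAt
    have b2 : IsBranch o C γ₂ := l.elim Loc.b2 Loc.b1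
    have b3 : γ₂ = γ₁ ∨ J o γ₁ 0 ≠ J o γ₂ 0 :=
      l.elim Loc.ne fun k => k.ne.imp Eq.symm Ne.symm
    have b4 : ∀ U' ∈ 𝓝 (0 : ℂ), ∀ᶠ y in 𝓝 (J o γ 0), y ∈ S o C →
        ∃ z ∈ U', y = J o γ₁ z ∨ y = J o γ₂ z := fun U' hU' => by
      rcases l with l | l
      · exact (continuousAt_fst.eventually (l.near hC hU')).mono fun y k hy => k y hy rfl
      · exact (continuousAt_fst.eventually (l.near hC hU')).mono fun y k hy =>
          (k y hy rfl).imp fun z m => ⟨m.1, m.2.symm⟩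
    have b5 := a4.and (a5.eventually hU)
    rcases b3 with rfl | b3
    · refine (b4 _ b5).mono fun y k hy => ?_
      obtain ⟨z, k1, k2⟩ := k hy
      exact ⟨φ z, k1.2, (k2.elim id id).trans k1.1.2⟩
    · obtain ⟨A, B, hA, hB, hAB⟩ := t2_separation_nhds (e ▸ b3 : J o γ 0 ≠ J o γ₂ 0)
      filter_upwards [b4 _ (b5.and (contAt_J b2 (ne_of_branch hC b2) hB)), hA] with y k k0 hy
      obtain ⟨z, k1, k2 | k2⟩ := k hy
      · exact ⟨φ z, k1.1.2, k2.trans k1.1.1.2⟩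
      · exact (disjoint_left.1 hAB k0 (k2 ▸ k1.2)).elim
  obtain ⟨γ₁, γ₂, l⟩ := exists_loc hC h.mem.self_of_nhds
  rcases l.J_eq hC h rfl with k | k
  exacts [key _ _ (Or.inl l) k.1 k.2, key _ _ (Or.inr l) k.1 k.2]

theorem isCompact_S (hC : IsNodal o C) : IsCompact (S o C) := by
  have h1 : IsCompact (C ∩ {c : V M | ∀ i, ‖c i‖ = 1}) := by
    refine Base.isCompact_sph.of_isClosed_subset (isClosed_of_closure_subset fun c hc => ?_)
      inter_subset_right
    have k := Base.isCompact_sph.isClosed.closure_subset (closure_mono inter_subset_right hc)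
    exact ⟨hC.closed c (closure_mono inter_subset_left hc) fun i e => by simpa [e] using k i, k⟩
  have h2 := h1.image_of_continuousOn fun c hc =>
    (continuousAt_P (hC.ne_zero c hc.1)).continuousWithinAt
  refine isCompact_iff_ultrafilter_le_nhds'.2 fun F hF => ?_
  obtain ⟨_, ⟨c, hc, rfl⟩, h3⟩ := isCompact_iff_ultrafilter_le_nhds'.1 h2 (F.map Prod.fst) (by
    refine Ultrafilter.mem_map.2 (mem_of_superset hF ?_)
    rintro _ ⟨δ, a, rfl⟩
    have h4 : ∀ i, ((‖δ 0 i‖ : ℂ))⁻¹ ≠ 0 := fun i => by simpa using ne_of_branch hC a i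
    refine ⟨_, ⟨hC.cone _ h4 _ a.mem.self_of_nhds, fun i => ?_⟩, P_smul h4 _⟩
    rw [Pi.smul_apply', norm_smul, norm_inv, Complex.norm_real, norm_norm,
      inv_mul_cancel₀ (norm_ne_zero_iff.2 (ne_of_branch hC a i))])
  obtain ⟨γ₁, γ₂, l⟩ := exists_loc hC hc.1
  by_contra k
  have k1 : ¬ (F : Filter _) ≤ 𝓝 (J o γ₁ 0) := fun m => k ⟨_, ⟨_, l.b1, rfl⟩, m⟩
  have k2 : ¬ (F : Filter _) ≤ 𝓝 (J o γ₂ 0) := fun m => k ⟨_, ⟨_, l.b2, rfl⟩, m⟩
  obtain ⟨A, hA, k3⟩ := Filter.not_le.1 k1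
  obtain ⟨B, hB, k4⟩ := Filter.not_le.1 k2
  have k5 := h3 (l.near hC (inter_mem (contAt_J l.b1 (ne_of_branch hC l.b1) hA)
    (contAt_J l.b2 (ne_of_branch hC l.b2) hB)))
  have k6 : A ∪ B ∈ F := by
    filter_upwards [Filter.mem_map.1 k5, hF] with y m1 m2
    obtain ⟨z, m3, rfl | rfl⟩ := m1 y m2 rfl
    exacts [Or.inl m3.1, Or.inr m3.2]
  exact (Ultrafilter.union_mem_iff.1 k6).elim k3 k4

theorem exists_chart {X : Type} [TopologicalSpace X] {f : ℂ → X}
    (h1 : ∀ᶠ t in 𝓝 0, ContinuousAt f t ∧ 𝓝 (f t) ≤ map f (𝓝 t))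
    (h2 : ∃ U ∈ 𝓝 (0 : ℂ), InjOn f U) :
    ∃ e : OpenPartialHomeomorph ℂ X, (e : ℂ → X) = f ∧ 0 ∈ e.source := by
  obtain ⟨U, hU, h2⟩ := h2
  obtain ⟨D, h3, h4, h5⟩ := mem_nhds_iff.1 (inter_mem hU h1)
  refine ⟨OpenPartialHomeomorph.ofContinuousOpenRestrict
    ((h2.mono (h3.trans inter_subset_left)).toPartialEquiv f D)
    (fun t ht => (h3 ht).2.1.continuousWithinAt) ?_ h4, rfl, h5⟩
  refine isOpenMap_iff_nhds_le.2 fun t => ?_
  change 𝓝 (f t) ≤ map (f ∘ Subtype.val) (𝓝 t)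
  rw [← map_map, map_nhds_subtype_val]
  exact (h3 t.2).2.2.trans (map_mono (nhdsWithin_eq_nhds.2 (h4.mem_nhds t.2)).ge)

variable (C) in
/-- a point of the curve over `p` -/
noncomputable def bs (p : ∀ i, Fin (M i) → Fin (M i) → ℂ) : V M :=
  Classical.epsilon fun c => c ∈ C ∧ P c = p

theorem exists_g (hC : IsNodal o C) (x : S o C) :
    ∃ γ, IsBranch o C γ ∧ J o γ 0 = x ∧ γ 0 = bs C x.1.1 := by
  obtain ⟨_, γ, a, rfl⟩ := x
  have h := Classical.epsilon_spec (p := fun c => c ∈ C ∧ P c = (J o γ 0).1)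
    ⟨γ 0, a.mem.self_of_nhds, rfl⟩
  obtain ⟨δ, h1, h2, h3, -⟩ := exists_branch hC a (hC.ne_zero _ h.1) h.2
  exact ⟨δ, h1, h3, h2⟩

variable (hC : IsNodal o C)

/-- the chosen branch -/
noncomputable def g (x : S o C) : ℂ → V M := (exists_g hC x).choose

theorem g_br (x : S o C) : IsBranch o C (g hC x) := (exists_g hC x).choose_spec.1

theorem g_J (x : S o C) : J o (g hC x) 0 = x := (exists_g hC x).choose_spec.2.1

theorem g_zero (x : S o C) : g hC x 0 = bs C x.1.1 := (exists_g hC x).choose_spec.2.2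

theorem P_g (x : S o C) : P (g hC x 0) = x.1.1 := congrArg Prod.fst (g_J hC x)

open Classical in
/-- the parametrisation of the normalisation near `x` -/
noncomputable def f (x : S o C) (t : ℂ) : S o C :=
  if h : J o (g hC x) t ∈ S o C then ⟨_, h⟩ else x

theorem f_val {x : S o C} {t : ℂ} (h : IsBranch o C (sh (g hC x) t)) :
    (f hC x t : Y M o) = J o (g hC x) t := by
  have : J o (g hC x) t ∈ S o C := ⟨_, h, by rw [J_sh, add_zero]⟩
  rw [f, dif_pos this]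

theorem f_ev (x : S o C) : ∀ᶠ t in 𝓝 0, (f hC x t : Y M o) = J o (g hC x) t :=
  (branch_sh (g_br hC x)).mono fun _ h => f_val hC h

theorem f_zero (x : S o C) : f hC x 0 = x :=
  Subtype.ext ((f_ev hC x).self_of_nhds.trans (g_J hC x))

theorem exists_E (x : S o C) :
    ∃ e : OpenPartialHomeomorph ℂ (S o C), (e : ℂ → S o C) = f hC x ∧ 0 ∈ e.source := by
  refine exists_chart ?_ ?_
  · filter_upwards [branch_sh (g_br hC x), (f_ev hC x).eventually_nhds] with t h1 h2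
    have h3 : Tendsto (fun z => z - t) (𝓝 t) (𝓝 0) :=
      (continuous_id.sub continuous_const).tendsto' _ _ (sub_self t)
    have h4 : Tendsto (fun z => t + z) (𝓝 0) (𝓝 t) :=
      (continuous_const.add continuous_id).tendsto' _ _ (add_zero t)
    have h5 : (f hC x t : Y M o) = J o (sh (g hC x) t) 0 := by
      rw [h2.self_of_nhds, J_sh, add_zero]
    constructor
    · refine tendsto_subtype_rng.2 ?_
      rw [h5]
      refine ((contAt_J h1 (ne_of_branch hC h1)).tendsto.comp h3).congr' (h2.mono fun z hz => ?_)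
      simp only [comp_apply, J_sh, add_sub_cancel, hz]
    · intro W hW
      have h6 := near_branch hC h1 (h4 (inter_mem hW h2))
      rw [← h5] at h6
      refine (continuousAt_subtype_val.eventually h6).mono fun y hy => ?_
      obtain ⟨z, ⟨k1, k2⟩, k3⟩ := hy y.2
      have : y = f hC x (t + z) := Subtype.ext (k3.trans ((J_sh _ _ _).trans k2.symm))
      rw [this]
      exact k1
  · obtain ⟨U, hU, h1⟩ := inj_branch hC (g_br hC x)
    refine ⟨_, inter_mem hU (branch_sh (g_br hC x)), fun t a t' b e => ?_⟩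
    have h2 : J o (g hC x) t' = J o (g hC x) t := by rw [← f_val hC a.2, ← f_val hC b.2, e]
    obtain ⟨s, -, h3⟩ := exists_of_P (c := g hC x t) (c' := g hC x t')
      (fun i => by simpa [sh] using ne_of_branch hC b.2 i) (congrArg Prod.fst h2)
    exact h1 t a.1 t' b.1 s h3

/-- the chart at `x` -/
noncomputable def E (x : S o C) : OpenPartialHomeomorph (S o C) ℂ := (exists_E hC x).choose.symm

theorem E_symm (x : S o C) : ((E hC x).symm : ℂ → S o C) = f hC x := (exists_E hC x).choose_spec.1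

theorem E_tgt (x : S o C) : 0 ∈ (E hC x).target := (exists_E hC x).choose_spec.2

theorem E_f {x : S o C} {t : ℂ} (h : t ∈ (E hC x).target) : E hC x (f hC x t) = t :=
  E_symm hC x ▸ (E hC x).right_inv h

theorem E_src (x : S o C) : x ∈ (E hC x).source := by
  have := (E hC x).map_target (E_tgt hC x)
  rwa [E_symm, f_zero] at this

theorem E_zero (x : S o C) : E hC x x = 0 := by
  have := E_f hC (E_tgt hC x)
  rwa [f_zero] at this

theorem ev_E (x : S o C) {p : ℂ → Prop} (h : ∀ᶠ t in 𝓝 0, p t) :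
    ∀ᶠ y in 𝓝 x, y ∈ (E hC x).source ∧ f hC x (E hC x y) = y ∧ p (E hC x y) := by
  have h1 := (E hC x).continuousAt (E_src hC x)
  rw [ContinuousAt, E_zero] at h1
  filter_upwards [(E hC x).open_source.mem_nhds (E_src hC x), h1.eventually h] with y a b
  exact ⟨a, E_symm hC x ▸ (E hC x).left_inv a, b⟩

/-- the transition between two charts -/
theorem trans_E (x : S o C) : ∀ᶠ y in 𝓝 x, ∃ (s : ℂ → ι → ℂ) (φ : ℂ → ℂ), AnalyticAt ℂ s 0 ∧
    AnalyticAt ℂ φ 0 ∧ deriv φ 0 ≠ 0 ∧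
      ∀ᶠ z in 𝓝 0, E hC x (f hC y z) = φ z ∧ g hC y z = s z • g hC x (φ z) := by
  filter_upwards [ev_E hC x ((branch_sh (g_br hC x)).and (f_ev hC x).eventually_nhds)]
    with y ⟨h1, h2, h3, h4⟩
  have h5 : J o (sh (g hC x) (E hC x y)) 0 = J o (g hC y) 0 := by
    rw [J_sh, add_zero, ← h4.self_of_nhds, h2, g_J]
  obtain ⟨s, φ, a1, a2, a3, a4, a5⟩ := (fac_of_J hC h3 (g_br hC y) h5).ev (o := o) h3.holo
  have a6 : Tendsto (fun z => E hC x y + φ z) (𝓝 0) (𝓝 (E hC x y)) := by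
    simpa only [ContinuousAt, a3, add_zero] using a2.continuousAt.tendsto.const_add (E hC x y)
  refine ⟨s, fun z => E hC x y + φ z, a1, analyticAt_const.add a2, by rwa [deriv_const_add], ?_⟩
  filter_upwards [a5, a6.eventually h4, f_ev hC y,
    a6.eventually ((E hC x).open_target.mem_nhds ((E hC x).map_source h1))] with z b1 b2 b3 b4
  have : f hC y z = f hC x (E hC x y + φ z) :=
    Subtype.ext (b3.trans (b1.2.trans ((J_sh _ _ _).trans b2.symm)))
  exact ⟨this ▸ E_f hC b4, b1.1⟩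

/-- the Riemann surface -/
noncomputable def R : RS (S o C) := RS.of (E hC) (E_src hC) (E_zero hC) fun x =>
  (trans_E hC x).mono fun y h => by
    obtain ⟨s, φ, -, a1, a2, a3⟩ := h
    have e : (fun t => E hC x ((E hC y).symm t)) =ᶠ[𝓝 0] φ := a3.mono fun z hz => by
      rw [E_symm]
      exact hz.1
    exact ⟨a1.congr e.symm, e.deriv_eq ▸ a2⟩

theorem R_i (x : S o C) (t : ℂ) : (R hC).i x t = f hC x t := congrFun (E_symm hC x) t

theorem ev_R (x : S o C) {p : S o C → Prop} (h : ∀ᶠ y in 𝓝 x, p y) :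
    ∀ᶠ t in 𝓝 0, p (f hC x t) ∧ E hC x (f hC x t) = t := by
  filter_upwards [(R hC).ev_iff.1 h, (E hC x).open_target.mem_nhds (E_tgt hC x)] with t a b
  exact ⟨R_i hC x t ▸ a, E_f hC b⟩

/-- the frame of `O(e_i)` -/
noncomputable def ψ (i : ι) (x y : S o C) : ℂ :=
  Classical.epsilon fun a : ℂ => g hC y 0 i = a • g hC x (E hC x y) i

theorem ψ_spec (x : S o C) : ∀ᶠ y in 𝓝 x, ∀ i, ψ hC i x y ≠ 0 ∧ g hC x (E hC x y) i ≠ 0 ∧
    g hC y 0 i = ψ hC i x y • g hC x (E hC x y) i := by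
  filter_upwards [ev_E hC x (f_ev hC x)] with y ⟨_, h2, h3⟩ i
  have h4 := ne_of_branch hC (g_br hC y)
  obtain ⟨s, -, h5⟩ := exists_of_P (c := g hC x (E hC x y)) h4 (by
    rw [P_g, ← h2, h3, h2]
    rfl)
  have h6 : g hC y 0 i = ψ hC i x y • g hC x (E hC x y) i :=
    Classical.epsilon_spec (p := fun a : ℂ => g hC y 0 i = a • g hC x (E hC x y) i)
      ⟨s i, congrFun h5 i⟩
  exact ⟨left_ne_zero_of_smul (h6 ▸ h4 i), right_ne_zero_of_smul (h6 ▸ h4 i), h6⟩

theorem ψ_self (i : ι) (x : S o C) : ψ hC i x x = 1 := by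
  obtain ⟨-, h1, h2⟩ := (ψ_spec hC x).self_of_nhds i
  rw [E_zero] at h1 h2
  exact smul_left_injective ℂ h1 (h2.symm.trans (one_smul _ _).symm)

theorem ψ_ne (i : ι) (x : S o C) : ∀ᶠ y in 𝓝 x, ψ hC i x y ≠ 0 :=
  (ψ_spec hC x).mono fun _ h => (h i).1

theorem ψ_hol (i : ι) (x : S o C) :
    ∀ᶠ y in 𝓝 x, (R hC).Hol (fun z => ψ hC i x z / ψ hC i y z) y := by
  filter_upwards [trans_E hC x, (ψ_spec hC x).eventually_nhds] with y ⟨s, φ, a1, _, _, a4⟩ h
  refine (analyticAt_pi_iff.1 a1 i).congr ?_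
  filter_upwards [a4, ev_R hC y (h.and (ψ_spec hC y))] with z b1 ⟨⟨b2, b3⟩, b4⟩
  obtain ⟨-, c2, c3⟩ := b2 i
  obtain ⟨d1, -, d3⟩ := b3 i
  rw [b1.1] at c2 c3
  rw [b4, b1.2, c3, Pi.smul_apply', smul_smul] at d3
  rw [R_i, smul_left_injective ℂ c2 d3, mul_div_cancel_left₀ _ d1]

/-- the bundle `O(e_i)` -/
noncomputable def A (i : ι) : LB (R hC) := LB.of (ψ hC i) (ψ_ne hC i) (ψ_hol hC i)

theorem br_eq (x : S o C) : br (A hC) (fun y => g hC y 0) x =ᶠ[𝓝 0] g hC x := by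
  filter_upwards [ev_R hC x (ψ_spec hC x)] with t ⟨h1, h2⟩
  funext i j
  obtain ⟨a, -, b⟩ := h1 i
  simp only [br, LB.loc, R_i, A, LB.of, if_neg a, ψ_self, div_one, b, h2, Pi.smul_apply,
    smul_eq_mul]
  exact mul_div_cancel_left₀ _ a

include hC in
theorem finite_B : {x : S o C | ∃ y, y ≠ x ∧ y.1.1 = x.1.1}.Finite := by
  have : CompactSpace (S o C) := isCompact_iff_compactSpace.1 (isCompact_S hC)
  have h : ∀ x : S o C, ∀ᶠ y in 𝓝 x, y ≠ x → ¬ ∃ y', y' ≠ y ∧ y'.1.1 = y.1.1 := by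
    intro x
    obtain ⟨γ₁, γ₂, l⟩ := exists_loc hC (g_br hC x).mem.self_of_nhds
    obtain ⟨U, hU, h1⟩ := inj_branch hC (g_br hC x)
    filter_upwards [ev_E hC x (((g_br hC x).holo.continuousAt.eventually l.iso).and
      ((branch_sh (g_br hC x)).and hU))] with y ⟨_, h3, h4, h5, h6⟩ h7 ⟨y', h8, h9⟩
    have e : sh (g hC x) (E hC x y) 0 = g hC x (E hC x y) := by simp only [sh, add_zero]
    have e' : (y : Y M o) = J o (sh (g hC x) (E hC x y)) 0 := by
      rw [J_sh, add_zero, ← f_val hC h5, h3]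
    rcases h4 (e ▸ h5.mem.self_of_nhds) with ⟨s, k⟩ | k
    · have k1 := h1 0 (mem_of_mem_nhds hU) _ h6 s k
      rw [← k1, f_zero] at h3
      exact h7 h3.symm
    · have k1 := eq_of_not_node hC h5 (e ▸ k) y'.2 (by rw [h9, e']; rfl)
      exact h8 (Subtype.ext (k1.trans e'.symm))
  obtain ⟨T, hT⟩ := CompactSpace.elim_nhds_subcover _ h
  refine T.finite_toSet.subset fun y hy => ?_
  obtain ⟨x, h1, h2⟩ := mem_iUnion₂.1 (hT.ge (mem_univ y))
  by_contra k
  exact h2 (fun e => k (e ▸ h1)) hy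

include hC in
theorem two {x y z : S o C} (a : x.1.1 = y.1.1) (b : x.1.1 = z.1.1) : x = y ∨ x = z ∨ y = z := by
  obtain ⟨γ₁, γ₂, l⟩ := exists_loc hC (g_br hC x).mem.self_of_nhds
  have h : ∀ w : S o C, x.1.1 = w.1.1 → w.1 = J o γ₁ 0 ∨ w.1 = J o γ₂ 0 := fun w e => by
    rw [← g_J hC w]
    exact (l.J_eq hC (g_br hC w) (by rw [P_g, P_g, e])).imp And.right And.right
  simp only [Subtype.ext_iff]
  rcases h x rfl with h1 | h1 <;> rcases h y a with h2 | h2 <;> rcases h z b with h3 | h3 <;>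
    simp only [h1, h2, h3, true_or, or_true]

end Nrm

open Nrm in
theorem IsNodal.exists_par {ι : Type} [Fintype ι] {M : ι → ℕ} {o : ι} {C : Set (V M)}
    (h : IsNodal o C) : ∃ (X : Type) (_ : TopologicalSpace X) (_ : T2Space X)
    (_ : CompactSpace X) (R : RS X) (N : Finset (X × X)) (A : ι → LB R) (π : X → V M),
    Par o C N A π := by
  obtain ⟨lo, -⟩ := exists_wellFoundedLT (S o C)
  have hN : {n : S o C × S o C | n.1.1.1 = n.2.1.1 ∧ n.1 < n.2}.Finite :=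
    ((finite_B h).prod (finite_B h)).subset fun n hn =>
      ⟨⟨n.2, hn.2.ne', hn.1.symm⟩, ⟨n.1, hn.2.ne, hn.1⟩⟩
  refine ⟨S o C, inferInstance, inferInstance, isCompact_iff_compactSpace.1 (isCompact_S h),
    Nrm.R h, hN.toFinset, Nrm.A h, fun y => g h y 0, ⟨?_, ?_, ?_⟩, fun i j => ⟨fun x => ?_, ?_⟩,
    fun x => ne_of_branch h (g_br h x), fun c => ⟨fun hc => ?_, ?_⟩, fun x y t e => ?_,
    fun x => ?_, fun n hn => ?_⟩
  · intro n a n' b e
    rw [Finite.mem_toFinset] at a b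
    have k := b.2.trans_eq e.symm
    rcases two h a.1 (e ▸ b.1.symm : n.1.1.1 = n'.1.1.1) with m | m | m
    exacts [a.2.ne m, k.ne' m, (k.trans a.2).ne' m]
  · intro n a n' b e
    rw [Finite.coe_toFinset] at a b
    rcases two h a.1 (e ▸ b.1 : n.1.1.1 = n'.2.1.1) with m | m | m
    exacts [absurd m a.2.ne, absurd m (e.trans_lt b.2).ne, Prod.ext e m]
  · intro n a n' b e
    rw [Finite.coe_toFinset] at a b
    rcases two h a.1.symm (e ▸ b.1.symm : n.2.1.1 = n'.1.1.1) with m | m | m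
    exacts [absurd m a.2.ne', absurd m (b.2.trans_eq e.symm).ne', Prod.ext m e]
  · exact (analyticAt_pi_iff.1 (analyticAt_pi_iff.1 (g_br h x).holo i) j).congr
      ((br_eq h x).mono fun t ht => (congrFun (congrFun ht i) j).symm)
  · intro n a
    rw [Finite.mem_toFinset] at a
    simp only [g_zero, a.1]
  · obtain ⟨γ₁, γ₂, l⟩ := exists_loc h hc
    obtain ⟨s, h1, h2⟩ := exists_of_P (c := g h ⟨_, _, l.b1, rfl⟩ 0) (h.ne_zero c hc)
      ((congrArg P l.e1.symm).trans (P_g h ⟨_, _, l.b1, rfl⟩).symm)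
    exact ⟨_, s, h1, h2⟩
  · rintro ⟨x, t, h1, rfl⟩
    exact h.cone t h1 _ (g_br h x).mem.self_of_nhds
  · have k : x.1.1 = y.1.1 := by
      rw [← P_g h x, ← P_g h y, e, P_smul (Base.ne_of_smul_ne (e ▸ ne_of_branch h (g_br h y)))]
    simp only [Finite.mem_toFinset]
    rcases lt_trichotomy x y with m | m | m
    exacts [Or.inr (Or.inl ⟨k, m⟩), Or.inl m, Or.inr (Or.inr ⟨k.symm, m⟩)]
  · rw [(br_eq h x).deriv_eq]
    exact (g_br h x).imm
  · rw [Finite.mem_toFinset] at hn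
    rw [(br_eq h n.1).deriv_eq, (br_eq h n.2).deriv_eq]
    exact (isCross_of_ne (g_br h n.1) (g_br h n.2) (by rw [g_zero, g_zero, hn.1]) (by
      rw [g_J, g_J]
      exact fun e => hn.2.ne (Subtype.ext e))).2.2.2.2

end Vale.Agent.P269.Cv
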