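import Vale.Agent.P269.Cv.Ctr

/-!
# Existence of stabilisation and contraction
-/

set_option linter.unusedSectionVars false

namespace Vale.Agent.P269.Cv

open Set Function Topology Filter Module Classical

variable {X X' Y Y' : Type} [TopologicalSpace X] [TopologicalSpace X'] [T2Space X] [CompactSpace X]
  [T2Space X'] [CompactSpace X'] [TopologicalSpace Y] [TopologicalSpace Y'] [T2Space Y]
  [CompactSpace Y] [T2Space Y'] [CompactSpace Y'] {ν : Type} [Fintype ν]
  {R : RS X} {R' : RS X'} {N : Finset (X × X)} {N' : Finset (X' × X')} {p : ν → X}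
  {p' : Option ν → X'} {c : X} {j : X → X'} {r : X' → X} {L : LB R} {L' : LB R'}

namespace CtrB

/-! ### Sets of nodes -/

theorem exists_ins (hN : Nd N) {a b : X} (ha : Sm N a) (hb : Sm N b) (h : a ≠ b) :
    ∃ M : Finset (X × X), Nd M ∧ ∀ x y, Jn M x y ↔ Jn N x y ∨ s(x, y) = s(a, b) := by
  refine ⟨insert (a, b) N, ⟨fun n hn n' hn' => ?_, ?_, ?_⟩, fun x y => ?_⟩
  · rcases Finset.mem_insert.1 hn with rfl | hn <;> rcases Finset.mem_insert.1 hn' with rfl | hn'
    exacts [h, (ha _ hn').2.symm, (hb _ hn).1, hN.ne _ hn _ hn']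
  · rw [Finset.coe_insert]
    exact (injOn_insert fun e => (ha _ e).1 rfl).2 ⟨hN.inj1, fun ⟨n, hn, e⟩ => (ha n hn).1 e⟩
  · rw [Finset.coe_insert]
    exact (injOn_insert fun e => (ha _ e).1 rfl).2 ⟨hN.inj2, fun ⟨n, hn, e⟩ => (hb n hn).2 e⟩
  · simp only [Jn, Finset.mem_insert, Prod.mk.injEq, Sym2.eq_iff]
    tauto

theorem exists_img (hN : Nd N) (hj : Injective j) : ∃ M : Finset (X' × X'), Nd M ∧
    ∀ a b, Jn M a b ↔ ∃ x y, Jn N x y ∧ a = j x ∧ b = j y := by
  refine ⟨N.image (Prod.map j j), ?_, fun a b => ?_⟩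
  · refine ⟨fun n hn n' hn' => ?_, fun n hn n' hn' e => ?_, fun n hn n' hn' e => ?_⟩ <;>
      obtain ⟨m, hm, rfl⟩ := Finset.mem_image.1 hn <;>
      obtain ⟨m', hm', rfl⟩ := Finset.mem_image.1 hn'
    exacts [hj.ne (hN.ne _ hm _ hm'), congrArg _ (hN.inj1 hm hm' (hj e)),
      congrArg _ (hN.inj2 hm hm' (hj e))]
  simp only [Jn, Finset.mem_image, Prod.exists, Prod.map_apply, Prod.mk.injEq]
  constructor
  · rintro (⟨x, y, h, rfl, rfl⟩ | ⟨x, y, h, rfl, rfl⟩)
    exacts [⟨x, y, .inl h, rfl, rfl⟩, ⟨y, x, .inr h, rfl, rfl⟩]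
  · rintro ⟨x, y, h | h, rfl, rfl⟩
    exacts [.inl ⟨x, y, h, rfl, rfl⟩, .inr ⟨y, x, h, rfl, rfl⟩]

theorem exists_del (hN : Nd N) (a b : X) : ∃ M : Finset (X × X), Nd M ∧
    ∀ x y, Jn M x y ↔ Jn N x y ∧ s(x, y) ≠ s(a, b) := by
  refine ⟨N.filter fun n => s(n.1, n.2) ≠ s(a, b), ⟨fun _ hn _ hn' =>
    hN.ne _ (Finset.mem_filter.1 hn).1 _ (Finset.mem_filter.1 hn').1,
    hN.inj1.mono (Finset.filter_subset _ _), hN.inj2.mono (Finset.filter_subset _ _)⟩,
    fun x y => ?_⟩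
  simp only [Jn, Finset.mem_filter, Sym2.eq_swap (a := y)]
  tauto

theorem exists_pre (hN : Nd N') (hj : Injective j) :
    ∃ N : Finset (X × X), Nd N ∧ ∀ x y, Jn N x y ↔ Jn N' (j x) (j y) := by
  have i := hj.prodMap hj
  refine ⟨N'.preimage (Prod.map j j) i.injOn, ⟨fun n hn n' hn' e => ?_, fun n hn n' hn' e => ?_,
    fun n hn n' hn' e => ?_⟩, fun x y => by simp [Jn]⟩
  · exact hN.ne _ (Finset.mem_preimage.1 hn) _ (Finset.mem_preimage.1 hn') (congrArg j e)
  · exact i (hN.inj1 (Finset.mem_preimage.1 hn) (Finset.mem_preimage.1 hn') (congrArg j e))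
  · exact i (hN.inj2 (Finset.mem_preimage.1 hn) (Finset.mem_preimage.1 hn') (congrArg j e))

/-! ### Degrees of the dualising bundle -/

theorem mem_sp (P : Finset X) (y : X) :
    y ∈ N.image Prod.fst ∪ N.image Prod.snd ∪ P ↔ ¬(Sm N y ∧ y ∉ P) := by
  simp only [not_and_or, not_not, Sm, not_forall, Finset.mem_union, Finset.mem_image, exists_prop,
    and_or_left, exists_or]

theorem degOn_card (hN : Nd N) {P : Finset X} (hP : ∀ p ∈ P, Sm N p) {U : Set X}
    (hU : IsClopen U) : ∃ T : Finset X, (∀ y, y ∈ T ↔ y ∈ U ∧ ¬(Sm N y ∧ y ∉ P)) ∧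
      degOn (omega R N P) U = degOn R.K U + T.card := by
  refine ⟨(N.image Prod.fst ∪ N.image Prod.snd ∪ P).filter (· ∈ U), fun y => by
    rw [Finset.mem_filter, mem_sp, and_comm], ?_⟩
  rw [omega_eq hN hP, degOn_mul, degOn_cst, lg, degOn_mul, degOn_prod, add_zero]
  simp only [degOn_pt hU, Finset.sum_boole]

theorem degOn_img (h : LIso R R' j) (hj : Injective j) (hN : Nd N) (hN' : Nd N') {P : Finset X}
    {P' : Finset X'} (hP : ∀ p ∈ P, Sm N p) (hP' : ∀ p ∈ P', Sm N' p)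
    (hS : ∀ y, (Sm N y ∧ y ∉ P) ↔ Sm N' (j y) ∧ j y ∉ P') {U : Set X} (hU : IsClopen U) :
    degOn (omega R N P) U = degOn (omega R' N' P') (j '' U) := by
  obtain ⟨u, a, b, -⟩ := h.exists_lg hj (S := N'.image Prod.fst ∪ N'.image Prod.snd ∪ P')
    (S' := N.image Prod.fst ∪ N.image Prod.snd ∪ P) fun y => by rw [mem_sp, mem_sp, hS]
  have := degOn_of_ne (U := U) (fun x _ => a x) fun x _ => b x
  rw [degOn_div, h.degOn_pb hj hU] at this
  rw [omega_eq hN hP, omega_eq hN' hP', degOn_mul, degOn_mul, degOn_cst, degOn_cst]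
  omega

theorem sm_img (hs : ∀ n, Sm N (p n)) : ∀ y ∈ Finset.univ.image p, Sm N y := fun _ hy =>
  let ⟨n, _, e⟩ := Finset.mem_image.1 hy
  e ▸ hs n

theorem degOn_opt (hp : Injective p') {U : Set X'} (hU : IsClopen U) :
    degOn (omega R' N' (Finset.univ.image p')) U =
      degOn (omega R' N' (Finset.univ.image fun m => p' (some m))) U +
        if p' none ∈ U then 1 else 0 := by
  rw [degOn_omega, degOn_omega, Finset.sum_image hp.injOn,
    Finset.sum_image (g := fun m => p' (some m)) (hp.comp (Option.some_injective ν)).injOn,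
    Fintype.sum_option, degOn_pt hU]
  ring

theorem sp_mark (n : Option ν) : ¬(Sm N' (p' n) ∧ p' n ∉ Finset.univ.image p') :=
  fun h => h.2 (Finset.mem_image_of_mem _ (Finset.mem_univ n))

theorem sp_jn {P : Finset X} {x y : X} (h : Jn N x y) : ¬(Sm N x ∧ x ∉ P) :=
  fun a => sm_iff.1 a.1 y h

/-- a component of logarithmic degree one with two special points has exactly three -/
theorem three (hN : Nd N') (hs : ∀ n, Sm N' (p' n))
    (h : degOn (omega R' N' (Finset.univ.image p')) (connectedComponent (p' none)) = 1) {y : X'}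
    (hy : y ∈ connectedComponent (p' none)) (h1 : ¬(Sm N' y ∧ y ∉ Finset.univ.image p'))
    (h2 : y ≠ p' none) : IsRat R' (connectedComponent (p' none)) ∧
      ∃ b ∈ connectedComponent (p' none), b ≠ y ∧ ((∃ m, b = p' (some m)) ∨ ∃ z, Jn N' b z) ∧
        ∀ x ∈ connectedComponent (p' none), ¬(Sm N' x ∧ x ∉ Finset.univ.image p') →
          x = p' none ∨ x = y ∨ x = b := by
  have hE := (exists_comp (R := R') (p' none)).1
  obtain ⟨T, hT, e⟩ := degOn_card (R := R') hN (sm_img hs) hE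
  obtain ⟨k1, k, k2⟩ := degOn_K_ge (R := R') hE isConnected_connectedComponent
  have s : ({p' none, y} : Finset X') ⊆ T := Finset.insert_subset
    ((hT _).2 ⟨mem_connectedComponent, sp_mark _⟩) (Finset.singleton_subset_iff.2 ((hT _).2 ⟨hy, h1⟩))
  have c1 := Finset.card_le_card s
  have c2 := Finset.card_sdiff_add_card_eq_card s
  rw [Finset.card_pair h2.symm] at c1 c2
  obtain ⟨b, hb⟩ := Finset.card_eq_one.1 (by omega : (T \ {p' none, y}).card = 1)
  have m : ∀ x, x = b ↔ x ∈ T ∧ ¬(x = p' none ∨ x = y) := fun x => by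
    rw [← Finset.mem_singleton, ← hb, Finset.mem_sdiff, Finset.mem_insert, Finset.mem_singleton]
  obtain ⟨b1, b2⟩ := (m b).1 rfl
  refine ⟨⟨hE, isConnected_connectedComponent, by omega⟩, b, ((hT b).1 b1).1,
    fun e => b2 (.inr e), ?_, fun x hx hx' => ?_⟩
  · by_contra! a
    refine ((hT b).1 b1).2 ⟨sm_iff.2 a.2, fun d => ?_⟩
    obtain ⟨_ | n, -, rfl⟩ := Finset.mem_image.1 d
    exacts [b2 (.inl rfl), a.1 n rfl]
  · have := (m x).2
    rw [hT] at this
    tauto

theorem sp_iff (h : Ctr R R' N N' p p' c j r) (hq : p' none ∉ range j) (x : X) :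
    (Sm N x ∧ x ∉ Finset.univ.image p) ↔ Sm N' (j x) ∧ j x ∉ Finset.univ.image p' := by
  have i := h.left.injective
  have k : ∀ {e : X'}, e ∉ range j → ∀ a y b, s(j a, b) = s(j y, e) → a = y := fun he a y b d => by
    rcases Sym2.eq_iff.1 d with d | d
    exacts [i d.1, (he ⟨a, d.1⟩).elim]
  simp only [sm_iff, Finset.mem_image, Finset.mem_univ, true_and, not_exists]
  rcases h.alt with ⟨-, -, a⟩ | ⟨-, -, e, he, ⟨n, a1, a2, a3, a4⟩ | ⟨c', e', he', a1, a2, a3⟩⟩
  · exact (hq ⟨_, (a none).symm⟩).elim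
  · refine ⟨fun ⟨b, d⟩ => ⟨fun y hy => ?_, ?_⟩, fun ⟨b, d⟩ => ⟨fun y hy => ?_, fun m hm => ?_⟩⟩
    · rcases (a4 _ _).1 hy with ⟨u, v, f, g, -⟩ | f
      exacts [b v (i g ▸ f), d n (a1.trans (k he _ _ _ f).symm)]
    · rintro (_ | m) f
      · exact hq ⟨x, f.symm⟩
      · by_cases g : m = n
        exacts [a2 ⟨x, g ▸ f.symm⟩, d m (i ((a3 m g).symm.trans f))]
    · exact b _ ((a4 _ _).2 (.inl ⟨x, y, hy, rfl, rfl⟩))
    · by_cases g : m = n
      · exact b e ((a4 _ _).2 (.inr (by rw [← hm, g, a1])))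
      · exact d (some m) ((a3 m g).trans (congrArg j hm))
  · refine ⟨fun ⟨b, d⟩ => ⟨fun y hy => ?_, ?_⟩, fun ⟨b, d⟩ => ⟨fun y hy => ?_, fun m hm => ?_⟩⟩
    · rcases (a3 _ _).1 hy with ⟨u, v, f, -, g, -⟩ | f | f
      exacts [b v (i g ▸ f), b c' (k he _ _ _ f ▸ a1), b c (k he' _ _ _ f ▸ a1.symm)]
    · rintro (_ | m) f
      exacts [hq ⟨x, f.symm⟩, d m (i ((a2 m).symm.trans f))]
    · by_cases g : s(x, y) = s(c, c')
      · rcases Sym2.eq_iff.1 g with g | g
        exacts [b e ((a3 _ _).2 (.inr (.inl (by rw [g.1])))),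
          b e' ((a3 _ _).2 (.inr (.inr (by rw [g.1]))))]
      · exact b _ ((a3 _ _).2 (.inl ⟨x, y, hy, g, rfl, rfl⟩))
    · exact d (some m) ((a2 m).trans (congrArg j hm))

theorem ge_down (h : Ctr R R' N N' p p' c j r) (hq : p' none ∉ range j)
    (hS : Ge (omega R' N' (Finset.univ.image p') * L') 1) :
    Ge (omega R N (Finset.univ.image p) * h.liso.pb L') 1 := fun U hU hn => by
  rw [degOn_mul, degOn_img h.liso h.left.injective h.nd h.nd' (sm_img h.sm) (sm_img h.sm')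
    (sp_iff h hq) hU, h.liso.degOn_pb h.left.injective hU, ← degOn_mul]
  exact hS _ (h.liso.isClopen_image hU) (hn.image j)

theorem ctr_id (R : RS X) (hN : Nd N) {q : Option ν → X} (hs : ∀ n, Sm N (q n))
    (hq : Injective q) : Ctr R R N N (fun m => q (some m)) q (q none) id id :=
  ⟨LIso.id R, fun _ => rfl, fun y hy => (hy ⟨y, rfl⟩).elim, hN, hN, fun _ => hs _,
    hq.comp (Option.some_injective ν), hs, hq,
    .inl ⟨surjective_id, fun _ _ => Iff.rfl, fun n => by cases n <;> rfl⟩⟩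

theorem exists_ctr (l : LIso R R' j) (r3 : LeftInverse r j) (r2 : ∀ u ∉ range j, r u = c)
    (hN : Nd N') (hs : ∀ n, Sm N' (p' n)) (hp : Injective p') (rat : IsRat R' (range j)ᶜ)
    (hq : p' none ∉ range j) {y b : X'} (hy : y ∉ range j) (yz : Jn N' y (j c))
    (hb : b ∉ range j) (by' : b ≠ y) (bb : (∃ m, b = p' (some m)) ∨ ∃ z, Jn N' b z)
    (all : ∀ x ∉ range j, ¬(Sm N' x ∧ x ∉ Finset.univ.image p') →
      x = p' none ∨ x = y ∨ x = b) : ∃ N p, Ctr R R' N N' p p' c j r := by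
  obtain ⟨N₀, n1, n2⟩ := exists_pre hN r3.injective
  have ns : ∀ {u v}, Jn N' u v → ∀ n, u ≠ p' n := fun a n b => sm_iff.1 (hs n) _ (b ▸ a)
  have r1 : ∀ u ∈ range j, j (r u) = u := fun u ⟨v, hv⟩ => by rw [← hv, r3]
  have sc : ∀ {u v}, u ∉ range j → Jn N' u (j v) → Sm N₀ v := fun hu a =>
    sm_iff.2 fun x d => hu ⟨x, ((n2 _ _).1 d).unique hN a.symm⟩
  have sp : ∀ m, p' (some m) ∈ range j → Sm N₀ (r (p' (some m))) := fun m hm =>
    sm_iff.2 fun x d => ns ((n2 _ _).1 d) _ (r1 _ hm)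
  have mk : ∀ m, p' (some m) ∉ range j → p' (some m) = b := fun m hm =>
    ((all _ hm (sp_mark _)).resolve_left fun a => by simpa using hp a).resolve_left
      (ns yz _).symm
  have nd : ∀ {u v}, Jn N' u v → u ∉ range j → u = y ∨ u = b := fun a hu =>
    (all _ hu (sp_jn a)).resolve_left (ns a _)
  rcases bb with ⟨n, rfl⟩ | ⟨z', bz⟩
  · have mn : ∀ m ≠ n, p' (some m) ∈ range j := fun m a =>
      by_contra fun d => a (by simpa using hp (mk m d))
    refine ⟨N₀, fun m => r (p' (some m)), l, r3, r2, n1, hN, fun m => ?_, fun m m' a => ?_, hs, hp,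
      .inr ⟨rat, hq, y, hy, .inl ⟨n, r2 _ hb, hb, fun m a => (r1 _ (mn m a)).symm,
        fun u v => ⟨fun a => ?_, ?_⟩⟩⟩⟩
    · by_cases a : m = n
      · rw [a, r2 _ hb]
        exact sc hy yz
      · exact sp m (mn m a)
    · replace a := congrArg j a
      by_cases d : m = n <;> by_cases d' : m' = n
      · rw [d, d']
      · rw [d, r2 _ hb, r1 _ (mn _ d')] at a
        exact (ns yz.symm _ a).elim
      · rw [d', r2 _ hb, r1 _ (mn _ d)] at a
        exact (ns yz.symm _ a.symm).elim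
      · rw [r1 _ (mn _ d), r1 _ (mn _ d')] at a
        simpa using hp a
    · by_cases hu : u ∉ range j
      · obtain rfl := (nd a hu).resolve_right (ns a _)
        exact .inr (by rw [a.unique hN yz, Sym2.eq_swap])
      by_cases hv : v ∉ range j
      · obtain rfl := (nd a.symm hv).resolve_right (ns a.symm _)
        exact .inr (by rw [a.symm.unique hN yz])
      obtain ⟨u, rfl⟩ := not_not.1 hu
      obtain ⟨v, rfl⟩ := not_not.1 hv
      exact .inl ⟨u, v, (n2 _ _).2 a, rfl, rfl⟩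
    · rintro (⟨u, v, a, rfl, rfl⟩ | a)
      · exact (n2 _ _).1 a
      · rcases Sym2.eq_iff.1 a with ⟨rfl, rfl⟩ | ⟨rfl, rfl⟩
        exacts [yz.symm, yz]
  · obtain ⟨c', rfl⟩ : z' ∈ range j := by_contra fun a => (nd bz.symm a).elim
      (fun d => hb ⟨c, yz.unique hN (d ▸ bz.symm)⟩) (bz.ne hN).symm
    have mn : ∀ m, p' (some m) ∈ range j := fun m => by_contra fun d => ns bz _ (mk m d).symm
    obtain ⟨M, m1, m2⟩ := exists_ins n1 (sc hy yz) (sc hb bz) fun a =>
      by' (bz.symm.unique hN (a ▸ yz.symm))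
    refine ⟨M, fun m => r (p' (some m)), l, r3, r2, m1, hN,
      fun m => sm_iff.2 fun x a => ?_, fun m m' a => ?_, hs, hp, .inr ⟨rat, hq, y,
      hy, .inr ⟨c', b, hb, (m2 _ _).2 (.inr rfl), fun m => (r1 _ (mn m)).symm,
        fun u v => ⟨fun a => ?_, ?_⟩⟩⟩⟩
    · rcases (m2 _ _).1 a with a | a
      · exact sm_iff.1 (sp m (mn m)) x a
      · rcases Sym2.eq_iff.1 a with a | a
        exacts [ns yz.symm _ ((congrArg j a.1).symm.trans (r1 _ (mn m))),
          ns bz.symm _ ((congrArg j a.1).symm.trans (r1 _ (mn m)))]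
    · replace a := congrArg j a
      rw [r1 _ (mn _), r1 _ (mn _)] at a
      simpa using hp a
    · by_cases hu : u ∉ range j
      · rcases nd a hu with rfl | rfl
        exacts [.inr (.inl (by rw [a.unique hN yz, Sym2.eq_swap])),
          .inr (.inr (by rw [a.unique hN bz, Sym2.eq_swap]))]
      by_cases hv : v ∉ range j
      · rcases nd a.symm hv with rfl | rfl
        exacts [.inr (.inl (by rw [a.symm.unique hN yz])),
          .inr (.inr (by rw [a.symm.unique hN bz]))]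
      obtain ⟨u, rfl⟩ := not_not.1 hu
      obtain ⟨v, rfl⟩ := not_not.1 hv
      refine .inl ⟨u, v, (m2 _ _).2 (.inl ((n2 _ _).2 a)), fun d => ?_, rfl, rfl⟩
      rcases Sym2.eq_iff.1 d with ⟨rfl, -⟩ | ⟨rfl, -⟩
      exacts [hy ⟨v, a.unique hN yz.symm⟩, hb ⟨v, a.unique hN bz.symm⟩]
    · rintro (⟨u, v, a, d, rfl, rfl⟩ | a | a)
      · exact (n2 _ _).1 (((m2 _ _).1 a).resolve_right d)
      · rcases Sym2.eq_iff.1 a with ⟨rfl, rfl⟩ | ⟨rfl, rfl⟩
        exacts [yz.symm, yz]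
      · rcases Sym2.eq_iff.1 a with ⟨rfl, rfl⟩ | ⟨rfl, rfl⟩
        exacts [bz.symm, bz]

theorem exists_cut (R' : RS X') {E : Set X'} (hE : IsClopen E) {z : X'} (hz : z ∉ E) :
    ∃ (X : Type) (_ : TopologicalSpace X) (_ : T2Space X) (_ : CompactSpace X) (R : RS X)
      (c : X) (j : X → X') (r : X' → X), LIso R R' j ∧ LeftInverse r j ∧
      (∀ u ∉ range j, r u = c) ∧ j c = z ∧ E = (range j)ᶜ := by
  obtain ⟨R, l⟩ := R'.exists_sub hE.compl.isOpen
  exact ⟨(Eᶜ : Set X'), inferInstance, inferInstance,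
    isCompact_iff_compactSpace.1 hE.compl.isClosed.isCompact, R, ⟨z, hz⟩, Subtype.val,
    fun u => if h : u ∈ Eᶜ then ⟨u, h⟩ else ⟨z, hz⟩, l, fun u => dif_pos u.2,
    fun u hu => dif_neg fun a => hu ⟨⟨u, a⟩, rfl⟩, rfl, by rw [Subtype.range_coe, compl_compl]⟩

end CtrB

open CtrB

theorem exists_ctr_up (R : RS X) (hN : Nd N) (hs : ∀ n, Sm N (p n)) (hp : Injective p) (c : X) :
    ∃ (X' : Type) (_ : TopologicalSpace X') (_ : T2Space X') (_ : CompactSpace X') (R' : RS X')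
      (N' : _) (p' : _) (j : _) (r : _), Ctr R R' N N' p p' c j r := by
  obtain ⟨S, l1, l2⟩ := R.exists_sum P1
  have rat : IsRat S (range Sum.inl)ᶜ := compl_range_inl ▸ isRat_range l2 Sum.inr_injective
  have out : ∀ y ∉ range (Sum.inl : X → X ⊕ OnePoint ℂ), Sum.elim id (fun _ => c) y = c := by
    rintro (y | y) hy
    exacts [(hy ⟨y, rfl⟩).elim, rfl]
  obtain ⟨u, v, w, uv, uw, vw⟩ : ∃ u v w : OnePoint ℂ, u ≠ v ∧ u ≠ w ∧ v ≠ w :=
    ⟨(0 : ℂ), (1 : ℂ), OnePoint.infty, OnePoint.coe_injective.ne zero_ne_one,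
      OnePoint.coe_ne_infty _, OnePoint.coe_ne_infty _⟩
  by_cases h1 : ∃ n, p n = c
  · obtain ⟨n, rfl⟩ := h1
    obtain ⟨M, m1, m2⟩ := exists_img (X' := X ⊕ OnePoint ℂ) hN Sum.inl_injective
    obtain ⟨M', m3, J⟩ := exists_ins m1 (a := .inl (p n)) (b := .inr w)
      (by simpa [sm_iff, m2] using fun _ x a => (sm_iff.1 (hs n) x a).elim)
      (by simp [sm_iff, m2]) Sum.inl_ne_inr
    simp only [m2] at J
    refine ⟨X ⊕ OnePoint ℂ, inferInstance, inferInstance, inferInstance, S, M',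
      fun o => o.elim (.inr v) fun m => if m = n then .inr u else .inl (p m),
      Sum.inl, _, l1, fun _ => rfl, out, hN, m3, hs, hp, ?_, ?_, .inr ⟨rat, by simp, .inr w,
        by simp, .inl ⟨n, rfl, by simp, fun m hm => by simp [hm], J⟩⟩⟩
    · rintro (_ | m)
      · simp [sm_iff, J, vw]
      · by_cases e : m = n
        · simp [sm_iff, J, e, uw]
        · simpa [sm_iff, J, e, hp.ne e] using fun _ x a => (sm_iff.1 (hs m) x a).elim
    · rintro (_ | m) (_ | m') e
      · rfl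
      · by_cases a : m' = n <;> simp [a, uv.symm] at e
      · by_cases a : m = n <;> simp [a, uv] at e
      · by_cases a : m = n <;> by_cases b : m' = n <;> simp [a, b, hp.eq_iff] at e ⊢
        exact e
  by_cases h2 : Sm N c
  · refine ⟨X, inferInstance, inferInstance, inferInstance, R, N, fun o => o.elim c p, id, id,
      ctr_id R hN (q := fun o => o.elim c p) ?_ ?_⟩
    · rintro (_ | m)
      exacts [h2, hs m]
    · rintro (_ | m) (_ | m') e
      exacts [rfl, (h1 ⟨m', e.symm⟩).elim, (h1 ⟨m, e⟩).elim, congrArg _ (hp e)]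
  obtain ⟨c', hc⟩ : ∃ c', Jn N c c' := by simpa [sm_iff] using h2
  obtain ⟨M₀, d1, d2⟩ := exists_del hN c c'
  obtain ⟨M₁, m1, m2⟩ := exists_img (X' := X ⊕ OnePoint ℂ) d1 Sum.inl_injective
  have s1 : Sm M₀ c := sm_iff.2 fun y hy =>
    ((d2 _ _).1 hy).2 (by rw [((d2 _ _).1 hy).1.unique hN hc])
  have s2 : Sm M₀ c' := sm_iff.2 fun y hy =>
    ((d2 _ _).1 hy).2 (by rw [((d2 _ _).1 hy).1.unique hN hc.symm, Sym2.eq_swap])
  obtain ⟨M₂, m3, m4⟩ := exists_ins m1 (a := .inl c) (b := .inr u)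
    (by simpa [sm_iff, m2] using fun _ x a => (sm_iff.1 s1 x a).elim) (by simp [sm_iff, m2])
    Sum.inl_ne_inr
  obtain ⟨M₃, m5, J⟩ := exists_ins m3 (a := .inl c') (b := .inr w)
    (by simpa [sm_iff, m2, m4, (hc.ne hN).symm] using fun _ x a => (sm_iff.1 s2 x a).elim)
    (by simp [sm_iff, m2, m4, uw.symm]) Sum.inl_ne_inr
  simp only [m4, m2, d2, and_assoc, or_assoc] at J
  refine ⟨X ⊕ OnePoint ℂ, inferInstance, inferInstance, inferInstance, S, M₃,
    fun o => o.elim (.inr v) fun m => .inl (p m), Sum.inl, _, l1, fun _ => rfl, out, hN, m5,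
    hs, hp, ?_, ?_, .inr ⟨rat, by simp, .inr u, by simp,
      .inr ⟨c', .inr w, by simp, hc, fun _ => rfl, J⟩⟩⟩
  · rintro (_ | m)
    · simp [sm_iff, J, uv.symm, vw]
    · refine sm_iff.2 fun y hy => ?_
      have := sm_iff.1 (hs m)
      rcases (J _ _).1 hy with ⟨u, v, a, -, b, -⟩ | a | a
      · exact this v (Sum.inl_injective b ▸ a)
      · exact h1 ⟨m, by simp at a; exact a.1⟩
      · exact this c ((by simp at a; exact a.1 : p m = c') ▸ hc.symm)
  · rintro (_ | m) (_ | m') e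
    exacts [rfl, (Sum.inr_ne_inl e).elim, (Sum.inl_ne_inr e).elim,
      congrArg _ (hp (Sum.inl_injective e))]

theorem exists_ctr_down (hN : Nd N') (hs : ∀ n, Sm N' (p' n)) (hp : Injective p')
    (hL : ∀ y, degOn L' (connectedComponent y) = 0 ∨ 3 ≤ degOn L' (connectedComponent y))
    (hS : Ge (omega R' N' (Finset.univ.image p') * L') 1) (hU : ¬Unst N' p' L') :
    ∃ (X : Type) (_ : TopologicalSpace X) (_ : T2Space X) (_ : CompactSpace X) (R : RS X)
      (N : _) (p : _) (c : _) (j : _) (r : _) (h : Ctr R R' N N' p p' c j r),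
      degOn L' (range j)ᶜ = 0 ∧ Ge (omega R N (Finset.univ.image p) * h.liso.pb L') 1 := by
  have hE := (exists_comp (R := R') (p' none)).1
  have d1 := hS _ hE ⟨_, mem_connectedComponent⟩
  rw [degOn_mul] at d1
  rcases d1.eq_or_lt with d2 | d2
  swap
  · refine ⟨X', inferInstance, inferInstance, inferInstance, R', N', _, _, id, id,
      ctr_id R' hN hs hp, by rw [range_id, compl_univ]; exact degOn_of_ne (s := 1) (by simp) (by simp),
      (ge_iff_comp zero_le_one).2 fun y => ?_⟩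
    have hy := (exists_comp (R := R') y).1
    have d3 := hS _ hy ⟨_, mem_connectedComponent⟩
    rw [show (ctr_id R' hN hs hp).liso.pb L' = L' from LB.ext rfl, degOn_mul]
    rw [degOn_mul, degOn_opt hp hy] at d3
    split_ifs at d3 with a
    · rw [← connectedComponent_eq a, degOn_opt hp hy, if_pos a] at d2
      omega
    · omega
  obtain ⟨T, hT, e⟩ := degOn_card (R := R') hN (sm_img hs) hE
  have k1 := (degOn_K_ge (R := R') hE isConnected_connectedComponent).1
  have k2 := Finset.card_pos.2 ⟨_, (hT _).2 ⟨mem_connectedComponent, sp_mark none⟩⟩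
  have l0 : degOn L' (connectedComponent (p' none)) = 0 := by have := hL (p' none); omega
  obtain ⟨y, hy, z, yz, hz⟩ : ∃ y ∈ connectedComponent (p' none), ∃ z, Jn N' y z ∧
      z ∉ connectedComponent (p' none) := by
    by_contra! a
    exact hU ⟨a, l0, by omega⟩
  obtain ⟨rat, b, hb, by', bb, all⟩ := three (R' := R') hN hs (by omega) hy (sp_jn yz)
    fun a => sm_iff.1 (hs none) _ (a ▸ yz)
  obtain ⟨X, _, _, _, R, c, j, r, l, r3, r2, rfl, hq⟩ := exists_cut R' hE hz
  have qE : p' none ∈ (range j)ᶜ := hq ▸ mem_connectedComponent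
  rw [hq] at rat hy hb all l0
  obtain ⟨N, p, h⟩ := exists_ctr l r3 r2 hN hs hp rat qE hy yz hb by' bb all
  exact ⟨X, _, ‹_›, ‹_›, R, N, p, c, j, r, h, l0, ge_down h qE hS⟩

theorem Ctr.not_unst (h : Ctr R R' N N' p p' c j r) (a : Ge (omega R N (Finset.univ.image p) * L) 1) :
    ¬Unst N' p' (h.up L) := by
  rintro ⟨u1, u2, u3⟩
  have hE := (exists_comp (R := R') (p' none)).1
  have i := h.left.injective
  rcases h.alt with ⟨a1, a2, a3⟩ | ⟨rat, hq, e, he, b⟩
  · have hU := hE.preimage h.liso.cont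
    have d := a _ hU ⟨c, by rw [mem_preimage]; exact (a3 none : p' none = j c) ▸ mem_connectedComponent⟩
    rw [degOn_mul, degOn_img h.liso i h.nd h.nd' (sm_img h.sm)
      (P' := Finset.univ.image fun m => p' (some m)) (sm_img fun m => h.sm' _) (fun y => ?_) hU,
      ← h.pb_up (L := L), h.liso.degOn_pb i hU, image_preimage_eq _ a1, u2] at d
    · rw [degOn_opt h.inj' hE, if_pos mem_connectedComponent] at u3
      omega
    · simp only [sm_iff, a1.forall, a2, a3, Finset.mem_image, Option.elim, i.eq_iff]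
  · have d : Jn N' e (j c) := by
      rcases b with ⟨n, -, -, -, b⟩ | ⟨c', e', -, -, -, b⟩
      exacts [(b _ _).2 (.inr Sym2.eq_swap), (b _ _).2 (.inr (.inl Sym2.eq_swap))]
    exact rat.clopen.connectedComponent_subset hq
      (u1 e (rat.conn.isPreconnected.subset_connectedComponent hq he) _ d) ⟨c, rfl⟩

theorem Unst.cases (h : Unst N' p' L') (hN : Nd N') (hs : ∀ n, Sm N' (p' n)) (hp : Injective p') :
    (IsRat R' (connectedComponent (p' none)) ∧ (∀ y ∈ connectedComponent (p' none), Sm N' y) ∧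
      ∃ a b, a ≠ b ∧ ∀ m, p' (some m) ∈ connectedComponent (p' none) ↔ m = a ∨ m = b) ∨
    (∀ m, p' (some m) ∉ connectedComponent (p' none)) ∧
      degOn (omega R' N' ∅) (connectedComponent (p' none)) = 0 := by
  obtain ⟨u1, -, u3⟩ := h
  have hE := (exists_comp (R := R') (p' none)).1
  have ns : ∀ {u v}, Jn N' u v → ∀ n, u ≠ p' n := fun a n b => sm_iff.1 (hs n) _ (b ▸ a)
  by_cases h : ∃ m, p' (some m) ∈ connectedComponent (p' none)
  · obtain ⟨a, ha⟩ := h
    obtain ⟨rat, b, hb, b1, b2, all⟩ := three hN hs u3 ha (sp_mark _) fun e => by simpa using hp e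
    have nd : ∀ {u v}, Jn N' u v → u ∈ connectedComponent (p' none) → u = b := fun d hu =>
      ((all _ hu (sp_jn d)).resolve_left (ns d _)).resolve_left (ns d _)
    obtain ⟨n, rfl⟩ := b2.resolve_right fun ⟨z, d⟩ => d.ne hN (nd d.symm (u1 _ hb _ d)).symm
    refine .inl ⟨rat, fun y hy => sm_iff.2 fun z d => ns d _ (nd d hy), a, n,
      fun e => b1 (by rw [e]), fun m => ⟨fun hm => ?_, ?_⟩⟩
    · simpa [hp.eq_iff] using all _ hm (sp_mark _)
    · rintro (rfl | rfl)
      exacts [ha, hb]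
  · refine .inr ⟨not_exists.1 h, ?_⟩
    rw [degOn_opt hp hE, if_pos mem_connectedComponent, degOn_omega,
      Finset.sum_eq_zero (s := Finset.univ.image _) fun y hy => ?_] at u3
    · rw [degOn_omega, Finset.sum_empty]
      omega
    · obtain ⟨m, -, rfl⟩ := Finset.mem_image.1 hy
      rw [degOn_pt hE, if_neg (not_exists.1 h m)]

end Vale.Agent.P269.Cv
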