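import Vale.Agent.P269.Cv.Emb
import Mathlib.Topology.Compactification.OnePoint.Basic
import Mathlib.Analysis.Complex.Liouville

/-!
# The projective line, connected components
-/

set_option linter.unusedSectionVars false

namespace Vale.Agent.P269.Cv

open Set Function Topology Filter Module Bornology

/-- the affine coordinate, `0` at infinity -/
noncomputable def zc : OnePoint ℂ → ℂ := fun x => x.elim 0 id

@[simp] theorem zc_coe (z : ℂ) : zc z = z := rfl

@[simp] theorem zc_infty : zc OnePoint.infty = 0 := rfl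

theorem contAt_zc (z : ℂ) : ContinuousAt zc z := OnePoint.continuousAt_coe.2 continuousAt_id

/-- the chart at a finite point -/
noncomputable def chA (a : ℂ) : OpenPartialHomeomorph (OnePoint ℂ) ℂ where
  toFun x := zc x - a
  invFun t := (t + a : ℂ)
  source := {OnePoint.infty}ᶜ
  target := univ
  map_source' _ _ := mem_univ _
  map_target' _ _ := OnePoint.coe_ne_infty _
  left_inv' x hx := by
    lift x to ℂ using hx
    simp
  right_inv' t _ := by simp
  open_source := isOpen_compl_singleton
  open_target := isOpen_univ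
  continuousOn_toFun x hx := by
    lift x to ℂ using hx
    exact ((contAt_zc x).sub continuousAt_const).continuousWithinAt
  continuousOn_invFun := (OnePoint.continuous_coe.comp (continuous_add_const a)).continuousOn

open Classical in
/-- the point `1 / t` -/
noncomputable def iv (t : ℂ) : OnePoint ℂ := if t = 0 then OnePoint.infty else (t⁻¹ : ℂ)

@[simp] theorem iv_zero : iv 0 = OnePoint.infty := if_pos rfl

theorem iv_ne {t : ℂ} (h : t ≠ 0) : iv t = (t⁻¹ : ℂ) := if_neg h

@[simp] theorem zc_iv (t : ℂ) : zc (iv t) = t⁻¹ := by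
  by_cases h : t = 0
  · simp [h]
  · rw [iv_ne h, zc_coe]

theorem cob_eq : coclosedCompact ℂ = cobounded ℂ := by
  rw [coclosedCompact_eq_cocompact, Metric.cobounded_eq_cocompact]

/-- the chart at infinity -/
noncomputable def chI : OpenPartialHomeomorph (OnePoint ℂ) ℂ where
  toFun x := (zc x)⁻¹
  invFun := iv
  source := {((0 : ℂ) : OnePoint ℂ)}ᶜ
  target := univ
  map_source' _ _ := mem_univ _
  map_target' t _ := by
    by_cases h : t = 0
    · simp [h]
    · simp [iv_ne h, h]
  left_inv' x hx := by
    induction x using OnePoint.rec with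
    | infty => simp
    | coe z => rw [zc_coe, iv_ne (by simpa using hx), inv_inv]
  right_inv' t _ := by simp
  open_source := isOpen_compl_singleton
  open_target := isOpen_univ
  continuousOn_toFun x hx := by
    refine ContinuousAt.continuousWithinAt ?_
    induction x using OnePoint.rec with
    | infty =>
      rw [OnePoint.continuousAt_infty', cob_eq, zc_infty, inv_zero]
      exact tendsto_inv₀_cobounded
    | coe z => exact (contAt_zc z).inv₀ (by simpa using hx)
  continuousOn_invFun t _ := by
    refine ContinuousAt.continuousWithinAt ?_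
    by_cases h : t = 0
    · subst h
      rw [← continuousWithinAt_compl_self, ContinuousWithinAt, iv_zero]
      exact (OnePoint.tendsto_coe_infty.comp (cob_eq ▸ tendsto_inv₀_nhdsNE_zero)).congr'
        (eventually_nhdsWithin_of_forall fun s hs => (iv_ne hs).symm)
    · exact (OnePoint.continuous_coe.continuousAt.comp (continuousAt_inv₀ h)).congr
        ((eventually_ne_nhds h).mono fun s hs => (iv_ne hs).symm)

theorem deriv_inv_add (b : ℂ) : deriv (fun t : ℂ => (t + b)⁻¹) 0 = -(b ^ 2)⁻¹ := by
  rw [deriv_comp_add_const (fun t : ℂ => t⁻¹), deriv_inv, zero_add]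

/-- the projective line; charts `z - a` at `a` and `1 / z` at infinity -/
noncomputable def P1 : RS (OnePoint ℂ) where
  e x := x.elim chI chA
  mem x := by
    induction x using OnePoint.rec with
    | infty => exact OnePoint.infty_ne_coe _
    | coe z => exact OnePoint.coe_ne_infty _
  zero x := by
    induction x using OnePoint.rec with
    | infty => exact inv_zero
    | coe z => exact sub_self z
  hol x y hy := by
    induction x using OnePoint.rec with
    | infty =>
      induction y using OnePoint.rec with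
      | infty =>
        have : (fun t => (zc (iv t))⁻¹) = id := funext fun t => by simp
        exact ⟨(this ▸ analyticAt_id : AnalyticAt ℂ (fun t => (zc (iv t))⁻¹) 0),
          show deriv (fun t => (zc (iv t))⁻¹) 0 ≠ 0 by simp⟩
      | coe b =>
        have hb : b ≠ 0 := fun e => hy (by rw [e]; rfl)
        exact ⟨(analyticAt_id.add analyticAt_const).inv (by simpa using hb),
          (deriv_inv_add b).trans_ne (by simpa using hb)⟩
    | coe a =>
      lift y to ℂ using hy with b
      exact ⟨(analyticAt_id.add analyticAt_const).sub analyticAt_const,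
        show deriv (fun t : ℂ => t + b - a) 0 ≠ 0 by simp⟩

theorem P1_e_coe (a z : ℂ) : P1.e a z = z - a := rfl

theorem P1_src_coe (a : ℂ) : (P1.e a).source = {OnePoint.infty}ᶜ := rfl

theorem P1_e_infty (x : OnePoint ℂ) : P1.e OnePoint.infty x = (zc x)⁻¹ := rfl

theorem P1_src_infty : (P1.e OnePoint.infty).source = {((0 : ℂ) : OnePoint ℂ)}ᶜ := rfl

theorem P1_i_coe (a t : ℂ) : P1.i a t = (t + a : ℂ) := rfl

theorem P1_i_infty (t : ℂ) : P1.i OnePoint.infty t = iv t := rfl

theorem P1_hol_coe {u : OnePoint ℂ → ℂ} {a : ℂ} : P1.Hol u a ↔ AnalyticAt ℂ (fun z : ℂ => u z) a :=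
  ⟨fun h => by
    simpa [P1_i_coe, Function.comp_def] using AnalyticAt.comp_of_eq h
      (analyticAt_id.sub (analyticAt_const (v := a) (x := a))) (sub_self a),
    fun h => AnalyticAt.comp_of_eq (g := fun z : ℂ => u z) h (analyticAt_id.add analyticAt_const)
      (zero_add a)⟩

theorem P1_d_coe (u : OnePoint ℂ → ℂ) (a : ℂ) : P1.d u a = deriv (fun z : ℂ => u z) a := by
  have := deriv_comp_add_const (fun z : ℂ => u z) a 0
  rwa [zero_add] at this

theorem P1_pt_infty {t : ℂ} (h : t ≠ 0) : (P1.pt OnePoint.infty).φ OnePoint.infty (iv t) = t⁻¹ := by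
  have a : iv t ∈ (P1.e OnePoint.infty).source := P1.i_mem (x := OnePoint.infty) (mem_univ t)
  have b : iv t ≠ OnePoint.infty := iv_ne h ▸ OnePoint.coe_ne_infty _
  simp [RS.pt, a, b, P1_e_infty]

theorem P1_K_infty (t : ℂ) : P1.K.φ OnePoint.infty (iv t) = if t = 0 then 1 else -t ^ 2 := by
  split_ifs with h
  · rw [h, iv_zero, LB.self]
  · rw [RS.K_φ (y := iv t) (P1.i_mem (x := OnePoint.infty) (mem_univ t)), iv_ne h, P1_d_coe]
    simp [P1_e_infty]

theorem P1_K_coe (a z : ℂ) : P1.K.φ a z = 1 := by
  rw [RS.K_φ (OnePoint.coe_ne_infty z), P1_d_coe]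
  simp [P1_e_coe]

theorem P1_loc_coe {L : LB P1} {s : OnePoint ℂ → ℂ} {a : ℂ} (t : ℂ) :
    L.loc s a t = s (t + a : ℂ) / L.φ a (t + a : ℂ) := rfl

theorem P1_loc_infty {L : LB P1} {s : OnePoint ℂ → ℂ} (t : ℂ) :
    L.loc s OnePoint.infty t = s (iv t) / L.φ OnePoint.infty (iv t) := rfl

/-- entire functions of polynomial growth -/
theorem poly_of_growth (d : ℕ) {f : ℂ → ℂ} {c : ℂ} (hf : Differentiable ℂ f)
    (h : Tendsto (fun t => t ^ d * f t⁻¹) (𝓝[≠] 0) (𝓝 c)) :
    ∃ q : Polynomial ℂ, q.natDegree ≤ d ∧ (∀ z : ℂ, f z = q.eval z) ∧ c = q.coeff d := by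
  induction d generalizing f with
  | zero =>
    have := h.comp tendsto_inv₀_cobounded'
    simp only [Function.comp_def, pow_zero, one_mul, inv_inv, Metric.cobounded_eq_cocompact] at this
    exact ⟨Polynomial.C c, by simp, fun z => by simp [hf.apply_eq_of_tendsto_cocompact z this],
      by simp⟩
  | succ d ih =>
    have k : Tendsto (fun t : ℂ => t ^ (d + 1) * f 0) (𝓝[≠] 0) (𝓝 0) :=
      (Continuous.tendsto' (by fun_prop) 0 0 (by simp)).mono_left nhdsWithin_le_nhds
    obtain ⟨q, q1, q2, q3⟩ := ih (f := dslope f 0)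
      (differentiableOn_univ.1 ((Complex.differentiableOn_dslope univ_mem).2 hf.differentiableOn))
      ((sub_zero c ▸ h.sub k).congr' (eventually_nhdsWithin_of_forall fun t ht => by
        have : t ≠ 0 := ht
        simp only [dslope_of_ne _ (inv_ne_zero this), slope_def_field]
        field_simp
        ring))
    refine ⟨Polynomial.C (f 0) + Polynomial.X * q, ?_, fun z => ?_, by simp [q3]⟩
    · refine (Polynomial.natDegree_add_le _ _).trans (max_le (by simp) ?_)
      exact Polynomial.natDegree_mul_le.trans (by rw [Polynomial.natDegree_X]; omega)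
    · have := sub_smul_dslope f 0 z
      rw [sub_zero, q2, smul_eq_mul] at this
      simp [this]

theorem P1_mem_iff {d : ℕ} {s : OnePoint ℂ → ℂ} : s ∈ (P1.pt OnePoint.infty ^ d).Γ ↔
    ∃ q : Polynomial ℂ, q.natDegree ≤ d ∧ (∀ z : ℂ, s z = q.eval z) ∧
      s OnePoint.infty = q.coeff d := by
  have e1 : ∀ a : ℂ, (P1.pt OnePoint.infty ^ d).Sec s a ↔ AnalyticAt ℂ (fun z : ℂ => s z) a :=
    fun a => by simp [LB.sec_iff, P1.pt_φ_ne (OnePoint.coe_ne_infty a), P1_hol_coe]
  have e2 : ∀ t : ℂ, t ≠ 0 → (P1.pt OnePoint.infty ^ d).loc s OnePoint.infty t =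
      t ^ d * s (t⁻¹ : ℂ) := fun t h => by
    rw [P1_loc_infty, LB.pow_φ, P1_pt_infty h, iv_ne h, inv_pow, div_inv_eq_mul, mul_comm]
  constructor
  · intro h
    refine poly_of_growth d (fun a => ((e1 a).1 (h a)).differentiableAt) ?_
    have := (AnalyticAt.continuousAt (h OnePoint.infty)).tendsto
    rw [LB.loc_zero] at this
    exact (this.mono_left nhdsWithin_le_nhds).congr' (eventually_nhdsWithin_of_forall e2)
  · rintro ⟨q, q1, q2, q3⟩ x
    induction x using OnePoint.rec with
    | coe a =>
      rw [e1, funext q2]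
      exact q.differentiable.analyticAt a
    | infty =>
      refine ((q.reflect d).differentiable.analyticAt 0).congr (.of_forall fun t => ?_)
      by_cases h : t = 0
      · rw [h, LB.loc_zero, q3]
        simp [← Polynomial.coeff_zero_eq_eval_zero]
      · rw [e2 t h, q2]
        let _ := invertibleOfNonzero (inv_ne_zero h)
        have := Polynomial.eval₂_reflect_mul_pow (RingHom.id ℂ) t⁻¹ d q q1
        simp only [Polynomial.eval₂_id, invOf_eq_inv, inv_inv] at this
        simp only [← this, inv_pow]
        field_simp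

theorem P1_chi : chi (1 : LB P1) = 1 := by
  have h : (fun x : OnePoint ℂ => x.elim (-1 : ℂ) fun _ => 1) ∈
      (P1.K * P1.pt OnePoint.infty ^ 2).Γ := fun x => by
    induction x using OnePoint.rec with
    | coe a =>
      refine (analyticAt_const (v := (1 : ℂ))).congr (.of_forall fun t => ?_)
      simp [P1_loc_coe, P1_K_coe, P1.pt_φ_ne (OnePoint.coe_ne_infty a)]
    | infty =>
      refine (analyticAt_const (v := (-1 : ℂ))).congr (.of_forall fun t => ?_)
      by_cases h : t = 0
      · simp [h]
      · rw [P1_loc_infty, LB.mul_φ, LB.pow_φ, P1_pt_infty h, P1_K_infty, if_neg h, iv_ne h]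
        simp [h]
  have := deg_of_ne h fun x => by induction x using OnePoint.rec <;> simp
  rw [deg_mul, deg_pow, deg_pt, deg_K] at this
  omega

/-! ### connected components -/

variable {X : Type} [TopologicalSpace X] {R : RS X} {L : LB R} {s : X → ℂ} [T2Space X]
  [CompactSpace X] {E : Set X}

theorem exists_const (hE : IsClopen E) (hc : IsConnected E) {s t : X → ℂ} (hs : ∀ x ∈ E, L.Sec s x)
    (ht : ∀ x ∈ E, L.Sec t x) (h0 : ∀ x ∈ E, s x ≠ 0) : ∃ c : ℂ, ∀ x ∈ E, t x = c * s x := by
  classical
  have m : E.piecewise (fun x => t x / s x) 0 ∈ (1 : LB R).Γ := LB.piecewise_mem hE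
    (fun x hx => LB.sec_one.2 ((ht x hx).hol_div (hs x hx) (h0 x hx))) fun _ _ => LB.sec_zero
  obtain ⟨p, hp⟩ := hc.nonempty
  refine ⟨t p / s p, fun x hx => ?_⟩
  have := ((IsLocallyConstant.iff_eventually_eq _).2 (ev_const m)).apply_eq_of_isPreconnected
    hc.isPreconnected hx hp
  rw [piecewise_eq_of_mem _ _ _ hx, piecewise_eq_of_mem _ _ _ hp] at this
  rw [← this, div_mul_cancel₀ _ (h0 x hx)]

include R in
theorem exists_comp (x : X) : IsClopen (connectedComponent x) ∧
    (range (connectedComponent : X → Set X)).Finite := by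
  let _ := R.cs
  have := ChartedSpace.locallyConnectedSpace ℂ X
  obtain ⟨T, a, b⟩ := exists_finite_meets R
  refine ⟨isClopen_connectedComponent, (a.image connectedComponent).subset ?_⟩
  rintro _ ⟨y, rfl⟩
  obtain ⟨z, c, d⟩ := b _ isClopen_connectedComponent ⟨y, mem_connectedComponent⟩
  exact ⟨z, c, (connectedComponent_eq d).symm⟩

theorem degOn_union {U V : Set X} (hU : IsClopen U) (hV : IsClopen V) (h : Disjoint U V) :
    degOn L (U ∪ V) = degOn L U + degOn L V := by
  rw [degOn_eq (hU.union hV), degOn_eq hU, degOn_eq hV, ← deg_mul]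
  refine congrArg deg (LB.ext (funext₂ fun x y => ?_))
  by_cases a : x ∈ U
  · simp [LB.res, a, disjoint_left.1 h a]
  · by_cases b : x ∈ V <;> simp [LB.res, a, b]

theorem ge_iff_comp {n : ℤ} (hn : 0 ≤ n) : Ge L n ↔ ∀ x, n ≤ degOn L (connectedComponent x) := by
  refine ⟨fun h x => h _ (exists_comp (R := R) x).1 ⟨x, mem_connectedComponent⟩, fun h => ?_⟩
  have key : ∀ T : Set X, T.Finite → ∀ U, IsClopen U → U ⊆ ⋃ x ∈ T, connectedComponent x →
      0 ≤ degOn L U ∧ (U.Nonempty → n ≤ degOn L U) := fun T hT => by
    induction T, hT using Set.Finite.induction_on with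
    | empty =>
      intro U _ hU
      rw [subset_eq_empty hU (by simp), degOn_empty]
      simp
    | @insert a T _ _ ih =>
      intro U hU sub
      have c := (exists_comp (R := R) a).1
      have k := ih (U \ connectedComponent a) (hU.diff c) fun y hy => by
        have := sub hy.1
        rw [biUnion_insert] at this
        exact this.resolve_left hy.2
      by_cases e : a ∈ U
      · have e1 := degOn_union (L := L) c (hU.diff c) disjoint_sdiff_right
        rw [union_sdiff_cancel (hU.connectedComponent_subset e)] at e1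
        have := h a
        exact ⟨by omega, fun _ => by omega⟩
      · rwa [sdiff_eq_left.2 (disjoint_left.2 fun y hy hy' =>
          e (hU.connectedComponent_subset hy (connectedComponent_eq hy' ▸
            mem_connectedComponent)))] at k
  obtain ⟨T, a, b⟩ := exists_finite_meets R
  refine fun U hU hn => (key T a U hU fun y _ => ?_).2 hn
  obtain ⟨z, c, d⟩ := b _ (exists_comp (R := R) y).1 ⟨y, mem_connectedComponent⟩
  exact mem_biUnion c (connectedComponent_eq d ▸ mem_connectedComponent)

end Vale.Agent.P269.Cv
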