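import Vale.Agent.P269.Cv.At

/-!
# Degrees of line bundles, Riemann-Roch on compact Riemann surfaces
-/

set_option linter.unusedSectionVars false

namespace Vale.Agent.P269.Cv

open Set Function Topology Filter Module

section additive

variable {G : Type} [CommGroup G] {D : G → ℤ} (h : ∀ a b, D (a * b) = D a + D b)
include h

theorem add_inv (a : G) : D a⁻¹ = -D a :=
  map_inv (MonoidHom.mk' (fun a => Multiplicative.ofAdd (D a)) h) a

theorem add_div' (a b : G) : D (a / b) = D a - D b :=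
  map_div (MonoidHom.mk' (fun a => Multiplicative.ofAdd (D a)) h) a b

theorem add_zpow (a : G) (n : ℤ) : D (a ^ n) = n * D a :=
  map_zpow (MonoidHom.mk' (fun a => Multiplicative.ofAdd (D a)) h) a n

theorem add_prod {α : Type} (T : Finset α) (A : α → G) :
    D (∏ a ∈ T, A a) = ∑ a ∈ T, D (A a) :=
  map_prod (MonoidHom.mk' (fun a => Multiplicative.ofAdd (D a)) h) A T

end additive

variable {X : Type} [TopologicalSpace X] {R : RS X} {L L' : LB R} {s s' : X → ℂ} {x y p : X}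
  {U : Set X}

theorem LB.mul_mem (a : s ∈ L.Γ) (b : s' ∈ L'.Γ) : s * s' ∈ (L * L').Γ := fun x => (a x).mul (b x)

theorem LB.inv_mem (a : s ∈ L.Γ) (h : ∀ x, s x ≠ 0) : s⁻¹ ∈ L⁻¹.Γ := fun x => (a x).inv (h x)

theorem LB.pow_mem (a : s ∈ L.Γ) (n : ℕ) : s ^ n ∈ (L ^ n).Γ := fun x => (a x).pow n

theorem LB.zpow_mem (a : s ∈ L.Γ) (h : ∀ x, s x ≠ 0) (n : ℤ) : s ^ n ∈ (L ^ n).Γ :=
  fun x => (a x).zpow (h x) n

theorem LB.prod_mem {α : Type} {T : Finset α} {A : α → LB R} {u : α → X → ℂ}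
    (h : ∀ a ∈ T, u a ∈ (A a).Γ) : ∏ a ∈ T, u a ∈ (∏ a ∈ T, A a).Γ :=
  fun x => LB.Sec.prod fun a ha => h a ha x

theorem LB.one_mem : (1 : X → ℂ) ∈ (1 : LB R).Γ := fun _ => LB.sec_one.2 (RS.hol_const 1)

/-- the points near which `s` has isolated zeros -/
def Gen (s : X → ℂ) : Set X := {x | ∀ᶠ y in 𝓝[≠] x, s y ≠ 0}

theorem mem_gen : x ∈ Gen s ↔ ∀ᶠ y in 𝓝[≠] x, s y ≠ 0 := Iff.rfl

theorem LB.Sec.mem_gen (h : L.Sec s x) (h0 : s x ≠ 0) : x ∈ Gen s :=
  (h.ev_ne h0).filter_mono nhdsWithin_le_nhds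

theorem LB.Sec.not_mem_gen (h : L.Sec s x) : x ∉ Gen s ↔ ∀ᶠ y in 𝓝 x, s y = 0 :=
  ⟨h.zero_or_ne.resolve_right, fun a b => by
    have := R.neBot x
    obtain ⟨y, c, d⟩ := ((a.filter_mono nhdsWithin_le_nhds).and b).exists
    exact d c⟩

theorem LB.Sec.ord_ne_top (h : L.Sec s x) : L.ord s x ≠ ⊤ ↔ x ∈ Gen s := by
  rw [Ne, LB.ord_eq_top, ← h.not_mem_gen, not_not]

theorem gen_mul : Gen (s * s') = Gen s ∩ Gen s' := Set.ext fun x => by
  simp [Gen, eventually_and]

theorem gen_congr (e : s =ᶠ[𝓝[≠] x] s') : x ∈ Gen s ↔ x ∈ Gen s' :=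
  eventually_congr (e.mono fun _ h => by rw [h])

theorem gen_of_ne (h : ∀ x, s x ≠ 0) : Gen s = univ := eq_univ_of_forall fun _ =>
  mem_gen.2 (.of_forall h)

theorem gen_prod {α : Type} {T : Finset α} {u : α → X → ℂ} (h : ∀ a ∈ T, x ∈ Gen (u a)) :
    x ∈ Gen (∏ a ∈ T, u a) :=
  mem_gen.2 <| ((eventually_all_finset T).2 fun a ha => mem_gen.1 (h a ha)).mono fun y hy => by
    rw [Finset.prod_apply]; exact Finset.prod_ne_zero_iff.2 hy

theorem gen_pow (h : x ∈ Gen s) (n : ℕ) : x ∈ Gen (s ^ n) :=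
  mem_gen.2 ((mem_gen.1 h).mono fun _ hy => pow_ne_zero _ hy)

theorem gen_congr' (e : s =ᶠ[𝓝 x] s') : x ∈ Gen s ↔ x ∈ Gen s' :=
  gen_congr (e.filter_mono nhdsWithin_le_nhds)

theorem isClopen_gen (h : s ∈ L.Γ) : IsClopen (Gen s) := by
  refine ⟨⟨isOpen_iff_eventually.2 fun x hx => ?_⟩, isOpen_iff_eventually.2 fun x hx => ?_⟩
  · exact ((h x).not_mem_gen.1 hx).eventually_nhds.mono fun y hy => (h y).not_mem_gen.2 hy
  · refine (eventually_nhdsWithin_iff.1 hx).mono fun y hy => ?_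
    by_cases e : y = x
    exacts [e ▸ hx, (h y).mem_gen (hy e)]

theorem eq_zero_of_gen (h : s ∈ L.Γ) (h0 : x ∉ Gen s) : s x = 0 :=
  ((h x).not_mem_gen.1 h0).self_of_nhds

open Classical in
theorem LB.piecewise_mem (hU : IsClopen U) (a : ∀ x ∈ U, L.Sec s x) (b : ∀ x ∉ U, L.Sec s' x) :
    U.piecewise s s' ∈ L.Γ := fun x => by
  by_cases h : x ∈ U
  · exact (a x h).congr (Eventually.mono (hU.isOpen.mem_nhds h) fun y hy =>
      (piecewise_eq_of_mem _ _ _ hy).symm)
  · exact (b x h).congr (Eventually.mono (hU.compl.isOpen.mem_nhds h) fun y hy =>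
      (piecewise_eq_of_notMem _ _ _ hy).symm)

variable (L) in
/-- the bundle has a section with isolated zeros -/
def Eff : Prop := ∃ s ∈ L.Γ, Gen s = univ

theorem Eff.mul (a : Eff L) (b : Eff L') : Eff (L * L') :=
  let ⟨_, h, e⟩ := a
  let ⟨_, h', e'⟩ := b
  ⟨_, LB.mul_mem h h', by rw [gen_mul, e, e', inter_self]⟩

theorem eff_one : Eff (1 : LB R) := ⟨1, LB.one_mem, gen_of_ne fun _ => one_ne_zero⟩

theorem Eff.pow (a : Eff L) (n : ℕ) : Eff (L ^ n) := by
  induction n with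
  | zero => simpa using eff_one
  | succ n ih => rw [pow_succ]; exact ih.mul a

theorem Eff.prod {α : Type} {T : Finset α} {A : α → LB R} (h : ∀ a ∈ T, Eff (A a)) :
    Eff (∏ a ∈ T, A a) := Finset.prod_induction _ _ (fun _ _ => Eff.mul) eff_one h

section res

variable (hU : IsClopen U)

theorem LB.res_φ (h : x ∈ U) : (L.res hU).φ x y = L.φ x y := if_pos h

theorem LB.res_φ' (h : x ∉ U) : (L.res hU).φ x y = 1 := if_neg h

theorem LB.loc_res (h : x ∈ U) : (L.res hU).loc s x = L.loc s x :=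
  funext fun _ => by rw [LB.loc, LB.loc, LB.res_φ hU h]

theorem LB.sec_res (h : x ∈ U) : (L.res hU).Sec s x ↔ L.Sec s x := by
  rw [LB.Sec, LB.Sec, LB.loc_res hU h]

theorem LB.sec_res' (h : x ∉ U) : (L.res hU).Sec s x ↔ R.Hol s x := by
  simp [LB.sec_iff, LB.res_φ' hU h]

theorem LB.res_mul : (L * L').res hU = L.res hU * L'.res hU := LB.ext (funext₂ fun x y => by
  by_cases h : x ∈ U <;> simp [LB.res, h])

theorem LB.res_mul_compl : L.res hU * L.res hU.compl = L := LB.ext (funext₂ fun x y => by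
  by_cases h : x ∈ U <;> simp [LB.res, h])

open Classical in
theorem LB.res_mem (h : ∀ x ∈ U, L.Sec s x) : U.piecewise s 1 ∈ (L.res hU).Γ :=
  LB.piecewise_mem hU (fun x hx => (LB.sec_res hU hx).2 (h x hx))
    fun _ hx => (LB.sec_res' hU hx).2 (RS.hol_const 1)

end res

variable [T2Space X]

@[simp] theorem can_self (p : X) : RS.can p p = 0 := if_pos rfl

theorem can_ne (h : y ≠ p) : RS.can p y = 1 := if_neg h

theorem gen_can (p : X) : Gen (RS.can p) = univ := eq_univ_of_forall fun x => by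
  by_cases h : x = p
  · exact eventually_nhdsWithin_iff.2 (.of_forall fun y hy => by simp [can_ne (h ▸ hy : y ≠ p)])
  · exact ((eventually_ne_nhds h).mono fun y hy => by simp [can_ne hy]).filter_mono
      nhdsWithin_le_nhds

theorem eff_pt (p : X) : Eff (R.pt p) := ⟨_, R.can_mem p, gen_can p⟩

open Classical in
/-- division by the canonical section -/
theorem LB.Sec.exists_div (h : (L * R.pt p).Sec s p) (h0 : s p = 0) :
    ∃ c, L.Sec (update s p c) p := by
  refine ⟨deriv ((L * R.pt p).loc s p) 0, ?_⟩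
  refine (P275RR.an_dsl h).congr (((R.loc_can_self p).and (R.tgt_nhds p)).mono fun t ht => ?_)
  by_cases e : t = 0
  · simp [e]
  · have a : R.i p t ≠ p := fun b => e ((R.i_eq ht.2).1 b)
    have b := ht.1
    simp only [LB.loc, can_ne a, id] at b
    rw [dslope_of_ne _ e, slope_def_field, LB.loc_zero, h0, LB.loc, LB.loc, update_of_ne a,
      LB.mul_φ, sub_zero, sub_zero]
    have c : (R.pt p).φ p (R.i p t) = t⁻¹ := by rw [one_div, inv_eq_iff_eq_inv] at b; exact b
    rw [c]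
    field_simp

theorem LB.sec_mul_pt (h : x ≠ p) : (L * R.pt p).Sec s x ↔ L.Sec s x := by
  simp [LB.sec_iff, R.pt_φ_ne h]

theorem exists_div (h : s ∈ (L * R.pt p).Γ) (h0 : s p = 0) :
    ∃ s' ∈ L.Γ, s = s' * RS.can p ∧ ∀ y ≠ p, s' y = s y := by
  classical
  obtain ⟨c, hc⟩ := (h p).exists_div h0
  refine ⟨update s p c, fun x => ?_, funext fun y => ?_, fun y hy => update_of_ne hy _ _⟩
  · by_cases e : x = p
    · exact e ▸ hc
    · exact ((LB.sec_mul_pt e).1 (h x)).congr ((eventually_ne_nhds e).mono fun y hy =>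
        (update_of_ne hy _ _).symm)
  · by_cases e : y = p
    · simp [e, h0]
    · simp [update_of_ne e, can_ne e]

variable [CompactSpace X]

theorem finite_zeros (h : ∀ x, s x = 0 → x ∈ Gen s) (hc : IsClosed {x | s x = 0}) :
    {x | s x = 0}.Finite :=
  hc.isCompact.finite (isDiscrete_iff_forall_mem_exists_isOpen.2 fun x hx => by
    obtain ⟨V, a, b, c⟩ := eventually_nhds_iff.1 (eventually_nhdsWithin_iff.1 (h x hx))
    exact ⟨V, b, Set.ext fun y => ⟨fun d => by_contra fun e => a y d.1 e d.2,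
      fun d => d ▸ ⟨c, hx⟩⟩⟩)

theorem isClosed_zeros (h : s ∈ L.Γ) : IsClosed {x | s x = 0} :=
  ⟨isOpen_iff_eventually.2 fun x hx => (h x).ev_ne hx⟩

theorem LB.finite_zeros (h : s ∈ L.Γ) (g : Gen s = univ) : {x | s x = 0}.Finite :=
  Cv.finite_zeros (fun x _ => g ▸ mem_univ x) (isClosed_zeros h)

theorem chi_mul_sec (L : LB R) (h : s ∈ L'.Γ) (g : Gen s = univ) {Z : Finset X}
    (hZ : ∀ y ∉ Z, s y ≠ 0) : chi (L * L') = chi L + ∑ x ∈ Z, (L'.ord s x).toNat ∧
      finrank ℂ (R.K / (L * L')).Γ ≤ finrank ℂ (R.K / L).Γ :=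
  chi_mul L h Z hZ _ fun x _ => (ENat.natCast_toNat ((h x).ord_ne_top.2 (g ▸ mem_univ x))).symm

theorem deg_eq_sum (h : s ∈ L.Γ) (g : Gen s = univ) {Z : Finset X} (hZ : ∀ y ∉ Z, s y ≠ 0) :
    deg L = ∑ x ∈ Z, (L.ord s x).toNat := by
  have := (chi_mul_sec 1 h g hZ).1
  rw [one_mul] at this
  rw [deg, this, add_sub_cancel_left]

theorem Eff.chi_mul (h : Eff L') (L : LB R) : chi (L * L') = chi L + deg L' ∧
    finrank ℂ (R.K / (L * L')).Γ ≤ finrank ℂ (R.K / L).Γ := by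
  obtain ⟨s, h, g⟩ := h
  have hZ : ∀ y ∉ (LB.finite_zeros h g).toFinset, s y ≠ 0 := fun y hy => by simpa using hy
  rw [deg_eq_sum h g hZ]
  exact chi_mul_sec L h g hZ

theorem deg_pt (p : X) : deg (R.pt p) = 1 := by
  rw [deg_eq_sum (R.can_mem p) (gen_can p) (Z := {p}) fun y hy => by
    simp [can_ne (Finset.notMem_singleton.1 hy)]]
  simp [R.ord_can]

theorem finrank_le_of_forall {W W' : Submodule ℂ (X → ℂ)} [FiniteDimensional ℂ W'] (u : X → ℂ)
    (h : ∀ s ∈ W, ∃ s' ∈ W', s = s' * u) : finrank ℂ W ≤ finrank ℂ W' :=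
  (Submodule.finrank_mono (s := W) (t := W'.map (LinearMap.mulRight ℂ u)) fun s hs =>
    let ⟨s', a, b⟩ := h s hs
    ⟨s', a, b.symm⟩).trans (Submodule.finrank_map_le _ _)

theorem exists_ne_zero_pt (L : LB R) (x : X) : ∃ n : ℕ, ∃ s ∈ (L * R.pt x ^ n).Γ, s x ≠ 0 := by
  by_contra! h
  have a : ∀ n : ℕ, finrank ℂ (L * R.pt x ^ n).Γ ≤ finrank ℂ L.Γ ∧
      chi (L * R.pt x ^ n) = chi L + n := fun n => by
    induction n with
    | zero => rw [pow_zero, mul_one]; simp
    | succ n ih =>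
      have e : L * R.pt x ^ (n + 1) = L * R.pt x ^ n * R.pt x := by rw [pow_succ, mul_assoc]
      refine ⟨(finrank_le_of_forall (RS.can x) fun s hs => ?_).trans ih.1, ?_⟩
      · obtain ⟨s', b, c, -⟩ := exists_div (e ▸ hs) (h _ s hs)
        exact ⟨s', b, c⟩
      · rw [e, ((eff_pt x).chi_mul _).1, ih.2, deg_pt]
        push_cast; ring
  obtain ⟨b, c⟩ := a (finrank ℂ L.Γ + finrank ℂ (R.K / L).Γ + 1)
  unfold chi at c
  push_cast at c
  omega

/-- every bundle is a difference of two effective bundles -/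
theorem exists_eff (L : LB R) : ∃ E, Eff E ∧ Eff (L * E) := by
  classical
  have := isCompact_univ.induction_on
    (p := fun S : Set X => ∃ E, Eff E ∧ ∃ s ∈ (L * E).Γ, S ⊆ Gen s)
    ⟨1, eff_one, 0, zero_mem _, empty_subset _⟩
    (fun _ _ h ⟨E, a, s, b, c⟩ => ⟨E, a, s, b, h.trans c⟩) ?_ fun x _ => ?_
  · obtain ⟨E, a, s, b, c⟩ := this
    exact ⟨E, a, s, b, eq_univ_of_univ_subset c⟩
  · rintro S S' ⟨E, ⟨e, a, g⟩, s, b, c⟩ ⟨E', ⟨e', a', g'⟩, s', b', c'⟩
    have hU := isClopen_gen b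
    refine ⟨E * E', Eff.mul ⟨e, a, g⟩ ⟨e', a', g'⟩, (Gen s).piecewise (s * e') (s' * e),
      LB.piecewise_mem hU (fun x _ => ?_) fun x _ => ?_, fun x hx => ?_⟩
    · rw [← mul_assoc]; exact (b x).mul (a' x)
    · rw [mul_comm E, ← mul_assoc]; exact (b' x).mul (a x)
    · by_cases h : x ∈ Gen s
      · refine (gen_congr' (s' := s * e') (Eventually.mono
          (hU.isOpen.mem_nhds h) fun y hy => piecewise_eq_of_mem (Gen s) _ _ hy)).2 ?_
        rw [gen_mul, g', inter_univ]; exact h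
      · refine (gen_congr' (s' := s' * e) (Eventually.mono
          (hU.compl.isOpen.mem_nhds h) fun y hy => piecewise_eq_of_notMem _ _ _ hy)).2 ?_
        rw [gen_mul, g, inter_univ]; exact c' (hx.resolve_left fun d => h (c d))
  · obtain ⟨n, s, a, b⟩ := exists_ne_zero_pt L x
    exact ⟨Gen s, mem_nhdsWithin_of_mem_nhds ((isClopen_gen a).isOpen.mem_nhds
      ((a x).mem_gen b)), _, (eff_pt x).pow n, s, a, Subset.rfl⟩

/-- **Riemann-Roch** -/
theorem chi_mul_eq (L L' : LB R) : chi (L * L') = chi L + deg L' := by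
  obtain ⟨E, a, b⟩ := exists_eff L'
  have h1 := (a.chi_mul (L * L')).1
  have h2 := (b.chi_mul L).1
  have h3 := (a.chi_mul L').1
  rw [mul_assoc, h2] at h1
  unfold deg at *
  omega

theorem deg_mul (L L' : LB R) : deg (L * L') = deg L + deg L' := by
  rw [deg, chi_mul_eq]; unfold deg; ring

@[simp] theorem deg_one : deg (1 : LB R) = 0 := sub_self _

theorem deg_inv (L : LB R) : deg L⁻¹ = -deg L := add_inv deg_mul L

theorem deg_div (L L' : LB R) : deg (L / L') = deg L - deg L' := add_div' deg_mul L L'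

theorem deg_zpow (L : LB R) (n : ℤ) : deg (L ^ n) = n * deg L := add_zpow deg_mul L n

theorem deg_pow (L : LB R) (n : ℕ) : deg (L ^ n) = n * deg L := by
  rw [← zpow_natCast, deg_zpow]

theorem deg_prod {α : Type} (T : Finset α) (A : α → LB R) :
    deg (∏ a ∈ T, A a) = ∑ a ∈ T, deg (A a) := add_prod deg_mul T A

theorem deg_of_ne (h : s ∈ L.Γ) (h0 : ∀ x, s x ≠ 0) : deg L = 0 := by
  rw [deg_eq_sum h (gen_of_ne h0) (Z := ∅) fun y _ => h0 y]; simp

theorem deg_K : deg R.K = -2 * chi (1 : LB R) := by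
  rw [deg, chi, chi, div_self', div_one]; ring

theorem chi_eq (L : LB R) : chi L = deg L + chi (1 : LB R) := by rw [deg]; ring

theorem chi_le (L : LB R) : chi L ≤ finrank ℂ L.Γ := by rw [chi]; omega

theorem degOn_eq (hU : IsClopen U) : degOn L U = deg (L.res hU) := dif_pos hU

theorem degOn_mul (L L' : LB R) (U : Set X) : degOn (L * L') U = degOn L U + degOn L' U := by
  by_cases hU : IsClopen U
  · rw [degOn_eq hU, degOn_eq hU, degOn_eq hU, LB.res_mul, deg_mul]
  · simp [degOn, hU]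

@[simp] theorem degOn_one (U : Set X) : degOn (1 : LB R) U = 0 := by
  have := degOn_mul (1 : LB R) 1 U
  rw [mul_one] at this
  omega

theorem degOn_inv (L : LB R) (U : Set X) : degOn L⁻¹ U = -degOn L U :=
  add_inv (D := fun L => degOn L U) (fun _ _ => degOn_mul _ _ U) L

theorem degOn_div (L L' : LB R) (U : Set X) : degOn (L / L') U = degOn L U - degOn L' U :=
  add_div' (D := fun L => degOn L U) (fun _ _ => degOn_mul _ _ U) L L'

theorem degOn_zpow (L : LB R) (n : ℤ) (U : Set X) : degOn (L ^ n) U = n * degOn L U :=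
  add_zpow (D := fun L => degOn L U) (fun _ _ => degOn_mul _ _ U) L n

theorem degOn_pow (L : LB R) (n : ℕ) (U : Set X) : degOn (L ^ n) U = n * degOn L U := by
  rw [← zpow_natCast, degOn_zpow]

theorem degOn_prod {α : Type} (T : Finset α) (A : α → LB R) (U : Set X) :
    degOn (∏ a ∈ T, A a) U = ∑ a ∈ T, degOn (A a) U :=
  add_prod (D := fun L => degOn L U) (fun _ _ => degOn_mul _ _ U) T A

theorem degOn_add_compl (hU : IsClopen U) : degOn L U + degOn L Uᶜ = deg L := by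
  rw [degOn_eq hU, degOn_eq hU.compl, ← deg_mul, LB.res_mul_compl]

theorem degOn_univ : degOn L univ = deg L := by
  rw [degOn_eq isClopen_univ]
  exact congrArg deg (LB.ext (funext₂ fun _ _ => LB.res_φ _ (mem_univ _)))

/-- the degree on `U` is the number of zeros in `U` -/
theorem degOn_eq_sum (hU : IsClopen U) (h : ∀ x ∈ U, L.Sec s x) (g : U ⊆ Gen s) {Z : Finset X}
    (hZ : ∀ y ∈ U, y ∉ Z → s y ≠ 0) (hZU : ∀ y ∈ Z, y ∈ U) :
    degOn L U = ∑ x ∈ Z, (L.ord s x).toNat := by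
  classical
  have e : ∀ x ∈ U, U.piecewise s 1 =ᶠ[𝓝 x] s := fun x hx =>
    Eventually.mono (hU.isOpen.mem_nhds hx) fun y hy => piecewise_eq_of_mem _ _ _ hy
  rw [degOn_eq hU, deg_eq_sum (LB.res_mem hU h) (Z := Z) (eq_univ_of_forall fun x => ?_)
    fun y hy => ?_]
  · congr 1
    refine Finset.sum_congr rfl fun x hx => ?_
    rw [LB.ord, LB.loc_res hU (hZU x hx), analyticOrderAt_congr (LB.loc_congr (e x (hZU x hx)))]
    rfl
  · by_cases hx : x ∈ U
    · exact (gen_congr' (e x hx)).2 (g hx)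
    · exact (LB.res_mem hU h x).mem_gen (by simp [hx])
  · by_cases hx : y ∈ U
    · simpa [hx] using hZ y hx hy
    · simp [hx]

theorem finite_zeros_on (hU : IsClopen U) (h : ∀ x ∈ U, L.Sec s x) (g : U ⊆ Gen s) :
    {x | x ∈ U ∧ s x = 0}.Finite := by
  classical
  refine (finite_zeros (s := U.piecewise s 1) (fun x hx => ?_)
    (isClosed_zeros (LB.res_mem hU h))).subset fun x hx => by simpa [hx.1] using hx.2
  have a : x ∈ U := by_contra fun a => by simp [a] at hx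
  exact (gen_congr' (Eventually.mono (hU.isOpen.mem_nhds a)
    fun y hy => piecewise_eq_of_mem _ _ _ hy)).2 (g a)

/-- the number of zeros is at most the degree -/
theorem card_le_degOn (hU : IsClopen U) (h : ∀ x ∈ U, L.Sec s x) (g : U ⊆ Gen s) {T : Finset X}
    (hT : ∀ x ∈ T, x ∈ U ∧ s x = 0) : (T.card : ℤ) ≤ degOn L U := by
  rw [degOn_eq_sum hU h g (Z := (finite_zeros_on hU h g).toFinset)
    (fun y a b c => b (by simpa using ⟨a, c⟩)) fun y a => by simpa using (by simpa using a : _ ∧ _).1]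
  norm_cast
  rw [Finset.card_eq_sum_ones]
  refine (Finset.sum_le_sum fun x hx => ?_).trans (Finset.sum_le_sum_of_subset fun x hx => by
    simpa using hT x hx)
  have a := (h x (hT x hx).1).ord_ne_top.2 (g (hT x hx).1)
  have b := mt (LB.ord_eq_zero (h x (hT x hx).1)).1 (not_not.2 (hT x hx).2)
  exact Nat.one_le_iff_ne_zero.2 fun c => ((ENat.toNat_eq_zero.1 c).elim b a)

theorem degOn_of_ne (h : ∀ x ∈ U, L.Sec s x) (h0 : ∀ x ∈ U, s x ≠ 0) : degOn L U = 0 := by
  by_cases hU : IsClopen U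
  · rw [degOn_eq_sum hU h (fun x hx => (h x hx).mem_gen (h0 x hx)) (Z := ∅)
      (fun y a _ => h0 y a) (by simp)]
    simp
  · simp [degOn, hU]

open Classical in
theorem degOn_pt (hU : IsClopen U) (p : X) : degOn (R.pt p) U = if p ∈ U then 1 else 0 := by
  split_ifs with h
  · rw [degOn_eq_sum hU (fun x _ => R.can_mem p x) (by simp [gen_can]) (Z := {p})
      (fun y _ hy => by simp [can_ne (Finset.notMem_singleton.1 hy)]) (by simpa using h)]
    simp [R.ord_can]
  · exact degOn_of_ne (fun x _ => R.can_mem p x) fun x hx => by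
      simp [can_ne (ne_of_mem_of_not_mem hx h)]

theorem degOn_cst {c : X → ℂ} (hc : ∀ x, c x ≠ 0) : degOn (LB.cst R c hc) U = 0 :=
  degOn_of_ne (fun x _ => LB.cst_mem hc x) fun x _ => hc x

theorem deg_cst {c : X → ℂ} (hc : ∀ x, c x ≠ 0) : deg (LB.cst R c hc) = 0 :=
  deg_of_ne (LB.cst_mem hc) hc

variable (L) in
/-- the degree is at least `n` on every component -/
def Ge (n : ℤ) : Prop := ∀ U, IsClopen U → U.Nonempty → n ≤ degOn L U

variable {n n' : ℤ}

theorem Ge.mono (h : Ge L n) (e : n' ≤ n) : Ge L n' := fun U a b => e.trans (h U a b)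

theorem Ge.mul (h : Ge L n) (h' : Ge L' n') : Ge (L * L') (n + n') := fun U a b => by
  rw [degOn_mul]; exact add_le_add (h U a b) (h' U a b)

theorem Ge.pow (h : Ge L n) (k : ℕ) : Ge (L ^ k) (k * n) := fun U a b => by
  rw [degOn_pow]; exact mul_le_mul_of_nonneg_left (h U a b) (by positivity)

theorem Ge.of_pow {k : ℕ} (h : Ge (L ^ k) 1) : Ge L 1 := fun U a b => by
  have := h U a b
  rw [degOn_pow] at this
  exact pos_of_mul_pos_right (by omega : 0 < (k : ℤ) * degOn L U) (by positivity)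

theorem Ge.of_pow' {k : ℕ} (hk : k ≠ 0) (h : Ge (L ^ k) 0) : Ge L 0 := fun U a b => by
  have := h U a b
  rw [degOn_pow] at this
  exact nonneg_of_mul_nonneg_right this (by omega)

theorem Ge.prod {α : Type} {T : Finset α} {A : α → LB R} {m : α → ℤ} (h : ∀ a ∈ T, Ge (A a) (m a)) :
    Ge (∏ a ∈ T, A a) (∑ a ∈ T, m a) := fun U a b => by
  rw [degOn_prod]; exact Finset.sum_le_sum fun i hi => h i hi U a b

theorem Eff.ge (h : Eff L) : Ge L 0 := fun U a _ =>
  let ⟨_, b, c⟩ := h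
  card_le_degOn a (fun x _ => b x) (c ▸ subset_univ U) (T := ∅) (by simp)

theorem ge_of_ne (h : s ∈ L.Γ) (h0 : ∀ x, s x ≠ 0) : Ge L 0 := Eff.ge ⟨s, h, gen_of_ne h0⟩

theorem Ge.iso (h : Ge L n) (a : s ∈ (L' / L).Γ) (h0 : ∀ x, s x ≠ 0) : Ge L' n := by
  simpa using h.mul (ge_of_ne a h0)

theorem ge_inv_pt (p : X) : Ge (R.pt p)⁻¹ (-1) := fun U a _ => by
  rw [degOn_inv, degOn_pt a]; split_ifs <;> simp

theorem ge_one (h : ∀ x, ∃ s ∈ L.Γ, Gen s = univ ∧ s x = 0) : Ge L 1 := fun U a ⟨x, b⟩ =>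
  let ⟨_, c, d, e⟩ := h x
  card_le_degOn a (fun x _ => c x) (d ▸ subset_univ U) (T := {x}) (by simpa using ⟨b, e⟩)

/-- **vanishing** -/
theorem Ge.eq_zero (h : Ge L⁻¹ 1) (hs : s ∈ L.Γ) : s = 0 := funext fun x => by_contra fun h0 => by
  have a := h _ (isClopen_gen hs) ⟨x, (hs x).mem_gen h0⟩
  have b := card_le_degOn (isClopen_gen hs) (fun x _ => hs x) Subset.rfl (T := ∅) (by simp)
  rw [degOn_inv] at a
  simp at b
  omega

theorem Ge.finrank_eq_zero (h : Ge L⁻¹ 1) : finrank ℂ L.Γ = 0 := by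
  rw [(Submodule.eq_bot_iff _).2 fun s hs => h.eq_zero hs, finrank_bot]

/-- holomorphic functions are locally constant -/
theorem ev_const (h : s ∈ (1 : LB R).Γ) (x : X) : ∀ᶠ y in 𝓝 x, s y = s x := by
  have a : s - s x • (1 : X → ℂ) ∈ (1 : LB R).Γ := sub_mem h (Submodule.smul_mem _ _ LB.one_mem)
  have b : x ∉ Gen (s - s x • (1 : X → ℂ)) := fun b => by
    have := card_le_degOn (isClopen_gen a) (fun x _ => a x) Subset.rfl (T := {x})
      (by simpa using b)
    simp at this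
  exact ((a x).not_mem_gen.1 b).mono fun y hy => by simpa [sub_eq_zero] using hy

end Vale.Agent.P269.Cv
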