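import Vale.Agent.P269.Cv.Ctr

/-!
# Uniqueness of stabilisation and contraction
-/

set_option linter.unusedSectionVars false

namespace Vale.Agent.P269.Cv

open Set Function Topology Filter Module Classical

section loc
variable {X Y Z W : Type} [TopologicalSpace X] [TopologicalSpace Y] [TopologicalSpace Z]
  [TopologicalSpace W] {R : RS X} {S : RS Y} {Q : RS Z} {T : RS W} {f : X → Y} {k : Z → X}
  {a : W → X}

theorem LIso.at_comp (hk : LIso Q R k) (h : LIso Q S (f ∘ k)) (z : Z) : ContinuousAt f (k z) ∧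
    R.Hol (fun y => S.e (f (k z)) (f y)) (k z) ∧ R.d (fun y => S.e (f (k z)) (f y)) (k z) ≠ 0 := by
  have b : R.Hol (fun y => S.e (f (k z)) (f y)) (k z) := hk.hol_iff.1 (h.hol z)
  refine ⟨?_, b, fun e => h.ne z ((hk.d_comp b).trans (by rw [e, mul_zero]))⟩
  rw [ContinuousAt, ← hk.map_nhds, tendsto_map'_iff]
  exact h.cont.continuousAt

/-- being a local isomorphism can be checked on two pieces -/
theorem LIso.of_cover (hk : LIso Q R k) (ha : LIso T R a) (hc : ∀ x, x ∈ range k ∨ x ∈ range a)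
    (h : LIso Q S (f ∘ k)) (h' : LIso T S (f ∘ a)) : LIso R S f := by
  have b : ∀ x, ContinuousAt f x ∧ R.Hol (fun y => S.e (f x) (f y)) x ∧
      R.d (fun y => S.e (f x) (f y)) x ≠ 0 := fun x => by
    rcases hc x with ⟨z, rfl⟩ | ⟨z, rfl⟩
    exacts [hk.at_comp h z, ha.at_comp h' z]
  exact ⟨continuous_iff_continuousAt.2 fun x => (b x).1, fun x => (b x).2.1, fun x => (b x).2.2⟩

theorem LIso.of_comp_left {g : W → Z} (hk : LIso Q R k) (i : Injective k) (h : LIso T R (k ∘ g)) :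
    LIso T Q g := by
  rcases isEmpty_or_nonempty Z with e | e
  · have : IsEmpty W := ⟨fun w => e.1 (g w)⟩
    exact ⟨continuous_of_discreteTopology, fun x => isEmptyElim x, fun x => isEmptyElim x⟩
  obtain ⟨r, hr⟩ := i.hasLeftInverse
  have b := fun z => hk.at_comp (S := Q) (f := r) (hr.comp_eq_id ▸ LIso.id Q) z
  have e : ∀ w, r ((k ∘ g) w) = g w := fun w => hr _
  refine ⟨continuous_iff_continuousAt.2 fun w => ?_, fun w => ?_, fun w => ?_⟩
  · simpa only [comp_def, hr _] using ContinuousAt.comp (f := k ∘ g) (b (g w)).1 h.cont.continuousAt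
  · simpa only [e, hr _] using h.hol_iff.2 (b (g w)).2.1
  · have := h.d_comp (b (g w)).2.1
    simp only [e, hr _] at this
    rw [this]
    exact mul_ne_zero (h.ne w) (by simpa only [hr _, comp_apply] using (b (g w)).2.2)

/-- an automorphism of the projective line with three fixed points -/
theorem P1_eq_id {φ : OnePoint ℂ → OnePoint ℂ} (h : LIso P1 P1 φ) (i : Injective φ)
    (h0 : φ (0 : ℂ) = (0 : ℂ)) (h1 : φ OnePoint.infty = OnePoint.infty)
    (h2 : φ (1 : ℂ) = (1 : ℂ)) (x : OnePoint ℂ) : φ x = x := by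
  obtain ⟨u, a, -, b⟩ := h.exists_pt i OnePoint.infty
  have m : (fun x : OnePoint ℂ => x.elim 1 id) ∈ (P1.pt OnePoint.infty ^ 1).Γ :=
    P1_mem_iff.2 ⟨Polynomial.X, by simp, fun z => by simp, by simp⟩
  rw [pow_one] at m
  have m' := LB.mul_mem a (h.pb_mem (h1.symm ▸ m))
  rw [div_mul_cancel, ← pow_one (P1.pt _)] at m'
  obtain ⟨q, q1, q2, -⟩ := P1_mem_iff.1 m'
  have e : ∀ z : ℂ, φ z = (q.eval z : ℂ) := fun z => by
    have c : φ z ≠ OnePoint.infty := fun c => OnePoint.coe_ne_infty z (i (c.trans h1.symm))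
    have := q2 z
    rw [Pi.mul_apply, b _ (OnePoint.coe_ne_infty z), one_mul] at this
    obtain ⟨w, hw⟩ := OnePoint.ne_infty_iff_exists.1 c
    rw [← hw] at this ⊢
    exact congrArg _ this
  induction x using OnePoint.rec with
  | infty => exact h1
  | coe z =>
    rw [e, OnePoint.coe_eq_coe] at h0 h2 ⊢
    rw [Polynomial.eq_X_add_C_of_natDegree_le_one q1] at h0 h2 ⊢
    simp only [Polynomial.eval_add, Polynomial.eval_mul, Polynomial.eval_C, Polynomial.eval_X] at *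
    linear_combination (1 - z) * h0 + z * h2

end loc

variable {X X' Y Y' : Type} [TopologicalSpace X] [TopologicalSpace X'] [T2Space X] [CompactSpace X]
  [T2Space X'] [CompactSpace X'] [TopologicalSpace Y] [TopologicalSpace Y'] [T2Space Y]
  [CompactSpace Y] [T2Space Y'] [CompactSpace Y'] {ν : Type} [Fintype ν]
  {R : RS X} {R' : RS X'} {N : Finset (X × X)} {N' : Finset (X' × X')} {p : ν → X}
  {p' : Option ν → X'} {c : X} {j : X → X'} {r : X' → X} {L : LB R} {L' : LB R'}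

theorem IsRat.eqOn {E : Set X} (h : IsRat R E) {f g : X → X'} (hf : LIso R R' f) (hg : LIso R R' g)
    (i : InjOn f E) (i' : InjOn g E) {a b d : X} (ha : a ∈ E) (hb : b ∈ E) (hd : d ∈ E) (h1 : a ≠ b)
    (h2 : a ≠ d) (h3 : b ≠ d) (e1 : f a = g a) (e2 : f b = g b) (e3 : f d = g d) : EqOn f g E := by
  obtain ⟨k, hk, ik, rfl, k0, k1, k2⟩ := h.exists_param ha hb hd h1 h2 h3
  have jf : Injective (f ∘ k) := fun x y e => ik (i ⟨x, rfl⟩ ⟨y, rfl⟩ e)
  have jg : Injective (g ∘ k) := fun x y e => ik (i' ⟨x, rfl⟩ ⟨y, rfl⟩ e)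
  have sub : range (g ∘ k) ⊆ range (f ∘ k) :=
    (isConnected_range (hg.comp hk).cont).isPreconnected.subset_isClopen (hf.comp hk).isClopen_range
      ⟨f a, ⟨(0 : ℂ), by rw [comp_apply, k0, e1]⟩, ⟨(0 : ℂ), by rw [comp_apply, k0]⟩⟩
  choose φ hφ using fun z => sub ⟨z, rfl⟩
  have l : LIso P1 P1 φ := (hf.comp hk).of_comp_left jf (funext hφ ▸ hg.comp hk :)
  have := P1_eq_id l (fun x y e => jg (by rw [← hφ, e, hφ]))
    (jf (by rw [hφ, comp_apply, comp_apply, k0, e1]))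
    (jf (by rw [hφ, comp_apply, comp_apply, k1, e2]))
    (jf (by rw [hφ, comp_apply, comp_apply, k2, e3]))
  rintro _ ⟨z, rfl⟩
  have b := hφ z
  rwa [this] at b

variable {S : RS Y} {S' : RS Y'} {M : Finset (Y × Y)} {M' : Finset (Y' × Y')} {q : ν → Y}
  {q' : Option ν → Y'} {d : Y} {k : Y → Y'} {t : Y' → Y}

/-- extension of an isomorphism over a rational component -/
theorem exists_glue_rat (hj : LIso R R' j) (ij : Injective j) (hk : LIso S S' k) (ik : Injective k)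
    (h : IsRat R' (range j)ᶜ) (h' : IsRat S' (range k)ᶜ) {f : X ≃ Y} (hf : LIso R S f)
    {a₁ a₂ a₃ : X'} {b₁ b₂ b₃ : Y'} (m₁ : a₁ ∉ range j) (m₂ : a₂ ∉ range j) (m₃ : a₃ ∉ range j)
    (n₁ : b₁ ∉ range k) (n₂ : b₂ ∉ range k) (n₃ : b₃ ∉ range k) (u₁ : a₁ ≠ a₂) (u₂ : a₁ ≠ a₃)
    (u₃ : a₂ ≠ a₃) (v₁ : b₁ ≠ b₂) (v₂ : b₁ ≠ b₃) (v₃ : b₂ ≠ b₃) : ∃ f' : X' ≃ Y', LIso R' S' f' ∧
      (∀ x, f' (j x) = k (f x)) ∧ f' a₁ = b₁ ∧ f' a₂ = b₂ ∧ f' a₃ = b₃ := by
  obtain ⟨a, ha, ia, ra, rfl, rfl, rfl⟩ := h.exists_param m₁ m₂ m₃ u₁ u₂ u₃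
  obtain ⟨b, hb, ib, rb, rfl, rfl, rfl⟩ := h'.exists_param n₁ n₂ n₃ v₁ v₂ v₃
  have bij : ∀ {X X' : Type} {j : X → X'} {a : OnePoint ℂ → X'}, Injective j → Injective a →
      range a = (range j)ᶜ → Bijective (Sum.elim j a) := fun {_ _ j a} ij ia ra =>
    ⟨ij.sumElim ia fun x z e => (ra.le ⟨z, rfl⟩) ⟨x, e⟩, fun y => by
      by_cases e : y ∈ range j
      · exact let ⟨x, hx⟩ := e; ⟨.inl x, hx⟩
      · exact let ⟨x, hx⟩ := ra.ge e; ⟨.inr x, hx⟩⟩
  let e₁ := Equiv.ofBijective _ (bij ij ia ra)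
  let f' : X' ≃ Y' := e₁.symm.trans ((f.sumCongr (Equiv.refl _)).trans
    (Equiv.ofBijective _ (bij ik ib rb)))
  have v : ∀ z, f' (Sum.elim j a z) = Sum.elim k b (f.sumCongr (Equiv.refl _) z) := fun z =>
    congrArg (fun w => Sum.elim k b (f.sumCongr (Equiv.refl _) w)) (e₁.symm_apply_apply z)
  have v1 : ∀ x, f' (j x) = k (f x) := fun x => v (.inl x)
  have v2 : ∀ x, f' (a x) = b x := fun x => v (.inr x)
  refine ⟨f', hj.of_cover ha (fun x => ra ▸ Classical.em _) ?_ ?_, v1, v2 _, v2 _, v2 _⟩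
  · exact (funext v1 : f' ∘ j = k ∘ f) ▸ hk.comp hf
  · exact (funext v2 : f' ∘ a = b) ▸ hb

theorem ex_congrC {f : X ≃ Y} {f' : X' ≃ Y'} (v : ∀ x, f' (j x) = k (f x)) {P : X → X → Prop}
    {P' : Y → Y → Prop} (e : ∀ x y, P x y ↔ P' (f x) (f y)) (a b : X') :
    (∃ x y, P x y ∧ a = j x ∧ b = j y) ↔ ∃ x y, P' x y ∧ f' a = k x ∧ f' b = k y := by
  rw [f.surjective.exists₂]
  simp only [← v, f'.injective.eq_iff, e]

theorem ex_congrC' {f : X ≃ Y} {f' : X' ≃ Y'} (v : ∀ x, f' (j x) = k (f x)) {P Q : X → X → Prop}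
    {P' Q' : Y → Y → Prop} (e : ∀ x y, P x y ↔ P' (f x) (f y)) (e' : ∀ x y, Q x y ↔ Q' (f x) (f y))
    (a b : X') : (∃ x y, P x y ∧ Q x y ∧ a = j x ∧ b = j y) ↔
      ∃ x y, P' x y ∧ Q' x y ∧ f' a = k x ∧ f' b = k y := by
  rw [f.surjective.exists₂]
  simp only [← v, f'.injective.eq_iff, e, e']

theorem sym_congrC {α β : Type} (f : α ≃ β) (a b u v : α) :
    s(a, b) = s(u, v) ↔ s(f a, f b) = s(f u, f v) := by
  simp only [Sym2.eq_iff, f.injective.eq_iff]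

theorem ne_of_jnC {a b e : X'} (h : Sm N' a) (h' : Jn N' e b) : a ≠ b := fun x =>
  sm_iff.1 h e (x ▸ h'.symm)

namespace Ctr

theorem injC (h : Ctr R R' N N' p p' c j r) : Injective j := h.left.injective

theorem smoothC (h : Ctr R R' N N' p p' c j r) (a : ∀ a b, Jn N' (j a) (j b) ↔ Jn N a b)
    (b : ∀ n, p' n = j (n.elim c p)) : (∀ x, ¬Jn N c x) ∧ ∀ n, p n ≠ c :=
  ⟨fun x e => sm_iff.1 (h.sm' none) (j x) ((b none).symm ▸ (a _ _).2 e), fun n e =>
    Option.some_ne_none n (h.inj' ((b _).trans ((congrArg j e).trans (b none).symm)))⟩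

theorem bridge_neC (h : Ctr R R' N N' p p' c j r) {c' : X} {e e' : X'} (a : Jn N c c')
    (b : Jn N' (j c) e) (b' : Jn N' (j c') e') : e ≠ e' := fun x =>
  a.ne h.nd (h.injC (b.symm.unique h.nd' (x ▸ b'.symm)))

end Ctr

theorem Ctr.iso_up (h : Ctr R R' N N' p p' c j r) (h' : Ctr S S' M M' q q' d k t) {f : X ≃ Y}
    (hf : LIso R S f) (e : ∀ x y, Jn N x y ↔ Jn M (f x) (f y)) (hp : ∀ n, f (p n) = q n)
    (hc : f c = d ∨ Jn M (f c) d) : ∃ f' : X' ≃ Y', LIso R' S' f' ∧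
      (∀ x y, Jn N' x y ↔ Jn M' (f' x) (f' y)) ∧ (∀ n, f' (p' n) = q' n) ∧
      ∀ x, f' (j x) = k (f x) := by
  have s1 : (∀ x, ¬Jn N c x) → f c = d := fun a => hc.resolve_right fun b =>
    a (f.symm d) ((e _ _).2 (by rwa [f.apply_symm_apply]))
  have s2 : (∀ x, ¬Jn M d x) → f c = d := fun a => hc.resolve_right fun b => a _ b.symm
  have s3 : (∀ x, ¬Jn N c x) → ∀ y, ¬Jn M d y := fun a y b =>
    a (f.symm y) ((e _ _).2 (by rwa [f.apply_symm_apply, s1 a]))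
  have s4 : (∀ y, ¬Jn M d y) → ∀ x, ¬Jn N c x := fun a x b => a _ (s2 a ▸ (e _ _).1 b)
  rcases h.alt with ⟨a1, a2, a3⟩ | ⟨a1, a2, u, a3, ⟨n, a4, a5, a6, a7⟩ | ⟨c', u', a4, a5, a6, a7⟩⟩ <;>
  rcases h'.alt with ⟨b1, b2, b3⟩ | ⟨b1, b2, w, b3, ⟨m, b4, b5, b6, b7⟩ | ⟨d', w', b4, b5, b6, b7⟩⟩
  · let e₁ := Equiv.ofBijective j ⟨h.injC, a1⟩
    let f' : X' ≃ Y' := e₁.symm.trans (f.trans (Equiv.ofBijective k ⟨h'.injC, b1⟩))
    have v : ∀ x, f' (j x) = k (f x) := fun x =>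
      congrArg (fun w => k (f w)) (e₁.symm_apply_apply x)
    have l : LIso R S' (f' ∘ j) := (funext v : f' ∘ j = k ∘ f) ▸ h'.liso.comp hf
    refine ⟨f', h.liso.of_cover h.liso (fun x => .inl (a1 x)) l l,
      a1.forall₂.2 fun x y => by rw [v, v, a2, b2, e], fun n => ?_, v⟩
    rw [a3, b3, v]
    cases n
    exacts [congrArg k (s1 (h.smoothC a2 a3).1), congrArg k (hp _)]
  · exact ((h.smoothC a2 a3).2 m (f.injective
      ((hp m).trans (b4.trans (s1 (h.smoothC a2 a3).1).symm)))).elim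
  · exact (s3 (h.smoothC a2 a3).1 _ b5).elim
  · exact ((h'.smoothC b2 b3).2 n
      ((hp n).symm.trans ((congrArg f a4).trans (s2 (h'.smoothC b2 b3).1)))).elim
  · have cd := s1 (a4 ▸ sm_iff.1 (h.sm n))
    obtain rfl : n = m := h'.inj ((hp n).symm.trans ((congrArg f a4).trans (cd.trans b4.symm)))
    have ja : Jn N' (j c) u := (a7 _ _).2 (.inr rfl)
    have jb : Jn M' (k d) w := (b7 _ _).2 (.inr rfl)
    obtain ⟨f', l, v, v1, v2, v3⟩ := exists_glue_rat h.liso h.injC h'.liso h'.injC a1 b1 hf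
      a2 a5 a3 b2 b5 b3 (h.inj'.ne (Option.some_ne_none _).symm) (ne_of_jnC (h.sm' _) ja)
      (ne_of_jnC (h.sm' _) ja) (h'.inj'.ne (Option.some_ne_none _).symm) (ne_of_jnC (h'.sm' _) jb)
      (ne_of_jnC (h'.sm' _) jb)
    refine ⟨f', l, fun x y => ?_, fun i => ?_, v⟩
    · rw [a7, b7, ex_congrC v e, sym_congrC f', v, cd, v3]
    · cases i with
      | none => exact v1
      | some i =>
        by_cases a : i = n
        · exact a ▸ v2
        · rw [a6 i a, b6 i a, v, hp]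
  · exact (s3 (a4 ▸ sm_iff.1 (h.sm n)) _ b5).elim
  · exact (s4 (h'.smoothC b2 b3).1 _ a5).elim
  · exact (s4 (b4 ▸ sm_iff.1 (h'.sm m)) _ a5).elim
  · have ja : Jn N' (j c) u := (a7 _ _).2 (.inr (.inl rfl))
    have ja' : Jn N' (j c') u' := (a7 _ _).2 (.inr (.inr rfl))
    have jb : Jn M' (k d) w := (b7 _ _).2 (.inr (.inl rfl))
    have jb' : Jn M' (k d') w' := (b7 _ _).2 (.inr (.inr rfl))
    have key := fun {b₂ b₃ : Y'} (n₂ : b₂ ∉ range k) (n₃ : b₃ ∉ range k) =>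
      exists_glue_rat h.liso h.injC h'.liso h'.injC a1 b1 hf a2 a3 a4 b2 n₂ n₃
        (ne_of_jnC (h.sm' _) ja) (ne_of_jnC (h.sm' _) ja') (h.bridge_neC a5 ja ja')
    have ne := h'.bridge_neC b5 jb jb'
    have mk : ∀ f' : X' ≃ Y', (∀ x, f' (j x) = k (f x)) → f' (p' none) = q' none →
        ∀ i, f' (p' i) = q' i := fun f' v v1 i => by
      cases i with
      | none => exact v1
      | some i => rw [a6, b6, v, hp]
    have a8 := (e _ _).1 a5
    rcases hc with cd | cd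
    · have cd' : f c' = d' := a8.unique h'.nd (cd ▸ b5)
      obtain ⟨f', l, v, v1, v2, v3⟩ :=
        key b3 b4 (ne_of_jnC (h'.sm' _) jb) (ne_of_jnC (h'.sm' _) jb') ne
      refine ⟨f', l, fun x y => ?_, mk f' v v1, v⟩
      rw [a7, b7, ex_congrC' v e (Q := fun x y => s(x, y) ≠ s(c, c'))
        (Q' := fun x y => s(x, y) ≠ s(d, d')) fun x y => by rw [Ne, sym_congrC f, cd, cd'],
        sym_congrC f' x y (j c), sym_congrC f' x y (j c'), v, v, cd, cd', v2, v3]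
    · have c1 : f c = d' := cd.symm.unique h'.nd b5
      have c2 : f c' = d := a8.unique h'.nd cd
      obtain ⟨f', l, v, v1, v2, v3⟩ :=
        key b4 b3 (ne_of_jnC (h'.sm' _) jb') (ne_of_jnC (h'.sm' _) jb) ne.symm
      refine ⟨f', l, fun x y => ?_, mk f' v v1, v⟩
      rw [a7, b7, ex_congrC' v e (Q := fun x y => s(x, y) ≠ s(c, c'))
        (Q' := fun x y => s(x, y) ≠ s(d, d')) fun x y => by
          rw [Ne, sym_congrC f, c1, c2, Sym2.eq_swap (a := d')], sym_congrC f' x y (j c),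
        sym_congrC f' x y (j c'), v, v, c1, c2, v2, v3, or_comm (a := _ = s(k d', w'))]

theorem Ctr.iso_down (h : Ctr R R' N N' p p' c j r) (h' : Ctr S S' M M' q q' d k t) {f' : X' ≃ Y'}
    (hf : LIso R' S' f') (e : ∀ x y, Jn N' x y ↔ Jn M' (f' x) (f' y)) (hp : ∀ n, f' (p' n) = q' n)
    (hc : Surjective j ↔ Surjective k) : ∃ f : X ≃ Y, LIso R S f ∧
      (∀ x y, Jn N x y ↔ Jn M (f x) (f y)) ∧ (∀ n, f (p n) = q n) ∧ (f c = d ∨ Jn M (f c) d) ∧
      ∀ x, f' (j x) = k (f x) := by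
  have ij := h.injC
  have ik := h'.injC
  have key : ∀ y, y ∈ range j ↔ f' y ∈ range k := fun y => by
    rcases h.alt with ⟨a1, -⟩ | ⟨a1, a2, -⟩
    · exact iff_of_true (a1 y) (hc.1 a1 _)
    rcases h'.alt with ⟨b1, -⟩ | ⟨b1, b2, -⟩
    · exact (a2 (hc.2 b1 _)).elim
    have c1 := hf.isClopen_image a1.clopen
    have c2 := (a1.conn.image f' hf.cont.continuousOn).isPreconnected
    have m : q' none ∈ f' '' (range j)ᶜ := ⟨_, a2, hp _⟩
    have E := (c2.subset_isClopen b1.clopen ⟨_, m, b2⟩).antisymm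
      (b1.conn.isPreconnected.subset_isClopen c1 ⟨_, b2, m⟩)
    rw [← not_iff_not, ← mem_compl_iff, ← mem_compl_iff, ← E, f'.injective.mem_set_image]
  choose g v using fun x => (key _).1 (mem_range_self x)
  let f : X ≃ Y := Equiv.ofBijective g ⟨fun x y a => ij (f'.injective (by rw [← v, a, v])),
    fun y => by
      obtain ⟨x, a⟩ := (key (f'.symm (k y))).2 (by rw [f'.apply_symm_apply]; exact ⟨y, rfl⟩)
      exact ⟨x, ik (by rw [v, a, f'.apply_symm_apply])⟩⟩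
  replace v : ∀ x, f' (j x) = k (f x) := fun x => (v x).symm
  refine ⟨f, h'.liso.of_comp_left ik ((funext v : f' ∘ j = k ∘ f) ▸ hf.comp h.liso), ?_⟩
  rw [← and_assoc, ← and_assoc]
  refine ⟨?_, v⟩
  rw [and_assoc]
  have no : ∀ {α β : Type} {j : α → β} {u : β} {x y z : α}, u ∉ range j →
      s(j x, j y) ≠ s(j z, u) := fun a b => by
    rcases Sym2.eq_iff.1 b with b | b
    exacts [a ⟨_, b.2⟩, a ⟨_, b.1⟩]
  have eq : ∀ {α β : Type} {j : α → β} {u u' : β} {x z : α}, Injective j → u ∉ range j →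
      s(j x, u') = s(j z, u) → x = z := fun i a b => by
    rcases Sym2.eq_iff.1 b with b | b
    exacts [i b.1, (a ⟨_, b.1⟩).elim]
  rcases h.alt with ⟨a1, a2, a3⟩ | ⟨a1, a2, u, a3, ⟨n, a4, a5, a6, a7⟩ | ⟨c', u', a4, a5, a6, a7⟩⟩ <;>
  rcases h'.alt with ⟨b1, b2, b3⟩ | ⟨b1, b2, w, b3, ⟨m, b4, b5, b6, b7⟩ | ⟨d', w', b4, b5, b6, b7⟩⟩
  · exact ⟨fun x y => by rw [← a2, ← b2, e, v, v], fun n => ik (by
      rw [← v]; exact (congrArg f' (a3 (some n)).symm).trans ((hp _).trans (b3 _))),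
      .inl (ik (by rw [← v]; exact (congrArg f' (a3 none).symm).trans ((hp _).trans (b3 _))))⟩
  · exact (b2 (hc.1 a1 _)).elim
  · exact (b2 (hc.1 a1 _)).elim
  · exact (a2 (hc.2 b1 _)).elim
  · obtain rfl : n = m := by_contra fun a => a5 ((key _).2 ⟨_, (b6 n a).symm.trans (hp _).symm⟩)
    have cd : f c = d := by
      have := (e _ _).1 ((a7 _ _).2 (.inr rfl))
      rw [v, b7] at this
      rcases this with ⟨x, y, -, -, a⟩ | a
      exacts [(a3 ((key _).2 ⟨_, a.symm⟩)).elim, eq ik b3 a]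
    refine ⟨fun x y => ?_, fun i => ?_, .inl cd⟩
    · have := e (j x) (j y)
      rw [v, v, a7, b7] at this
      simpa only [no a3, no b3, or_false, ij.eq_iff, ik.eq_iff, exists_eq_right_right',
        exists_eq_right'] using this
    · by_cases a : i = n
      · rw [a, a4, b4, cd]
      · exact ik (by rw [← v, ← a6 i a, hp, b6 i a])
  · exact (a5 ((key _).2 ⟨_, (b6 n).symm.trans (hp _).symm⟩)).elim
  · exact (a2 (hc.2 b1 _)).elim
  · exact (b5 (hp _ ▸ (key _).1 ⟨_, (a6 m).symm⟩)).elim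
  · have s : ∀ {x : X} {y : X'}, y ∉ range j → Jn N' (j x) y → f x = d ∨ f x = d' := fun a b => by
      have := (e _ _).1 b
      rw [v, b7] at this
      rcases this with ⟨x, y, -, -, -, b⟩ | b | b
      exacts [(a ((key _).2 ⟨_, b.symm⟩)).elim, .inl (eq ik b3 b), .inr (eq ik b4 b)]
    have s1 := s a3 ((a7 _ _).2 (.inr (.inl rfl)))
    have s2 := s a4 ((a7 _ _).2 (.inr (.inr rfl)))
    have ne : f c ≠ f c' := f.injective.ne (a5.ne h.nd)
    have s3 : s(f c, f c') = s(d, d') := by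
      rcases s1 with a | a <;> rcases s2 with b | b
      exacts [(ne (a.trans b.symm)).elim, by rw [a, b], by rw [a, b, Sym2.eq_swap],
        (ne (a.trans b.symm)).elim]
    have jn : ∀ {α : Type} {N : Finset (α × α)} {x y c c' : α}, Jn N c c' → s(x, y) = s(c, c') →
        Jn N x y := fun a b => by
      rcases Sym2.eq_iff.1 b with ⟨rfl, rfl⟩ | ⟨rfl, rfl⟩
      exacts [a, Or.symm a]
    refine ⟨fun x y => ?_, fun i => ik (by rw [← v, ← a6, hp, b6]),
      s1.imp_right fun a : f c = d' => a ▸ b5.symm⟩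
    by_cases a : s(x, y) = s(c, c')
    · exact iff_of_true (jn a5 a) (jn b5 (((sym_congrC f ..).1 a).trans s3))
    · have b : s(f x, f y) ≠ s(d, d') := fun b => a ((sym_congrC f ..).2 (b.trans s3.symm))
      have := e (j x) (j y)
      rw [v, v, a7, b7] at this
      simp only [no a3, no a4, no b3, no b4, or_false, ij.eq_iff, ik.eq_iff] at this
      exact ⟨fun i => let ⟨_, _, i, _, i1, i2⟩ := this.1 ⟨x, y, i, a, rfl, rfl⟩; i1 ▸ i2 ▸ i,
        fun i => let ⟨_, _, i, _, i1, i2⟩ := this.2 ⟨_, _, i, b, rfl, rfl⟩; i1 ▸ i2 ▸ i⟩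

theorem Ctr.ext (h : Ctr R R' N N' p p' c j r) {f g : X' ≃ Y'} (hf : LIso R' S' f) (hg : LIso R' S' g)
    (hM : Nd M') (e : ∀ x y, Jn N' x y → Jn M' (f x) (f y)) (e' : ∀ x y, Jn N' x y → Jn M' (g x) (g y))
    (hp : ∀ n, f (p' n) = g (p' n)) (hj : ∀ x, f (j x) = g (j x)) : f = g := by
  refine Equiv.ext fun y => ?_
  by_cases a : y ∈ range j
  · obtain ⟨x, rfl⟩ := a
    exact hj x
  have s : ∀ {x : X} {y : X'}, Jn N' (j x) y → f y = g y := fun b =>
    (e _ _ b).unique hM (hj _ ▸ e' _ _ b)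
  rcases h.alt with ⟨a1, -⟩ | ⟨a1, a2, u, a3, ⟨n, -, a5, -, a7⟩ | ⟨c', u', a4, a5, -, a7⟩⟩
  · exact (a (a1 y)).elim
  · have ja : Jn N' (j c) u := (a7 _ _).2 (.inr rfl)
    exact a1.eqOn hf hg f.injective.injOn g.injective.injOn a2 a5 a3
      (h.inj'.ne (Option.some_ne_none _).symm) (ne_of_jnC (h.sm' _) ja) (ne_of_jnC (h.sm' _) ja)
      (hp _) (hp _) (s ja) a
  · have ja : Jn N' (j c) u := (a7 _ _).2 (.inr (.inl rfl))
    have ja' : Jn N' (j c') u' := (a7 _ _).2 (.inr (.inr rfl))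
    exact a1.eqOn hf hg f.injective.injOn g.injective.injOn a2 a3 a4 (ne_of_jnC (h.sm' _) ja)
      (ne_of_jnC (h.sm' _) ja') (h.bridge_neC a5 ja ja') (hp _) (s ja) (s ja') a

end Vale.Agent.P269.Cv
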