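import Vale.Agent.P269.Pt.Uniq
import Vale.Agent.P269.Cv.Rat

/-!
# Contraction of a rational bubble: definitions
-/

set_option linter.unusedSectionVars false

namespace Vale.Agent.P269.Cv

open Set Function Topology Filter Module Classical

variable {X X' : Type} [TopologicalSpace X] [TopologicalSpace X'] [T2Space X] [CompactSpace X]
  [T2Space X'] [CompactSpace X'] {ν : Type} [Fintype ν]

/-- the nodal curve is connected -/
def Conn (N : Finset (X × X)) : Prop :=
  Nonempty X ∧ ∀ U : Set X, IsClopen U → (∀ n ∈ N, n.1 ∈ U ↔ n.2 ∈ U) → U = ∅ ∨ U = univ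

/-- `(X', N', p')` arises from `(X, N, p)` by marking the point `c` and stabilising: nothing happens,
or a rational tail is attached at a marked point, or a rational bridge is inserted at a node. -/
structure Ctr (R : RS X) (R' : RS X') (N : Finset (X × X)) (N' : Finset (X' × X')) (p : ν → X)
    (p' : Option ν → X') (c : X) (j : X → X') (r : X' → X) : Prop where
  liso : LIso R R' j
  left : LeftInverse r j
  out : ∀ y ∉ range j, r y = c
  nd : Nd N
  nd' : Nd N'
  sm : ∀ n, Sm N (p n)
  inj : Injective p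
  sm' : ∀ n, Sm N' (p' n)
  inj' : Injective p'
  alt : (Surjective j ∧ (∀ a b, Jn N' (j a) (j b) ↔ Jn N a b) ∧ ∀ n, p' n = j (n.elim c p)) ∨
    IsRat R' (range j)ᶜ ∧ p' none ∉ range j ∧ ∃ e ∉ range j,
      (∃ n, p n = c ∧ p' (some n) ∉ range j ∧ (∀ m ≠ n, p' (some m) = j (p m)) ∧ ∀ a b, Jn N' a b ↔
        (∃ x y, Jn N x y ∧ a = j x ∧ b = j y) ∨ s(a, b) = s(j c, e)) ∨
      ∃ c', ∃ e' ∉ range j, Jn N c c' ∧ (∀ m, p' (some m) = j (p m)) ∧ ∀ a b, Jn N' a b ↔
        (∃ x y, Jn N x y ∧ s(x, y) ≠ s(c, c') ∧ a = j x ∧ b = j y) ∨ s(a, b) = s(j c, e) ∨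
          s(a, b) = s(j c', e')

variable {R : RS X} {R' : RS X'} {N : Finset (X × X)} {N' : Finset (X' × X')} {p : ν → X}
  {p' : Option ν → X'} {c : X} {j : X → X'} {r : X' → X} {L : LB R} {L' : LB R'}

namespace Ctr

/-- pull-back along the contraction `r` -/
noncomputable def up (h : Ctr R R' N N' p p' c j r) : LB R →* LB R' where
  toFun L := ⟨fun x y => L.φ (r x) (r y), fun _ => L.self _, fun _ _ => L.ne _ _, fun x => by
    by_cases a : x ∈ range j
    · obtain ⟨x, rfl⟩ := a
      rw [← h.liso.map_nhds, eventually_map]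
      exact (L.hol x).mono fun y a => h.liso.hol_iff.1 (by simpa only [h.left _] using a)
    · have b := h.liso.isClopen_range.compl.isOpen
      exact Eventually.mono (b.mem_nhds a) fun y d => (RS.hol_const 1).congr
        (Eventually.mono (b.mem_nhds d) fun z e => by simp [h.out _ a, h.out _ d, h.out _ e, L.self])⟩
  map_one' := rfl
  map_mul' _ _ := rfl

@[simp] theorem up_φ (h : Ctr R R' N N' p p' c j r) (x y : X') :
    (h.up L).φ x y = L.φ (r x) (r y) := rfl

theorem pb_up (h : Ctr R R' N N' p p' c j r) : h.liso.pb (h.up L) = L :=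
  LB.ext (funext₂ fun x y => by rw [LIso.pb_φ, up_φ, h.left, h.left])

end Ctr

/-- the component of the point `p' none` is a connected component of type `(0, 3)` or `(1, 1)` -/
def Unst (N' : Finset (X' × X')) (p' : Option ν → X') (L' : LB R') : Prop :=
  (∀ y ∈ connectedComponent (p' none), ∀ z, Jn N' y z → z ∈ connectedComponent (p' none)) ∧
    degOn L' (connectedComponent (p' none)) = 0 ∧
    degOn (omega R' N' (Finset.univ.image p')) (connectedComponent (p' none)) = 1

end Vale.Agent.P269.Cv
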