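import Vale.Agent.P269.Cv.Defs
import Vale.Agent.P269.Base.Defs

/-!
# The dictionary between a parametrised nodal curve and its multicone
-/

set_option linter.unusedSectionVars false

namespace Vale.Agent.P269.Cv

open Set Function Topology Filter Module

variable {X : Type} [TopologicalSpace X] [T2Space X] [CompactSpace X] {R : RS X}
  {ι : Type} [Fintype ι] {M : ι → ℕ} {o : ι} {C : Set (V M)} {N : Finset (X × X)} {A : ι → LB R}
  {π : X → V M}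

theorem IsNodal.nod (h : IsNodal o C) : Base.Nod o C := ⟨h.ne_zero, h.closed, h.cone, h.nodal⟩

theorem _root_.Vale.Agent.P269.Base.Nod.isNodal (h : Base.Nod o C) : IsNodal o C :=
  ⟨h.ne_zero, h.closed, h.cone, h.nodal⟩

/-! ### The torus action -/

namespace Dict

theorem smul_ap (t : ι → ℂ) (c : V M) (i : ι) : (t • c) i = t i • c i := rfl

theorem eq_smul_of_minor {n : Type} {a b : n → ℂ} {j : n} (ha : a j ≠ 0)
    (h : ∀ k, b k * a j = a k * b j) : b = (b j / a j) • a := by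
  funext k
  rw [Pi.smul_apply, smul_eq_mul, div_mul_eq_mul_div, eq_div_iff ha, h, mul_comm]

theorem unit_of_ne {t : ι → ℂ} {c : V M} (h : ∀ i, (t • c) i ≠ 0) (i : ι) : t i ≠ 0 :=
  left_ne_zero_of_smul (h i)

theorem inv_smul {t : ι → ℂ} (ht : ∀ i, t i ≠ 0) (c : V M) : t⁻¹ • t • c = c := by
  funext i
  exact inv_smul_smul₀ (ht i) (c i)

theorem smul_inv {t : ι → ℂ} (ht : ∀ i, t i ≠ 0) (c : V M) : t • t⁻¹ • c = c := by
  funext i
  exact smul_inv_smul₀ (ht i) (c i)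

theorem smul_cancel {s t : ι → ℂ} {c : V M} (hc : ∀ i, c i ≠ 0) (h : s • c = t • c) : s = t :=
  funext fun i => smul_left_injective ℂ (hc i) (congrFun h i)

theorem an_smul {E : Type} [NormedAddCommGroup E] [NormedSpace ℂ E] {s : E → ι → ℂ} {γ : E → V M}
    {z : E} (hs : AnalyticAt ℂ s z) (hγ : AnalyticAt ℂ γ z) :
    AnalyticAt ℂ (fun w => s w • γ w) z :=
  analyticAt_pi_iff.2 fun i => (analyticAt_pi_iff.1 hs i).smul (analyticAt_pi_iff.1 hγ i)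

theorem deriv_smul {s : ℂ → ι → ℂ} {γ : ℂ → V M} {z : ℂ} (hs : AnalyticAt ℂ s z)
    (hγ : AnalyticAt ℂ γ z) (i : ι) :
    deriv (fun w => s w • γ w) z i = s z i • deriv γ z i + deriv s z i • γ z i :=
  (hasDerivAt_pi.1 (an_smul hs hγ).differentiableAt.hasDerivAt i).unique
    ((hasDerivAt_pi.1 hs.differentiableAt.hasDerivAt i).smul
      (hasDerivAt_pi.1 hγ.differentiableAt.hasDerivAt i))

theorem deriv_const_smul (t : ι → ℂ) {γ : ℂ → V M} {z : ℂ} (hγ : AnalyticAt ℂ γ z) (i : ι) :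
    deriv (fun w => t • γ w) z i = t i • deriv γ z i := by
  rw [deriv_smul analyticAt_const hγ]
  simp

theorem li_smul {n : Type} {W : Type} [AddCommGroup W] [Module ℂ W] {v w : n → W} {a : ℂ}
    (ha : a ≠ 0) (h : LinearIndependent ℂ v) (e : ∀ k, w k = a • v k) : LinearIndependent ℂ w :=
  funext e ▸ h.units_smul fun _ => Units.mk0 a ha

theorem val_smul {a : ι → ℕ} (μ : Tens M a) (t : ι → ℂ) (c : V M) :
    val μ (t • c) = (∏ i, t i ^ a i) * val μ c := by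
  have h := μ.map_smul_univ (fun s => t s.1) fun s => c s.1
  rw [Fintype.prod_sigma] at h
  exact h.trans (by simp [val])

theorem an_val {a : ι → ℕ} (μ : Tens M a) (c : V M) : AnalyticAt ℂ (val μ) c :=
  (μ.analyticAt).comp (f := fun c : V M => fun s : Σ i, Fin (a i) => c s.1)
    (analyticAt_pi_iff.2 fun s => analyticAt_pi_iff.1 analyticAt_id s.1)

/-- an analytic retraction onto the orbits of an immersed disc -/
theorem exists_retr {γ : ℂ → V M} (hγ : AnalyticAt ℂ γ 0) (hne : ∀ i, γ 0 i ≠ 0)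
    (hi : LinearIndependent ℂ ![γ 0 o, deriv γ 0 o]) : ∃ (S : V M → ι → ℂ) (Z : V M → ℂ),
    (∀ t : ι → ℂ, (∀ i, t i ≠ 0) → AnalyticAt ℂ S (t • γ 0) ∧ AnalyticAt ℂ Z (t • γ 0)) ∧
      ∀ᶠ z in 𝓝 0, ∀ s : ι → ℂ, (∀ i, s i ≠ 0) → Z (s • γ z) = z ∧ S (s • γ z) = s := by
  choose j hj using fun i => Function.ne_iff.1 (hne i)
  replace hj : ∀ i, γ 0 i (j i) ≠ 0 := hj
  have ha : ∀ i k (c : V M), AnalyticAt ℂ (fun w : V M => w i k) c := fun i k c =>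
    analyticAt_pi_iff (f := fun k (w : V M) => w i k).1
      (analyticAt_pi_iff (f := fun i (w : V M) => w i).1 analyticAt_id i) k
  have hd : ∀ k, HasDerivAt (fun z => γ z o k) (deriv γ 0 o k) 0 := fun k =>
    hasDerivAt_pi.1 (hasDerivAt_pi.1 hγ.differentiableAt.hasDerivAt o) k
  obtain ⟨k, hk⟩ : ∃ k, deriv γ 0 o k * γ 0 o (j o) ≠ γ 0 o k * deriv γ 0 o (j o) := by
    by_contra! h
    have h1 := (LinearIndependent.pair_iff' (hne o)).1 hi
    exact h1 _ (eq_smul_of_minor (hj o) h).symm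
  have hu : AnalyticAt ℂ (fun z => γ z o k / γ z o (j o)) 0 :=
    ((ha o k _).comp hγ).div ((ha o _ _).comp hγ) (hj o)
  obtain ⟨g, hg, hl⟩ := Holo.exists_leftInv hu (by
    rw [injective_iff_map_eq_zero]
    intro v hv
    rw [fderiv_eq_smul_deriv, ((hd k).fun_div (hd _) (hj o)).deriv] at hv
    exact (smul_eq_zero.1 hv).resolve_right
      (div_ne_zero (sub_ne_zero.2 hk) (pow_ne_zero _ (hj o))))
  have hz : ∀ (s : ι → ℂ) (c : V M), s o ≠ 0 →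
      (s • c) o k / (s • c) o (j o) = c o k / c o (j o) := fun s c hs =>
    mul_div_mul_left _ _ hs
  have hZ : ∀ t : ι → ℂ, (∀ i, t i ≠ 0) →
      AnalyticAt ℂ (fun w : V M => g (w o k / w o (j o))) (t • γ 0) := fun t ht =>
    hg.comp_of_eq ((ha o k _).div (ha o _ _) (mul_ne_zero (ht o) (hj o))) (hz t _ (ht o))
  refine ⟨fun w i => w i (j i) / γ (g (w o k / w o (j o))) i (j i),
    fun w => g (w o k / w o (j o)), fun t ht => ⟨analyticAt_pi_iff.2 fun i => ?_, hZ t ht⟩, ?_⟩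
  · have h0 : g ((t • γ 0) o k / (t • γ 0) o (j o)) = 0 := by
      rw [hz t _ (ht o)]
      exact hl.self_of_nhds
    exact (ha i _ _).div ((ha i _ _).comp (hγ.comp_of_eq (hZ t ht) h0)) (h0.symm ▸ hj i)
  · have h1 : ∀ᶠ z in 𝓝 0, ∀ i, γ z i (j i) ≠ 0 := eventually_all.2 fun i =>
      ((ha i _ _).comp hγ).continuousAt.eventually_ne (hj i)
    filter_upwards [hl, h1] with z h2 h3 s hs
    rw [hz s _ (hs o), h2]
    exact ⟨rfl, funext fun i => mul_div_cancel_right₀ _ (h3 i)⟩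

end Dict

open Dict

theorem _root_.Vale.Agent.P269.IsBranch.const_smul {γ : ℂ → V M} (h : IsBranch o C γ)
    (hC : ∀ t : ι → ℂ, (∀ i, t i ≠ 0) → ∀ c ∈ C, t • c ∈ C) {t : ι → ℂ} (ht : ∀ i, t i ≠ 0) :
    IsBranch o C fun z => t • γ z := by
  refine ⟨an_smul analyticAt_const h.holo, h.mem.mono fun z => hC t ht _, ?_⟩
  refine li_smul (ht o) h.imm fun k => ?_
  fin_cases k
  · rfl
  · exact deriv_const_smul t h.holo o

theorem _root_.Vale.Agent.P269.IsCross.const_smul {c : V M} {γ₁ γ₂ : ℂ → V M}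
    (h : IsCross o C c γ₁ γ₂) (hC : ∀ t : ι → ℂ, (∀ i, t i ≠ 0) → ∀ c ∈ C, t • c ∈ C) {t : ι → ℂ}
    (ht : ∀ i, t i ≠ 0) : IsCross o C (t • c) (fun z => t • γ₁ z) fun z => t • γ₂ z := by
  obtain ⟨h1, h2, h3, h4, h5⟩ := h
  refine ⟨h1.const_smul hC ht, h2.const_smul hC ht, congrArg _ h3, congrArg _ h4, ?_⟩
  refine li_smul (ht o) h5 fun k => ?_
  fin_cases k
  · rfl
  · exact deriv_const_smul t h1.holo o
  · exact deriv_const_smul t h2.holo o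

/-! ### Branches -/

theorem br_zero (x : X) : br A π x 0 = π x := funext₂ fun _ _ => LB.loc_zero

theorem br_eq (x : X) (t : ℂ) :
    br A π x t = (fun i => ((A i).φ x (R.i x t))⁻¹) • π (R.i x t) :=
  funext₂ fun _ _ => div_eq_inv_mul _ _

theorem br_e {x y : X} (h : y ∈ (R.e x).source) :
    π y = (fun i => (A i).φ x y) • br A π x (R.e x y) := by
  rw [br_eq, R.i_e h]
  exact (smul_inv (fun i => (A i).ne x y) _).symm

theorem an_br (h : ∀ i j, (fun x => π x i j) ∈ H0 N (A i)) (x : X) : AnalyticAt ℂ (br A π x) 0 :=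
  analyticAt_pi_iff.2 fun i => analyticAt_pi_iff.2 fun j => (h i j).1 x

theorem tends_br (h : ∀ i j, (fun x => π x i j) ∈ H0 N (A i)) (x : X) :
    Tendsto (fun y => br A π x (R.e x y)) (𝓝 x) (𝓝 (π x)) := by
  have := (an_br h x).continuousAt.tendsto.comp (R.tends_e x)
  rwa [br_zero] at this

theorem node_eq (h : ∀ i j, (fun x => π x i j) ∈ H0 N (A i)) {n : X × X} (hn : n ∈ N) :
    π n.1 = π n.2 := funext₂ fun i j => (h i j).2 n hn

theorem bz_φ (a : ι → ℤ) (x y : X) : (bz A a).φ x y = ∏ i, (A i).φ x y ^ a i := by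
  simp only [bz, LB.prod_φ, LB.zpow_φ]

theorem val_mem (h : ∀ i j, (fun x => π x i j) ∈ H0 N (A i)) {a : ι → ℕ} (μ : Tens M a) :
    (fun x => val μ (π x)) ∈ H0 N (bz A fun i => a i) := by
  refine ⟨fun x => ((an_val μ _).comp (an_br h x)).congr (.of_forall fun t => ?_),
    fun n hn => congrArg (val μ) (node_eq h hn)⟩
  simp only [comp, br_eq, val_smul, LB.loc, bz_φ, zpow_natCast, inv_pow, Finset.prod_inv_distrib,
    div_eq_inv_mul]

namespace Par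

variable (h : Par o C N A π)
include h

theorem smul_mem (x : X) {t : ι → ℂ} (ht : ∀ i, t i ≠ 0) : t • π x ∈ C :=
  (h.img _).2 ⟨x, t, ht, rfl⟩

theorem mem (x : X) : π x ∈ C := (h.img _).2 ⟨x, 1, fun _ => one_ne_zero, (one_smul _ _).symm⟩

theorem br_mem (x : X) (z : ℂ) : br A π x z ∈ C := by
  rw [br_eq]
  exact h.smul_mem _ fun i => inv_ne_zero ((A i).ne _ _)

theorem ne_zero : ∀ c ∈ C, ∀ i, c i ≠ 0 := fun c hc i => by
  obtain ⟨x, t, ht, rfl⟩ := (h.img c).1 hc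
  exact smul_ne_zero (ht i) (h.ne x i)

theorem cone : ∀ t : ι → ℂ, (∀ i, t i ≠ 0) → ∀ c ∈ C, t • c ∈ C := fun t ht c hc => by
  obtain ⟨x, s, hs, rfl⟩ := (h.img c).1 hc
  rw [smul_smul]
  exact h.smul_mem x fun i => mul_ne_zero (ht i) (hs i)

theorem isBranch (x : X) : IsBranch o C (br A π x) :=
  ⟨an_br h.sec x, .of_forall (h.br_mem x), by rw [br_zero]; exact h.imm x⟩

theorem isCross {n : X × X} (hn : n ∈ N) : IsCross o C (π n.1) (br A π n.1) (br A π n.2) :=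
  ⟨h.isBranch _, h.isBranch _, br_zero _, (br_zero _).trans (node_eq h.sec hn).symm, h.cross n hn⟩

/-- the points over `c'` are close to the points over `c` -/
theorem near {c : V M} {p : X → Prop}
    (hp : ∀ y, ∀ s : ι → ℂ, c = s • π y → ∀ᶠ y' in 𝓝 y, p y') :
    ∀ᶠ c' in 𝓝 c, ∀ y, ∀ s : ι → ℂ, c' = s • π y → p y := by
  have hK : IsCompact (interior {y | p y})ᶜ := isOpen_interior.isClosed_compl.isCompact
  refine (hK.eventually_forall_of_forall_eventually (x₀ := c)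
    (P := fun c' y => ∀ s : ι → ℂ, c' ≠ s • π y) fun y hy => ?_).mono fun c' hc' y s e =>
      interior_subset (s := {y | p y}) (by_contra fun hy => hc' y hy s e)
  choose j hj using fun i => Function.ne_iff.1 (h.ne y i)
  obtain ⟨i, k, hk⟩ : ∃ i k, c i k * π y i (j i) ≠ π y i k * c i (j i) := by
    by_contra! h1
    exact hy (mem_interior_iff_mem_nhds.2
      (hp y (fun i => c i (j i) / π y i (j i)) (funext fun i => eq_smul_of_minor (hj i) (h1 i))))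
  have h1 : Tendsto (fun z : V M × X => (z.1, br A π y (R.e y z.2))) (𝓝 (c, y)) (𝓝 (c, π y)) :=
    continuous_fst.continuousAt.prodMk_nhds ((tends_br h.sec y).comp continuous_snd.continuousAt)
  have h2 : ∀ᶠ q : V M × V M in 𝓝 (c, π y), q.1 i k * q.2 i (j i) ≠ q.2 i k * q.1 i (j i) :=
    (isClosed_eq (by fun_prop) (by fun_prop)).isOpen_compl.mem_nhds hk
  filter_upwards [h1.eventually h2, continuous_snd.continuousAt.eventually (R.src_nhds y)]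
    with z h3 h4 s e
  refine h3 ?_
  simp only [e, br_e (A := A) h4, smul_ap, Pi.smul_apply, smul_eq_mul]
  ring

theorem closed : ∀ c ∈ closure C, (∀ i, c i ≠ 0) → c ∈ C := fun c hc hne => by
  by_contra h0
  obtain ⟨c', h1, h2⟩ := (mem_closure_iff_frequently.1 hc).and_eventually
    (h.near (p := fun _ => False) fun y s e =>
      absurd ((h.img c).2 ⟨y, s, unit_of_ne (e ▸ hne), e⟩) h0) |>.exists
  obtain ⟨y, s, -, e⟩ := (h.img c').1 h1
  exact h2 y s e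

/-- the points over the orbit of `π x` -/
theorem fibre {x y : X} {s t : ι → ℂ} (ht : ∀ i, t i ≠ 0) (e : t • π x = s • π y) :
    x = y ∨ (x, y) ∈ N ∨ (y, x) ∈ N :=
  h.inj x y (s⁻¹ * t) (by
    rw [mul_smul, e, inv_smul (unit_of_ne (e ▸ h.ne_zero _ (h.smul_mem x ht)))])

theorem partner (x : X) : ∃ x', (Sm N x ∧ x' = x ∨ (x, x') ∈ N ∨ (x', x) ∈ N) ∧
    ∀ y, x = y ∨ (x, y) ∈ N ∨ (y, x) ∈ N → y = x ∨ y = x' := by
  by_cases h1 : ∃ x', (x, x') ∈ N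
  · obtain ⟨x', h1⟩ := h1
    refine ⟨x', .inr (.inl h1), ?_⟩
    rintro y (rfl | h2 | h2)
    exacts [.inl rfl, .inr (congrArg Prod.snd (h.nd.inj1 h2 h1 rfl)),
      absurd rfl (h.nd.ne _ h1 _ h2)]
  by_cases h2 : ∃ x', (x', x) ∈ N
  · obtain ⟨x', h2⟩ := h2
    refine ⟨x', .inr (.inr h2), ?_⟩
    rintro y (rfl | h3 | h3)
    exacts [.inl rfl, absurd ⟨y, h3⟩ h1, .inr (congrArg Prod.fst (h.nd.inj2 h3 h2 rfl))]
  refine ⟨x, .inl ⟨fun n hn => ⟨fun e => h1 ⟨n.2, e ▸ hn⟩, fun e => h2 ⟨n.1, e ▸ hn⟩⟩, rfl⟩, ?_⟩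
  rintro y (rfl | h3 | h3)
  exacts [.inl rfl, absurd ⟨y, h3⟩ h1, absurd ⟨y, h3⟩ h2]

theorem eq_of_rel {x y : X} (e : x = y ∨ (x, y) ∈ N ∨ (y, x) ∈ N) {L : LB R} {s : X → ℂ}
    (hs : s ∈ H0 N L) : s x = s y := by
  rcases e with rfl | e | e
  exacts [rfl, hs.2 _ e, (hs.2 _ e).symm]

theorem π_eq {x y : X} (e : x = y ∨ (x, y) ∈ N ∨ (y, x) ∈ N) : π x = π y :=
  funext₂ fun i j => h.eq_of_rel e (h.sec i j)

/-- the local description of `C` -/
theorem loc {x x' : X} (hx : ∀ y, x = y ∨ (x, y) ∈ N ∨ (y, x) ∈ N → y = x ∨ y = x') {t : ι → ℂ}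
    (ht : ∀ i, t i ≠ 0) {p : ℂ → Prop} (hp : ∀ᶠ z in 𝓝 0, p z) : ∀ᶠ c in 𝓝 (t • π x), c ∈ C →
      ∃ (s : ι → ℂ) (z : ℂ), (∀ i, s i ≠ 0) ∧ p z ∧ (c = s • br A π x z ∨ c = s • br A π x' z) := by
  have h1 : ∀ y, ∀ᶠ y' in 𝓝 y, y' ∈ (R.e y).source ∧ p (R.e y y') := fun y =>
    (R.src_nhds y).and ((R.tends_e y).eventually hp)
  refine (h.near (p := fun y' => ∃ y, (y = x ∨ y = x') ∧
    y' ∈ (R.e y).source ∧ p (R.e y y')) fun y s e =>
      (h1 y).mono fun y' hy => ⟨y, hx y (h.fibre ht e), hy⟩).mono fun c h2 hc => ?_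
  obtain ⟨y', s, hs, e⟩ := (h.img c).1 hc
  obtain ⟨y, h3, h4, h5⟩ := h2 y' s e
  rw [br_e (A := A) (π := π) h4, smul_smul] at e
  refine ⟨_, _, fun i => mul_ne_zero (hs i) ((A i).ne y y'), h5, ?_⟩
  rcases h3 with rfl | rfl
  exacts [.inl e, .inr e]

theorem isNodal : IsNodal o C := by
  refine ⟨h.ne_zero, h.closed, h.cone, fun c hc => ?_⟩
  obtain ⟨x, t, ht, rfl⟩ := (h.img c).1 hc
  obtain ⟨x', h1, h2⟩ := h.partner x
  have key : ∀ ε > 0, ∀ᶠ y in 𝓝[C] (t • π x), ∃ (s : ι → ℂ) (z : ℂ), ‖z‖ < ε ∧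
      (y = s • t • br A π x z ∨ y = s • t • br A π x' z) := fun ε hε =>
    eventually_nhdsWithin_iff.2 ((h.loc h2 ht (p := fun z => ‖z‖ < ε)
      (continuous_norm.continuousAt.eventually_lt continuousAt_const (by simpa using hε))).mono
      fun y hy hC => by
        obtain ⟨s, z, -, h3, h4⟩ := hy hC
        exact ⟨s * t⁻¹, z, h3, by simpa only [mul_smul, inv_smul ht] using h4⟩)
  rcases h1 with ⟨-, rfl⟩ | h1 | h1
  · exact ⟨_, _, .inl ⟨(h.isBranch x').const_smul h.cone ht, congrArg _ (br_zero x'), rfl⟩, key⟩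
  · exact ⟨_, _, .inr ((h.isCross h1).const_smul h.cone ht), key⟩
  · refine ⟨_, _, .inr (node_eq h.sec h1 ▸ (h.isCross h1).const_smul h.cone ht), fun ε hε => ?_⟩
    exact (key ε hε).mono fun y ⟨s, z, h3, h4⟩ => ⟨s, z, h3, h4.symm⟩

/-- analytic coordinates on the branches -/
theorem retr : ∃ (S : X → V M → ι → ℂ) (Z : X → V M → ℂ),
    (∀ x (t : ι → ℂ), (∀ i, t i ≠ 0) → AnalyticAt ℂ (S x) (t • π x) ∧
      AnalyticAt ℂ (Z x) (t • π x) ∧ S x (t • π x) = t ∧ Z x (t • π x) = 0) ∧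
    ∀ x (t : ι → ℂ), (∀ i, t i ≠ 0) → ∃ x', (x = x' ∨ (x, x') ∈ N ∨ (x', x) ∈ N) ∧
      ∀ᶠ c in 𝓝 (t • π x), c ∈ C →
        c = S x c • br A π x (Z x c) ∨ c = S x' c • br A π x' (Z x' c) := by
  choose S Z h1 h2 using fun x => exists_retr (o := o) (an_br h.sec x)
    (by rw [br_zero]; exact h.ne x) (h.isBranch x).imm
  refine ⟨S, Z, fun x t ht => ?_, fun x t ht => ?_⟩
  · have h3 := h1 x t ht
    have h4 := (h2 x).self_of_nhds t ht
    rw [br_zero] at h3 h4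
    exact ⟨h3.1, h3.2, h4.2, h4.1⟩
  · obtain ⟨x', h3, h4⟩ := h.partner x
    refine ⟨x', h3.imp_left fun e => e.2.symm,
      (h.loc h4 ht ((h2 x).and (h2 x'))).mono fun c h5 hc => ?_⟩
    obtain ⟨s, z, hs, h6, h7⟩ := h5 hc
    refine h7.imp (fun e => ?_) fun e => ?_
    · rw [e, (h6.1 s hs).1, (h6.1 s hs).2]
    · rw [e, (h6.2 s hs).1, (h6.2 s hs).2]

theorem factor {γ : ℂ → V M} (hγ : AnalyticAt ℂ γ 0)
    (hC : ∀ᶠ t in 𝓝 0, γ t ∈ C) : ∃ (x : X) (s : ℂ → ι → ℂ) (φ : ℂ → ℂ), AnalyticAt ℂ s 0 ∧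
      (∀ i, s 0 i ≠ 0) ∧ AnalyticAt ℂ φ 0 ∧ φ 0 = 0 ∧ ∀ᶠ t in 𝓝 0, γ t = s t • br A π x (φ t) := by
  obtain ⟨S, Z, h1, h2⟩ := h.retr
  obtain ⟨x, t, ht, e⟩ := (h.img _).1 hC.self_of_nhds
  obtain ⟨x', h3, h4⟩ := h2 x t ht
  have key : ∀ y, π x = π y → (∃ᶠ z in 𝓝[≠] 0, γ z = S y (γ z) • br A π y (Z y (γ z))) →
      ∃ (x : X) (s : ℂ → ι → ℂ) (φ : ℂ → ℂ), AnalyticAt ℂ s 0 ∧ (∀ i, s 0 i ≠ 0) ∧
        AnalyticAt ℂ φ 0 ∧ φ 0 = 0 ∧ ∀ᶠ t in 𝓝 0, γ t = s t • br A π x (φ t) := fun y e' hf => by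
    have h5 := h1 y t ht
    rw [← e', ← e] at h5
    have h6 := h5.1.comp hγ
    have h7 := h5.2.1.comp hγ
    exact ⟨y, _, _, h6, fun i => (congrFun h5.2.2.1 i).trans_ne (ht i), h7, h5.2.2.2,
      (hγ.frequently_eq_iff_eventually_eq
        (an_smul h6 ((an_br h.sec y).comp_of_eq h7 h5.2.2.2))).1 hf⟩
  rw [← e] at h4
  have h5 := ((hγ.continuousAt.eventually h4).and hC).filter_mono (nhdsWithin_le_nhds (s := {0}ᶜ))
  exact (frequently_or_distrib.1 (h5.mono fun z hz => hz.1 hz.2).frequently).elim (key x rfl)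
    (key x' (h.π_eq h3))

theorem deriv_factor {γ : ℂ → V M} {x : X} {s : ℂ → ι → ℂ} {φ : ℂ → ℂ} (hs : AnalyticAt ℂ s 0)
    (hφ : AnalyticAt ℂ φ 0) (h0 : φ 0 = 0) (e : ∀ᶠ t in 𝓝 0, γ t = s t • br A π x (φ t)) (i : ι) :
    γ 0 = s 0 • π x ∧
      deriv γ 0 i = (s 0 i * deriv φ 0) • deriv (br A π x) 0 i + deriv s 0 i • π x i := by
  have h1 : HasDerivAt (br A π x) (deriv (br A π x) 0) (φ 0) :=
    h0.symm ▸ (an_br h.sec x).differentiableAt.hasDerivAt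
  refine ⟨by rw [e.self_of_nhds, h0, br_zero], ?_⟩
  refine (congrFun (EventuallyEq.deriv_eq e) i).trans
    ((Dict.deriv_smul hs ((an_br h.sec x).comp_of_eq hφ h0) i).trans ?_)
  rw [(h1.scomp 0 hφ.differentiableAt.hasDerivAt).deriv, comp, h0, br_zero, mul_smul]
  rfl

theorem factor_branch {γ : ℂ → V M} (hγ : IsBranch o C γ) :
    ∃ (x : X) (s : ℂ → ι → ℂ) (φ : ℂ → ℂ), AnalyticAt ℂ s 0 ∧ (∀ i, s 0 i ≠ 0) ∧
      AnalyticAt ℂ φ 0 ∧ φ 0 = 0 ∧ deriv φ 0 ≠ 0 ∧ ∀ᶠ t in 𝓝 0, γ t = s t • br A π x (φ t) := by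
  obtain ⟨x, s, φ, h1, h2, h3, h4, h5⟩ := h.factor hγ.holo hγ.mem
  refine ⟨x, s, φ, h1, h2, h3, h4, fun h6 => ?_, h5⟩
  obtain ⟨h7, h8⟩ := h.deriv_factor h1 h3 h4 h5 o
  refine (LinearIndependent.pair_iff' (h.ne_zero _ hγ.mem.self_of_nhds o)).1 hγ.imm
    (deriv s 0 o / s 0 o) ?_
  rw [h8, h6, h7, smul_ap, smul_smul, div_mul_cancel₀ _ (h2 o), mul_zero, zero_smul, zero_add]

theorem isNode_iff {x : X} {t : ι → ℂ} (ht : ∀ i, t i ≠ 0) :
    IsNode o C (t • π x) ↔ ¬Sm N x := by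
  constructor
  · rintro ⟨γ₁, γ₂, b1, b2, e1, e2, hi⟩ hx
    have key : ∀ γ, IsBranch o C γ → γ 0 = t • π x → ∃ α β : ℂ, β ≠ 0 ∧
        deriv γ 0 o = β • deriv (br A π x) 0 o + α • π x o := fun γ hγ e => by
      obtain ⟨y, s, φ, h1, h2, h3, h4, h5, h6⟩ := h.factor_branch hγ
      obtain ⟨h7, h8⟩ := h.deriv_factor h1 h3 h4 h6 o
      rcases h.fibre ht (e.symm.trans h7) with rfl | h9 | h9
      exacts [⟨_, _, mul_ne_zero (h2 o) h5, h8⟩, absurd rfl (hx _ h9).1, absurd rfl (hx _ h9).2]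
    obtain ⟨α, β, -, h1⟩ := key _ b1 e1
    obtain ⟨α', β', hβ, h2⟩ := key _ b2 e2
    refine hβ (Fintype.linearIndependent_iff.1 hi ![(β * α' - β' * α) / t o, β', -β] ?_ 1)
    simp only [Fin.sum_univ_three, Matrix.cons_val, h1, h2, smul_ap, smul_smul,
      div_mul_cancel₀ _ (ht o)]
    module
  · intro hx
    simp only [Sm, not_forall, not_and_or, not_not] at hx
    obtain ⟨n, hn, rfl | rfl⟩ := hx
    · exact ⟨_, _, (h.isCross hn).const_smul h.cone ht⟩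
    · exact ⟨_, _, node_eq h.sec hn ▸ (h.isCross hn).const_smul h.cone ht⟩

end Par

/-! ### Sections -/

/-- sections of `O(a)`, `a : ι → ℤ` -/
structure IsSecZ (o : ι) (C : Set (V M)) (a : ι → ℤ) (f : V M → ℂ) : Prop where
  cont : ContinuousOn f C
  hom : ∀ t : ι → ℂ, (∀ i, t i ≠ 0) → ∀ c ∈ C, f (t • c) = (∏ i, t i ^ a i) * f c
  holo : ∀ γ, IsBranch o C γ → AnalyticAt ℂ (f ∘ γ) 0

theorem isSecZ_iff {a : ι → ℕ} {f : V M → ℂ} : IsSecZ o C (fun i => a i) f ↔ IsSec o C a f :=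
  ⟨fun h => ⟨h.cont, by simpa only [zpow_natCast] using h.hom, h.holo⟩,
    fun h => ⟨h.cont, by simpa only [zpow_natCast] using h.hom, h.holo⟩⟩

namespace Par

variable (h : Par o C N A π)
include h

theorem loc_bz {a : ι → ℤ} {f : V M → ℂ} {s : X → ℂ}
    (hf : ∀ x (t : ι → ℂ), (∀ i, t i ≠ 0) → f (t • π x) = (∏ i, t i ^ a i) * s x) (x : X) (z : ℂ)
    {t : ι → ℂ} (ht : ∀ i, t i ≠ 0) :
    f (t • br A π x z) = (∏ i, t i ^ a i) * (bz A a).loc s x z := by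
  rw [br_eq, smul_smul, hf _ (t * _) fun i => mul_ne_zero (ht i) (inv_ne_zero ((A i).ne _ _))]
  simp only [Pi.mul_apply, mul_zpow, Finset.prod_mul_distrib, LB.loc, bz_φ, inv_zpow,
    Finset.prod_inv_distrib, div_eq_inv_mul, mul_assoc]

theorem mem_of_isSecZ {a : ι → ℤ} {f : V M → ℂ} (hf : IsSecZ o C a f) :
    (fun x => f (π x)) ∈ H0 N (bz A a) := by
  refine ⟨fun x => (hf.holo _ (h.isBranch x)).congr (.of_forall fun z => ?_),
    fun n hn => congrArg f (node_eq h.sec hn)⟩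
  simpa using h.loc_bz (fun x t ht => hf.hom t ht _ (h.mem x)) x z (t := 1) fun _ => one_ne_zero

theorem exists_isSecZ {a : ι → ℤ} {s : X → ℂ} (hs : s ∈ H0 N (bz A a)) :
    ∃ f, IsSecZ o C a f ∧ ∀ x, f (π x) = s x := by
  obtain ⟨f, hf⟩ : ∃ f : V M → ℂ, ∀ x (t : ι → ℂ), (∀ i, t i ≠ 0) →
      f (t • π x) = (∏ i, t i ^ a i) * s x := by
    classical
    choose y σ h1 h2 using fun c => (h.img c).1
    refine ⟨fun c => if hc : c ∈ C then (∏ i, σ c hc i ^ a i) * s (y c hc) else 0,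
      fun x t ht => ?_⟩
    have h3 := h2 _ (h.smul_mem x ht)
    have h4 := h.fibre ht h3
    rw [← h.π_eq h4] at h3
    simp only [dif_pos (h.smul_mem x ht), ← smul_cancel (h.ne x) h3, ← h.eq_of_rel h4 hs]
  have han : ∀ {E : Type} [NormedAddCommGroup E] [NormedSpace ℂ E] {σ : E → ι → ℂ} {φ : E → ℂ}
      {w : E} (x : X), AnalyticAt ℂ σ w → (∀ i, σ w i ≠ 0) → AnalyticAt ℂ φ w → φ w = 0 →
      AnalyticAt ℂ (fun z => (∏ i, σ z i ^ a i) * (bz A a).loc s x (φ z)) w ∧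
        ∀ᶠ z in 𝓝 w, f (σ z • br A π x (φ z)) = (∏ i, σ z i ^ a i) * (bz A a).loc s x (φ z) :=
    fun x h1 h2 h3 h4 => ⟨(Finset.analyticAt_fun_prod _ fun i _ =>
      (analyticAt_pi_iff.1 h1 i).zpow (h2 i)).mul (AnalyticAt.comp_of_eq (hs.1 x) h3 h4),
      (eventually_all.2 fun i => (analyticAt_pi_iff.1 h1 i).continuousAt.eventually_ne (h2 i)).mono
        fun _ hz => h.loc_bz hf x _ hz⟩
  refine ⟨f, ⟨fun c hc => ?_, fun t ht c hc => ?_, fun γ hγ => ?_⟩, fun x => ?_⟩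
  · obtain ⟨S, Z, h1, h2⟩ := h.retr
    obtain ⟨x, t, ht, rfl⟩ := (h.img c).1 hc
    obtain ⟨x', h3, h4⟩ := h2 x t ht
    have key : ∀ y, π x = π y → ∀ U ∈ 𝓝 (f (t • π x)),
        ∀ᶠ c in 𝓝 (t • π x), f (S y c • br A π y (Z y c)) ∈ U := fun y e => by
      obtain ⟨h5, h6, h7, h8⟩ := h1 y t ht
      obtain ⟨h9, h10⟩ := han y h5 (by rwa [h7]) h6 h8
      have h11 := (h9.continuousAt.congr (EventuallyEq.symm h10)).tendsto
      rwa [h7, h8, br_zero, ← e] at h11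
    refine fun U hU => mem_map.2 (eventually_nhdsWithin_iff.2 ?_)
    filter_upwards [h4, key x rfl U hU, key x' (h.π_eq h3) U hU] with c h5 h6 h7 hc
    rcases h5 hc with e | e
    exacts [e ▸ h6, e ▸ h7]
  · obtain ⟨x, σ, hσ, rfl⟩ := (h.img c).1 hc
    rw [smul_smul, hf _ (t * σ) fun i => mul_ne_zero (ht i) (hσ i), hf _ _ hσ]
    simp only [Pi.mul_apply, mul_zpow, Finset.prod_mul_distrib, mul_assoc]
  · obtain ⟨x, σ, φ, h1, h2, h3, h4, h5⟩ := h.factor hγ.holo hγ.mem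
    obtain ⟨h6, h7⟩ := han x h1 h2 h3 h4
    exact h6.congr ((h5.and h7).mono fun z hz => hz.2.symm.trans (congrArg f hz.1.symm))
  · simpa using hf x 1 fun _ => one_ne_zero

theorem normal_iff {a : ι → ℕ} : (∀ f, IsSec o C a f → ∃ μ : Tens M a, ∀ c ∈ C, f c = val μ c) ↔
    ∀ s ∈ H0 N (bz A fun i => a i), ∃ μ : Tens M a, ∀ x, s x = val μ (π x) := by
  constructor
  · intro h1 s hs
    obtain ⟨f, h2, h3⟩ := h.exists_isSecZ hs
    obtain ⟨μ, h4⟩ := h1 f (isSecZ_iff.1 h2)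
    exact ⟨μ, fun x => (h3 x).symm.trans (h4 _ (h.mem x))⟩
  · intro h1 f hf
    obtain ⟨μ, h2⟩ := h1 _ (h.mem_of_isSecZ (isSecZ_iff.2 hf))
    refine ⟨μ, fun c hc => ?_⟩
    obtain ⟨x, t, ht, rfl⟩ := (h.img c).1 hc
    rw [hf.hom t ht _ (h.mem x), val_smul, h2]

theorem finrank_eq {a : ι → ℕ}
    (h1 : ∀ s ∈ H0 N (bz A fun i => a i), ∃ μ : Tens M a, ∀ x, s x = val μ (π x)) :
    finrank ℂ (Submodule.span ℂ (range fun (μ : Tens M a) (c : C) => val μ c)) =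
      finrank ℂ (H0 N (bz A fun i => a i)) := by
  let L : Tens M a →ₗ[ℂ] C → ℂ := ⟨⟨fun μ c => val μ c, fun _ _ => rfl⟩, fun _ _ => rfl⟩
  let L' : Tens M a →ₗ[ℂ] X → ℂ := ⟨⟨fun μ x => val μ (π x), fun _ _ => rfl⟩, fun _ _ => rfl⟩
  have h2 : H0 N (bz A fun i => a i) = LinearMap.range L' :=
    Submodule.ext fun s => ⟨fun hs => (h1 s hs).imp fun μ e => (funext e).symm,
      fun ⟨μ, e⟩ => e ▸ val_mem h.sec μ⟩
  have h3 : LinearMap.ker L = LinearMap.ker L' := Submodule.ext fun μ =>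
    ⟨fun e => funext fun x => congrFun e ⟨_, h.mem x⟩, fun e => funext fun c => by
      obtain ⟨x, t, -, e'⟩ := (h.img c).1 c.2
      exact (congrArg (val μ) e').trans ((val_smul μ t _).trans
        (mul_eq_zero_of_right _ (congrFun e x)))⟩
  rw [h2, ← L'.quotKerEquivRange.finrank_eq, ← h3, L.quotKerEquivRange.finrank_eq,
    ← Submodule.span_eq (LinearMap.range L)]
  rfl

theorem isCurve_iff {g : ℤ} {m : ι → ℤ} : IsCurve o g m C ↔
    ∀ a : ι → ℕ, a ≠ 0 → (∀ s ∈ H0 N (bz A fun i => a i), ∃ μ : Tens M a, ∀ x, s x = val μ (π x)) ∧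
      (finrank ℂ (H0 N (bz A fun i => a i)) : ℤ) = ∑ i, a i * m i + 1 - g :=
  ⟨fun h1 a ha => have h2 := h.normal_iff.1 (h1.normal a ha)
    ⟨h2, h.finrank_eq h2 ▸ h1.hilbert a ha⟩,
    fun h1 => ⟨h.ne_zero, h.closed, h.cone, h.isNodal.nodal,
      fun a ha => h.normal_iff.2 (h1 a ha).1, fun a ha => h.finrank_eq (h1 a ha).1 ▸ (h1 a ha).2⟩⟩

theorem isConnected_iff : IsConnected C ↔ Nonempty X ∧
    ∀ U : Set X, IsClopen U → (∀ n ∈ N, n.1 ∈ U ↔ n.2 ∈ U) → U = ∅ ∨ U = univ := by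
  constructor
  · rintro ⟨⟨c, hc⟩, h1⟩
    refine ⟨((h.img c).1 hc).elim fun x _ => ⟨x⟩, fun U hU hN => ?_⟩
    have key : ∀ W : Set X, IsOpen W → (∀ n ∈ N, n.1 ∈ W ↔ n.2 ∈ W) → ∀ x ∈ W, ∀ t : ι → ℂ,
        (∀ i, t i ≠ 0) → t • π x ∈ interior {c | ∀ y, ∀ s : ι → ℂ, c = s • π y → y ∈ W} :=
      fun W hW hN x hx t ht => mem_interior_iff_mem_nhds.2
        (h.near fun y s e => hW.mem_nhds (by
          rcases h.fibre ht e with rfl | e | e
          exacts [hx, (hN _ e).1 hx, (hN _ e).2 hx]))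
    have k1 := key U hU.isOpen hN
    have k2 := key Uᶜ hU.compl.isOpen fun n hn => not_congr (hN n hn)
    by_contra! h2
    obtain ⟨x, hx⟩ := h2.1
    obtain ⟨y, hy⟩ := nonempty_compl.2 h2.2
    obtain ⟨c, hc, h3, h4⟩ := h1 _ _ isOpen_interior isOpen_interior (fun c hc => by
      obtain ⟨z, t, ht, rfl⟩ := (h.img c).1 hc
      exact (em (z ∈ U)).imp (fun hz => k1 z hz t ht) fun hz => k2 z hz t ht)
      ⟨_, h.smul_mem x fun _ => one_ne_zero, k1 x hx 1 fun _ => one_ne_zero⟩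
      ⟨_, h.smul_mem y fun _ => one_ne_zero, k2 y hy 1 fun _ => one_ne_zero⟩
    obtain ⟨z, t, -, e⟩ := (h.img c).1 hc
    exact interior_subset h4 z t e (interior_subset h3 z t e)
  · rintro ⟨⟨x0⟩, h1⟩
    refine ⟨⟨_, h.mem x0⟩, isPreconnected_iff_subset_of_disjoint.2 fun u v hu hv huv hd => ?_⟩
    have hT : IsPreconnected (univ.pi fun _ : ι => ({0}ᶜ : Set ℂ)) := isPreconnected_univ_pi fun _ =>
      (isConnected_compl_singleton_of_one_lt_rank (by simp) 0).isPreconnected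
    have orb : ∀ x, (∀ t : ι → ℂ, (∀ i, t i ≠ 0) → t • π x ∈ u) ∨
        ∀ t : ι → ℂ, (∀ i, t i ≠ 0) → t • π x ∈ v := fun x => by
      have h2 : (fun t : ι → ℂ => t • π x) '' univ.pi (fun _ => {0}ᶜ) ⊆ C := by
        rintro _ ⟨t, ht, rfl⟩
        exact h.smul_mem x fun i => ht i trivial
      exact (isPreconnected_iff_subset_of_disjoint.1
        (hT.image (fun t : ι → ℂ => t • π x) (by fun_prop)) u v hu hv (h2.trans huv)
        (subset_eq_empty (inter_subset_inter_left _ h2) hd)).imp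
        (fun e t ht => e ⟨t, fun i _ => ht i, rfl⟩) fun e t ht => e ⟨t, fun i _ => ht i, rfl⟩
    have nb : ∀ x {s t : ι → ℂ}, (∀ i, s i ≠ 0) → (∀ i, t i ≠ 0) → s • π x ∈ u → t • π x ∉ v :=
      fun x s t hs ht h2 h3 => (orb x).elim
        (fun e => eq_empty_iff_forall_notMem.1 hd _ ⟨h.smul_mem x ht, e t ht, h3⟩)
        fun e => eq_empty_iff_forall_notMem.1 hd _ ⟨h.smul_mem x hs, h2, e s hs⟩
    let U := {x | ∀ t : ι → ℂ, (∀ i, t i ≠ 0) → t • π x ∈ u}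
    have o1 : ∀ i, (1 : ι → ℂ) i ≠ 0 := fun _ => one_ne_zero
    have ev : ∀ x w, IsOpen w → (1 : ι → ℂ) • π x ∈ w →
        ∀ᶠ y in 𝓝 x, ∃ t : ι → ℂ, (∀ i, t i ≠ 0) ∧ t • π y ∈ w := fun x w hw hx => by
      rw [one_smul] at hx
      filter_upwards [(tends_br h.sec x).eventually (hw.mem_nhds hx), R.src_nhds x] with y h2 h3
      rw [br_eq, R.i_e h3] at h2
      exact ⟨_, fun i => inv_ne_zero ((A i).ne _ _), h2⟩
    have hU : IsClopen U := ⟨isOpen_compl_iff.1 (isOpen_iff_mem_nhds.2 fun x hx =>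
      (ev x v hv ((orb x).resolve_left hx 1 o1)).mono fun y ⟨t, ht, h2⟩ h3 =>
        nb y o1 ht (h3 1 o1) h2), isOpen_iff_mem_nhds.2 fun x hx =>
      (ev x u hu (hx 1 o1)).mono fun y ⟨t, ht, h2⟩ =>
        (orb y).resolve_right fun h3 => nb y ht o1 h2 (h3 1 o1)⟩
    refine (h1 U hU fun n hn => by simp only [U, mem_ofPred_eq, node_eq h.sec hn]).symm.imp
      (fun e c hc => ?_) fun e c hc => ?_
    · obtain ⟨x, t, ht, rfl⟩ := (h.img c).1 hc
      exact eq_univ_iff_forall.1 e x t ht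
    · obtain ⟨x, t, ht, rfl⟩ := (h.img c).1 hc
      exact (orb x).resolve_left (eq_empty_iff_forall_notMem.1 e x) t ht

end Par

end Vale.Agent.P269.Cv
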