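import Vale.Agent.P269.Cv.Dict
import Vale.Agent.P269.Prop.Wedge

/-!
# The tensor `Ξ` as a nowhere vanishing section of `ω_log^(-k) ⊗ O(a)`
-/

set_option linter.unusedSectionVars false

namespace Vale.Agent.P269.Cv

open Set Function Topology Filter Module Base

variable {X : Type} [TopologicalSpace X] [T2Space X] [CompactSpace X] {R : RS X}
  {ι : Type} [Fintype ι] {M : ι → ℕ} {o : ι} {C : Set (V M)} {N : Finset (X × X)} {A : ι → LB R}
  {π : X → V M}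

/-! ### The frame of `omega` -/

namespace Xi

variable {P : Finset X} {y : X}

open Classical in
/-- the sign of the residue -/
noncomputable def sg (N : Finset (X × X)) (y : X) : ℂ := if ∃ n ∈ N, n.2 = y then -1 else 1

open Classical in
/-- the local expression of the canonical section of `omega / K` -/
noncomputable def lg (N : Finset (X × X)) (P : Finset X) (y : X) (t : ℂ) : ℂ :=
  if Sm N y ∧ y ∉ P then 1 else sg N y * t

theorem sg_sq (y : X) : sg N y * sg N y = 1 := by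
  unfold sg
  split_ifs <;> simp

theorem sg_ne (y : X) : sg N y ≠ 0 := left_ne_zero_of_mul (sg_sq y ▸ one_ne_zero)

theorem sg_sm (h : Sm N y) : sg N y = 1 := if_neg fun ⟨n, a, b⟩ => (h n a).2 b

theorem sg_fst (hN : Nd N) {n : X × X} (h : n ∈ N) : sg N n.1 = 1 :=
  if_neg fun ⟨n', a, b⟩ => hN.ne n h n' a b.symm

theorem sg_snd {n : X × X} (h : n ∈ N) : sg N n.2 = -1 := if_pos ⟨n, h, rfl⟩

theorem not_sm_fst {n : X × X} (h : n ∈ N) : ¬Sm N n.1 := fun a => (a n h).1 rfl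

theorem not_sm_snd {n : X × X} (h : n ∈ N) : ¬Sm N n.2 := fun a => (a n h).2 rfl

theorem an_lg (y : X) (t : ℂ) : AnalyticAt ℂ (lg N P y) t := by
  unfold lg
  split_ifs
  exacts [analyticAt_const, analyticAt_const.mul analyticAt_id]

theorem lg_ne {t : ℂ} (h : t ≠ 0) : lg N P y t ≠ 0 := by
  unfold lg
  split_ifs
  exacts [one_ne_zero, mul_ne_zero (sg_ne y) h]

theorem ev_sm (N : Finset (X × X)) (P : Finset X) (y : X) : ∀ᶠ z in 𝓝[≠] y, Sm N z ∧ z ∉ P := by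
  have a : ∀ p : X, ∀ᶠ z in 𝓝[≠] y, p ≠ z := fun p => by
    by_cases h : y = p
    · exact h ▸ eventually_mem_nhdsWithin.mono fun z hz => Ne.symm hz
    · exact ((eventually_ne_nhds h).filter_mono nhdsWithin_le_nhds).mono fun z hz => hz.symm
  exact ((N.eventually_all.2 fun n _ => (a n.1).and (a n.2)).and
    (P.eventually_all.2 fun p _ => a p)).mono fun z hz => ⟨hz.1, fun h => hz.2 z h rfl⟩

open Classical in
theorem prod_pt (hN : Nd N) (hP : ∀ p ∈ P, Sm N p) (y z : X) :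
    ((∏ n ∈ N, R.pt n.1 * R.pt n.2) * ∏ p ∈ P, R.pt p).φ y z =
      if Sm N y ∧ y ∉ P then 1 else (R.pt y).φ y z := by
  have a : ∀ p, (R.pt p).φ y z = if y = p then (R.pt y).φ y z else 1 := fun p => by
    split_ifs with h
    exacts [h ▸ rfl, R.pt_φ_ne h]
  rw [LB.mul_φ, LB.prod_φ, LB.prod_φ, Finset.prod_congr rfl fun p _ => a p, Finset.prod_ite_eq]
  by_cases h : Sm N y
  · rw [Finset.prod_eq_one fun n hn => by
      rw [LB.mul_φ, R.pt_φ_ne (h n hn).1.symm, R.pt_φ_ne (h n hn).2.symm, mul_one]]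
    simp [h]
  · rw [if_neg fun b => h (hP y b), if_neg fun b => h b.1, mul_one]
    simp only [Sm, not_forall, not_and_or, not_not] at h
    obtain ⟨n, hn, rfl | rfl⟩ := h
    · rw [Finset.prod_eq_single_of_mem n hn fun n' hn' e => by
        rw [LB.mul_φ, R.pt_φ_ne fun b => e (hN.inj1 hn hn' b).symm,
          R.pt_φ_ne (hN.ne n hn n' hn'), mul_one], LB.mul_φ, R.pt_φ_ne (hN.ne n hn n hn), mul_one]
    · rw [Finset.prod_eq_single_of_mem n hn fun n' hn' e => by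
        rw [LB.mul_φ, R.pt_φ_ne (hN.ne n' hn' n hn).symm,
          R.pt_φ_ne fun b => e (hN.inj2 hn hn' b).symm, mul_one], LB.mul_φ,
        R.pt_φ_ne (hN.ne n hn n hn).symm, one_mul]

/-- the frame of `omega` is `dt`, or `± dt / t` at the nodes and the marked points -/
theorem omega_φ (hN : Nd N) (hP : ∀ p ∈ P, Sm N p) (y : X) : ∀ᶠ t in 𝓝[≠] 0,
    (omega R N P).φ y (R.i y t) * lg N P y t = R.d (R.e y) (R.i y t) := by
  filter_upwards [R.ev_ne_iff.1 (ev_sm N P y), (R.tgt_nhds y).filter_mono nhdsWithin_le_nhds,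
    self_mem_nhdsWithin] with t a b c
  have e : (omega R N P).φ y (R.i y t) = R.K.φ y (R.i y t) *
      ((∏ n ∈ N, R.pt n.1 * R.pt n.2) * ∏ p ∈ P, R.pt p).φ y (R.i y t) *
        (sg N (R.i y t) / sg N y) := by
    rw [omega, mul_assoc R.K]
    rfl
  rw [e, prod_pt hN hP, RS.K_φ (R.i_mem b), sg_sm a.1, lg]
  split_ifs with h
  · simp [sg_sm h.1]
  · have c' : t ≠ 0 := c
    have := sg_ne (N := N) y
    simp only [RS.pt, R.i_mem b, R.e_i b, ne_eq, R.i_eq b, c', not_false_eq_true, and_self, if_true]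
    field_simp

theorem loc_omega (hN : Nd N) (hP : ∀ p ∈ P, Sm N p) (s : X → ℂ) (y : X) :
    (omega R N P).loc s y =ᶠ[𝓝[≠] 0] fun t => lg N P y t * R.K.loc s y t := by
  filter_upwards [omega_φ (R := R) hN hP y, (R.tgt_nhds y).filter_mono nhdsWithin_le_nhds,
    self_mem_nhdsWithin] with t a b c
  have := lg_ne (N := N) (P := P) (y := y) c
  have := (omega R N P).ne y (R.i y t)
  rw [LB.loc, LB.loc, RS.K_φ (R.i_mem b), ← a]
  field_simp

/-- forms with simple poles at the nodes and the marked points are sections of `omega`; the value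
is `±` the residue -/
theorem omega_sec (hN : Nd N) (hP : ∀ p ∈ P, Sm N p) {s : X → ℂ} :
    (omega R N P).Sec s y ↔ ∃ f : ℂ → ℂ, AnalyticAt ℂ f 0 ∧ f 0 = s y ∧
      ∀ᶠ t in 𝓝[≠] 0, lg N P y t * R.K.loc s y t = f t :=
  ⟨fun h => ⟨_, h, LB.loc_zero, (loc_omega hN hP s y).symm⟩, fun ⟨_, a, b, c⟩ =>
    a.congr (eventuallyEq_nhds_of_eventuallyEq_nhdsNE ((loc_omega hN hP s y).trans c)
      (LB.loc_zero.trans b.symm)).symm⟩

theorem bz_add (a b : ι → ℤ) : bz A (a + b) = bz A a * bz A b := by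
  simp [bz, zpow_add, Finset.prod_mul_distrib]

theorem val_br {a : ι → ℕ} (μ : Tens M a) (y : X) (t : ℂ) :
    val μ (br A π y t) = (bz A fun i => a i).loc (fun z => val μ (π z)) y t := by
  rw [br_eq, Base.val_smul, LB.loc, bz_φ, div_eq_inv_mul]
  simp [chr]

theorem eq_of_ev {f g w : ℂ → ℂ} (hf : AnalyticAt ℂ f 0) (hg : AnalyticAt ℂ g 0)
    (hw : ∀ᶠ t in 𝓝[≠] 0, w t ≠ 0) (h : ∀ᶠ t in 𝓝 0, f t * w t = g t * w t) : f 0 = g 0 :=
  tendsto_nhds_unique_of_eventuallyEq (hf.continuousAt.tendsto.mono_left nhdsWithin_le_nhds)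
    (hg.continuousAt.tendsto.mono_left nhdsWithin_le_nhds)
    ((hw.and (h.filter_mono nhdsWithin_le_nhds)).mono fun _ a => mul_right_cancel₀ a.1 a.2)

theorem an_dslope {φ : ℂ → ℂ} (h : AnalyticAt ℂ φ 0) : AnalyticAt ℂ (dslope φ 0) 0 :=
  let ⟨_, hp⟩ := h
  hp.has_fpower_series_dslope_fslope.analyticAt

end Xi

open Xi

section

variable [DecidableEq ι] {J ν : Type} [Fintype J] [Fintype ν] {ch : Ch ι J} {x : ch.W ν}
  {π : X → V ch.M} {P : Finset X}

open Classical in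
/-- the section `(γ ∧ dγ)^k ⊗ γ^bω` of `ω_log^k ⊗ O(bω + 2 k e_o)` paired with the form `μ` -/
noncomputable def wsec (A : ι → LB R) (π : X → V ch.M) (N : Finset (X × X)) (P : Finset X)
    (μ : Tn ch.M ch.slot) (y : X) : ℂ :=
  (if Sm N y ∧ y ∉ P then 1 else 0) ^ ch.k * Ch.wedge μ (π y) (deriv (br A π y) 0)

namespace Xi

theorem wedge_fac (μ : Tn ch.M ch.slot) {γ β : ℂ → V ch.M} {s : ℂ → ι → ℂ} {φ : ℂ → ℂ} {t : ℂ}
    (e : ∀ᶠ z in 𝓝 t, γ z = s z • β (φ z)) (hs : AnalyticAt ℂ s t) (hφ : AnalyticAt ℂ φ t)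
    (hβ : AnalyticAt ℂ β (φ t)) :
    Ch.wedge μ (γ t) (deriv γ t) = chr ch.bω (s t) * (s t ch.o * (s t ch.o * deriv φ t)) ^ ch.k *
      Ch.wedge μ (β (φ t)) (deriv β (φ t)) := by
  rw [e.self_of_nhds]
  refine Ch.wedge_smul μ _ _ _ _ (a := deriv s t ch.o) ?_
  refine (congrFun (EventuallyEq.deriv_eq e) _).trans ((Dict.deriv_smul hs (hβ.comp hφ) _).trans ?_)
  rw [(hβ.differentiableAt.hasDerivAt.scomp t hφ.differentiableAt.hasDerivAt).deriv, add_comm,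
    mul_smul]
  rfl

theorem prod_bo (s : ι → ℂ) : ∏ i, s i ^ (ch.bω i + if i = ch.o then 2 * ch.k else 0 : ℤ) =
    chr ch.bω s * (s ch.o * s ch.o) ^ ch.k := by
  have : ∀ i, s i ^ (ch.bω i + if i = ch.o then 2 * ch.k else 0 : ℤ) =
      s i ^ ch.bω i * if i = ch.o then (s i * s i) ^ ch.k else 1 := fun i => by
    split_ifs
    · rw [← sq, ← pow_mul, ← pow_add, ← zpow_natCast]
      push_cast
      rfl
    · simp
  simp only [this, Finset.prod_mul_distrib]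
  simp [chr]

theorem loc_wsec (hN : Nd N) (h : ∀ i j, (fun y => π y i j) ∈ H0 N (A i)) (hP : ∀ p ∈ P, Sm N p)
    (y : X) : ∀ᶠ t in 𝓝 0, ∀ μ : Tn ch.M ch.slot,
      (omega R N P ^ ch.k * bz A fun i => ch.bω i + if i = ch.o then 2 * ch.k else 0).loc
        (wsec A π N P μ) y t =
      lg N P y t ^ ch.k * Ch.wedge μ (br A π y t) (deriv (br A π y) t) := by
  rw [← nhdsNE_sup_pure, eventually_sup, eventually_pure]
  refine ⟨?_, fun μ => by simp [wsec, lg, br_zero]⟩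
  filter_upwards [omega_φ (R := R) hN hP y, R.ev_ne_iff.1 (ev_sm N P y),
    ((R.tgt_nhds y).and ((an_br h y).eventually_analyticAt.and
      (R.ev_iff.1 (eventually_all.2 fun i => (A i).hol y)))).filter_mono nhdsWithin_le_nhds]
    with t a b ⟨c, d, e⟩ μ
  have w := wedge_fac μ (γ := br A π (R.i y t)) (β := br A π y)
    (s := fun τ i => (A i).φ y (R.i (R.i y t) τ) / (A i).φ (R.i y t) (R.i (R.i y t) τ))
    (φ := fun τ => R.e y (R.i (R.i y t) τ)) (t := 0)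
    ((R.ev_iff.1 (R.src_nhds' (R.i_mem c))).mono fun τ hτ => by
      rw [br_eq, br_e (A := A) (π := π) hτ, smul_smul]
      congr 1
      funext i
      exact (div_eq_inv_mul _ _).symm)
    (analyticAt_pi_iff.2 e) (RS.hol_e (R.i_mem c)) (by rwa [R.i_zero, R.e_i c])
  simp only [R.i_zero, R.e_i c, LB.self, div_one, br_zero] at w
  have n1 := (omega R N P).ne y (R.i y t)
  have n2 := (A ch.o).ne y (R.i y t)
  have n3 := chr_ne_zero (a := ch.bω) fun i => (A i).ne y (R.i y t)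
  rw [LB.loc, wsec, if_pos b, w, LB.mul_φ, LB.pow_φ, bz_φ, prod_bo fun i => (A i).φ y (R.i y t)]
  change _ * (_ * (_ * (_ * R.d (R.e y) (R.i y t))) ^ _ * _) / _ = _
  rw [← a]
  simp only [mul_pow, one_pow]
  field_simp

theorem bz_eq (L : LB R) : (L⁻¹ * bz A fun i =>
      ch.a none i - ch.bω i - if i = ch.o then 2 * ch.k else 0) *
    (L * bz A fun i => ch.bω i + if i = ch.o then 2 * ch.k else 0) = bz A fun i => ch.a none i := by
  rw [mul_mul_mul_comm, inv_mul_cancel, one_mul, ← bz_add]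
  congr 1
  funext i
  simp

theorem lead_unique {γ : ℂ → V ch.M} (hγ : IsBranch ch.o (Ch.crv x) γ) {ρ ρ' : ℂ}
    (h : Ch.Lead x γ ρ) (h' : Ch.Lead x γ ρ') : ρ = ρ' := by
  classical
  obtain ⟨f, f1, rfl, f2⟩ := h
  obtain ⟨g, g1, rfl, g2⟩ := h'
  obtain ⟨μ, hμ⟩ := Ch.exists_wedge_ne (Ch.crv_ne hγ.mem.self_of_nhds) hγ.imm
  refine eq_of_ev (w := fun t => (if IsNode ch.o (Ch.crv x) (γ 0) ∨
    ∃ n, ∃ s : ι → ℂ, γ 0 = s • x.p n then t else 1) ^ ch.k * Ch.wedge μ (γ t) (deriv γ t))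
    f1 g1 ?_ ?_
  · filter_upwards [self_mem_nhdsWithin, ((Ch.an_wedge analyticAt_const hγ.holo
      hγ.holo.deriv).continuousAt.eventually_ne hμ).filter_mono nhdsWithin_le_nhds] with t a b
    refine mul_ne_zero (pow_ne_zero _ ?_) b
    split_ifs
    exacts [a, one_ne_zero]
  · filter_upwards [f2, g2, hγ.mem] with t a b c
    obtain ⟨u, hu⟩ := Ch.mem_crv.1 c
    rw [← mul_assoc, ← mul_assoc, ← a u hu, ← b u hu]

theorem cond_iff (h : Par ch.o (Ch.crv x) N A π)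
    (hP : ∀ y, y ∈ P ↔ ∃ n, ∃ s : ι → ℂ, π y = s • x.p n) (y : X) {t : ι → ℂ}
    (ht : ∀ i, t i ≠ 0) : (IsNode ch.o (Ch.crv x) (t • π y) ∨
      ∃ n, ∃ s : ι → ℂ, t • π y = s • x.p n) ↔ ¬(Sm N y ∧ y ∉ P) := by
  rw [h.isNode_iff ht, not_and_or, not_not, hP]
  refine or_congr_right (exists_congr fun n => ⟨fun ⟨s, e⟩ => ⟨t⁻¹ * s, ?_⟩,
    fun ⟨s, e⟩ => ⟨t * s, by rw [e, mul_smul]⟩⟩)
  rw [mul_smul, ← e, Dict.inv_smul ht]

open Classical in
theorem lead_of (h : Par ch.o (Ch.crv x) N A π)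
    (hP : ∀ y, y ∈ P ↔ ∃ n, ∃ s : ι → ℂ, π y = s • x.p n) (hS : ∀ p ∈ P, Sm N p)
    {m : Tn ch.M ch.slot → Tens ch.M (ch.a none)} (hm : ∀ μ, x.Q none (m μ) = x.Ξ μ) {ξ : X → ℂ}
    (h1 : ξ ∈ H0 N ((omega R N P ^ ch.k)⁻¹ *
      bz A fun i => ch.a none i - ch.bω i - if i = ch.o then 2 * ch.k else 0))
    (h2 : ∀ μ, (fun y => val (m μ) (π y)) = ξ * wsec A π N P μ) {γ : ℂ → V ch.M} {y : X}
    {s : ℂ → ι → ℂ} {φ : ℂ → ℂ} (a1 : AnalyticAt ℂ s 0) (a2 : ∀ i, s 0 i ≠ 0)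
    (a3 : AnalyticAt ℂ φ 0) (a4 : φ 0 = 0) (a5 : deriv φ 0 ≠ 0)
    (a6 : ∀ᶠ t in 𝓝 0, γ t = s t • br A π y (φ t)) :
    Ch.Lead x γ (chr (ch.a none) (s 0) /
      (chr ch.bω (s 0) * (s 0 ch.o * (s 0 ch.o * deriv φ 0)) ^ ch.k) * ξ y *
        (if Sm N y ∧ y ∉ P then 1 else sg N y * deriv φ 0) ^ ch.k) := by
  have so := analyticAt_pi_iff.1 a1 ch.o
  have d1 : AnalyticAt ℂ (fun t => chr ch.bω (s t) * (s t ch.o * (s t ch.o * deriv φ t)) ^ ch.k) 0 :=
    ((analyticAt_chr _).comp a1).mul ((so.mul (so.mul a3.deriv)).pow _)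
  have d2 : chr ch.bω (s 0) * (s 0 ch.o * (s 0 ch.o * deriv φ 0)) ^ ch.k ≠ 0 :=
    mul_ne_zero (chr_ne_zero a2) (pow_ne_zero _ (mul_ne_zero (a2 _) (mul_ne_zero (a2 _) a5)))
  have tφ : Tendsto φ (𝓝 0) (𝓝 0) := by simpa [ContinuousAt, a4] using a3.continuousAt
  refine ⟨fun t => chr (ch.a none) (s t) /
      (chr ch.bω (s t) * (s t ch.o * (s t ch.o * deriv φ t)) ^ ch.k) * LB.loc _ ξ y (φ t) *
        (if Sm N y ∧ y ∉ P then 1 else sg N y * dslope φ 0 t) ^ ch.k,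
    ((((analyticAt_chr _).comp a1).div d1 d2).mul ((h1.1 y).comp_of_eq a3 a4)).mul
      (AnalyticAt.pow ?_ _), by simp only [a4, LB.loc_zero, dslope_same], ?_⟩
  · split_ifs
    exacts [analyticAt_const, analyticAt_const.mul (an_dslope a3)]
  filter_upwards [a6.eventually_nhds, a1.eventually_analyticAt, a3.eventually_analyticAt,
    tφ.eventually (an_br h.sec y).eventually_analyticAt, tφ.eventually (loc_wsec h.nd h.sec hS y),
    d1.continuousAt.eventually_ne d2] with t b1 b2 b3 b4 b5 b6 u hu μ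
  have e : φ t = t * dslope φ 0 t := by simpa [a4] using (sub_smul_dslope φ 0 t).symm
  rw [← hm, hu.2, wedge_fac μ b1 b2 b3 b4, (h.deriv_factor a1 a3 a4 a6 ch.o).1,
    if_congr (cond_iff h hP y a2) rfl rfl, ite_not]
  change val _ (γ t) = _
  rw [b1.self_of_nhds, Base.val_smul, val_br, h2, ← bz_eq (omega R N P ^ ch.k), LB.loc_mul,
    Pi.mul_apply, b5, lg]
  have e2 : (if Sm N y ∧ y ∉ P then 1 else sg N y * φ t) =
      (if Sm N y ∧ y ∉ P then 1 else sg N y * dslope φ 0 t) * if Sm N y ∧ y ∉ P then 1 else t := by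
    split_ifs
    · simp
    · rw [e]
      ring
  rw [e2, mul_pow (ite _ _ _)]
  generalize chr ch.bω (s t) * _ = D at b6 ⊢
  field_simp

end Xi

theorem wsec_mem (hN : Nd N) (h : ∀ i j, (fun y => π y i j) ∈ H0 N (A i)) (hP : ∀ p ∈ P, Sm N p)
    (μ : Tn ch.M ch.slot) : wsec A π N P μ ∈
    H0 N (omega R N P ^ ch.k * bz A fun i => ch.bω i + if i = ch.o then 2 * ch.k else 0) := by
  refine ⟨fun y => (((an_lg y 0).pow _).mul (Ch.an_wedge analyticAt_const (an_br h y)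
    (an_br h y).deriv)).congr ((loc_wsec hN h hP y).mono fun t a => (a μ).symm), fun n hn => ?_⟩
  rw [wsec, wsec, if_neg fun a => not_sm_fst hn a.1, if_neg fun a => not_sm_snd hn a.1,
    node_eq h hn, ← Ch.wedge_smul_right, ← Ch.wedge_smul_right, zero_smul, zero_smul]

theorem Par.lead_iff (h : Par ch.o (Ch.crv x) N A π) (hQ : Surjective (x.Q none))
    (hP : ∀ y, y ∈ P ↔ ∃ n, ∃ s : ι → ℂ, π y = s • x.p n) (hS : ∀ p ∈ P, Sm N p) :
    ((∀ γ, IsBranch ch.o (Ch.crv x) γ → ∃ ρ ≠ 0, Ch.Lead x γ ρ) ∧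
    ∀ c γ₁ γ₂ ρ₁ ρ₂, IsCross ch.o (Ch.crv x) c γ₁ γ₂ → Ch.Lead x γ₁ ρ₁ → Ch.Lead x γ₂ ρ₂ →
      ρ₁ = (-1) ^ ch.k * ρ₂) ↔
    ∃ ξ ∈ H0 N ((omega R N P ^ ch.k)⁻¹ *
      bz A fun i => ch.a none i - ch.bω i - if i = ch.o then 2 * ch.k else 0), (∀ y, ξ y ≠ 0) ∧
      ∀ y u, (π y, u) ∈ Ch.gr x → ∀ μ, u none (x.Ξ μ) = ξ y * wsec A π N P μ y := by
  classical
  choose m hm using fun μ => hQ (x.Ξ μ)
  constructor
  · rintro ⟨h1, h2⟩
    choose ρ r1 r2 using fun y => h1 _ (h.isBranch y)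
    have r3 := r2
    choose f f1 f2 f3 using r3
    have f4 : ∀ y, ∀ᶠ t in 𝓝 0, ∀ μ, val (m μ) (br A π y t) =
        f y t * (if Sm N y ∧ y ∉ P then 1 else sg N y) ^ ch.k *
          (lg N P y t ^ ch.k * Ch.wedge μ (br A π y t) (deriv (br A π y) t)) := fun y => by
      filter_upwards [f3 y] with t a μ
      obtain ⟨u, hu⟩ := Ch.mem_crv.1 (h.br_mem y t)
      have c := cond_iff h hP y (t := 1) fun _ => one_ne_zero
      rw [one_smul] at c
      rw [← hu.2, hm, a u hu, br_zero, if_congr c rfl rfl, ite_not, lg, mul_assoc, mul_assoc,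
        ← mul_assoc (_ ^ _), ← mul_pow]
      split_ifs
      · simp
      · rw [← mul_assoc (sg N y), sg_sq, one_mul]
    have f5 : ∀ μ, (fun y => val (m μ) (π y)) =
        (fun y => ρ y * (if Sm N y ∧ y ∉ P then 1 else sg N y) ^ ch.k) * wsec A π N P μ :=
      fun μ => funext fun y => by
        have a := (f4 y).self_of_nhds μ
        rwa [← (loc_wsec h.nd h.sec hS y).self_of_nhds, LB.loc_zero, br_zero, f2] at a
    refine ⟨fun y => ρ y * (if Sm N y ∧ y ∉ P then 1 else sg N y) ^ ch.k, ⟨fun y => ?_,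
      fun n hn => ?_⟩, fun y => mul_ne_zero (r1 y) (pow_ne_zero _ ?_), fun y u hu μ => ?_⟩
    · obtain ⟨μ, hμ⟩ := Ch.exists_wedge_ne (h.ne y) (h.imm y)
      refine ((f1 y).mul (analyticAt_const (v := (if Sm N y ∧ y ∉ P then 1 else sg N y) ^ ch.k))).congr
        (eventuallyEq_nhds_of_eventuallyEq_nhdsNE ?_ (by simp [f2]))
      filter_upwards [self_mem_nhdsWithin, ((f4 y).and ((loc_wsec h.nd h.sec hS y).and
        ((Ch.an_wedge analyticAt_const (an_br h.sec y) (an_br h.sec y).deriv).continuousAt.eventually_ne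
          (by rwa [br_zero])))).filter_mono nhdsWithin_le_nhds] with t a ⟨b, c, d⟩
      refine mul_right_cancel₀ (mul_ne_zero (pow_ne_zero ch.k (lg_ne (N := N) (P := P) (y := y) a)) d)
        ((b μ).symm.trans ?_)
      rw [val_br, f5, ← bz_eq (omega R N P ^ ch.k), LB.loc_mul, Pi.mul_apply, c]
    · simp only [if_neg fun a : Sm N n.1 ∧ n.1 ∉ P => not_sm_fst hn a.1,
        if_neg fun a : Sm N n.2 ∧ n.2 ∉ P => not_sm_snd hn a.1, sg_fst h.nd hn, sg_snd hn]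
      rw [h2 _ _ _ _ _ (h.isCross hn) (r2 _) (r2 _), one_pow, mul_one, mul_comm]
    · split_ifs
      exacts [one_ne_zero, sg_ne y]
    · rw [← hm, hu.2]
      exact congrFun (f5 μ) y
  · rintro ⟨ξ, h1, h2, h3⟩
    have h4 : ∀ μ, (fun y => val (m μ) (π y)) = ξ * wsec A π N P μ := fun μ => funext fun y => by
      obtain ⟨u, hu⟩ := Ch.mem_crv.1 (h.mem y)
      rw [← hu.2, hm]
      exact h3 y u hu μ
    refine ⟨fun γ hγ => ?_, fun c γ₁ γ₂ ρ₁ ρ₂ ⟨b1, b2, e1, e2, hi⟩ l1 l2 => ?_⟩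
    · obtain ⟨y, s, φ, a1, a2, a3, a4, a5, a6⟩ := h.factor_branch hγ
      refine ⟨_, mul_ne_zero (mul_ne_zero (div_ne_zero (chr_ne_zero a2) (mul_ne_zero
        (chr_ne_zero a2) (pow_ne_zero _ (mul_ne_zero (a2 _) (mul_ne_zero (a2 _) a5))))) (h2 y))
        (pow_ne_zero _ ?_), lead_of h hP hS hm h1 h4 a1 a2 a3 a4 a5 a6⟩
      split_ifs
      exacts [one_ne_zero, mul_ne_zero (sg_ne y) a5]
    obtain ⟨y, s, φ, a1, a2, a3, a4, a5, a6⟩ := h.factor_branch b1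
    obtain ⟨y', s', φ', c1, c2, c3, c4, c5, c6⟩ := h.factor_branch b2
    obtain ⟨d1, d2⟩ := h.deriv_factor a1 a3 a4 a6 ch.o
    obtain ⟨d3, d4⟩ := h.deriv_factor c1 c3 c4 c6 ch.o
    have rel := h.fibre a2 (d1.symm.trans (e1.trans (e2.symm.trans d3)))
    have es : s 0 = s' 0 := Dict.smul_cancel (h.ne y') (by rw [← d3, e2, ← e1, d1, h.π_eq rel])
    rw [lead_unique b1 l1 (lead_of h hP hS hm h1 h4 a1 a2 a3 a4 a5 a6),
      lead_unique b2 l2 (lead_of h hP hS hm h1 h4 c1 c2 c3 c4 c5 c6), h.eq_of_rel rel h1, es]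
    have n1 := c2 ch.o
    have n2 := chr_ne_zero (a := ch.bω) c2
    rcases rel with rfl | hn | hn
    · refine absurd (Fintype.linearIndependent_iff.1 hi
        ![(s 0 ch.o * deriv φ 0 * deriv s' 0 ch.o - s' 0 ch.o * deriv φ' 0 * deriv s 0 ch.o) /
          s 0 ch.o, s' 0 ch.o * deriv φ' 0, -(s 0 ch.o * deriv φ 0)] ?_ 1) (mul_ne_zero n1 c5)
      simp only [Fin.sum_univ_three, Matrix.cons_val, d2, d4, ← e1, d1, Dict.smul_ap, smul_smul,
        div_mul_cancel₀ _ (a2 ch.o)]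
      module
    · rw [if_neg fun a => not_sm_fst hn a.1, if_neg fun a => not_sm_snd hn a.1,
        sg_fst h.nd hn, sg_snd hn]
      simp only [mul_pow, one_pow]
      field_simp
      rw [← pow_mul, mul_comm ch.k, pow_mul]
      simp
    · rw [if_neg fun a => not_sm_snd hn a.1, if_neg fun a => not_sm_fst hn a.1,
        sg_fst h.nd hn, sg_snd hn]
      simp only [mul_pow, one_pow]
      field_simp

theorem Par.exists_Xi (h : Par ch.o (Ch.crv x) N A π) (hP : ∀ p ∈ P, Sm N p)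
    (hn : ∀ s ∈ H0 N (bz A fun i => ch.a none i), ∃ μ : Tens ch.M (ch.a none), ∀ y, s y = val μ (π y))
    {ξ : X → ℂ} (hξ : ξ ∈ H0 N ((omega R N P ^ ch.k)⁻¹ *
      bz A fun i => ch.a none i - ch.bω i - if i = ch.o then 2 * ch.k else 0)) :
    ∃ Ξ : Tn ch.M ch.slot →L[ℂ] ch.E none,
      ∀ y u, (π y, u) ∈ Ch.gr x → ∀ μ, u none (Ξ μ) = ξ y * wsec A π N P μ y := by
  let ev : Tens ch.M (ch.a none) →ₗ[ℂ] X → ℂ := LinearMap.pi fun y => (evL _ (π y)).toLinearMap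
  let g : Tn ch.M ch.slot →ₗ[ℂ] X → ℂ := LinearMap.pi fun y =>
    (ξ y * (open Classical in if Sm N y ∧ y ∉ P then 1 else 0) ^ ch.k) •
      (Ch.wedgeL (π y) (deriv (br A π y) 0)).toLinearMap
  have hg : ∀ μ, g μ = ξ * wsec A π N P μ := fun μ => funext fun y => by
    rw [Pi.mul_apply, wsec, ← Ch.wedgeL_apply, ← mul_assoc]
    rfl
  obtain ⟨l, hl⟩ := Module.projective_lifting_property ev.rangeRestrict
    (g.codRestrict _ fun μ => by
      have w := wsec_mem h.nd h.sec hP μ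
      obtain ⟨μ', e⟩ := hn (ξ * wsec A π N P μ) (bz_eq (A := A) (ch := ch) (omega R N P ^ ch.k) ▸
        ⟨fun y => (hξ.1 y).mul (w.1 y), fun n hn => by
          rw [Pi.mul_apply, Pi.mul_apply, hξ.2 n hn, w.2 n hn]⟩)
      exact ⟨μ', hg μ ▸ funext fun y => (e y).symm⟩) ev.surjective_rangeRestrict
  refine ⟨x.Q none ∘L l.toContinuousLinearMap, fun y u hu μ => (hu.2 none (l μ)).trans ?_⟩
  exact congrFun ((congrArg Subtype.val (LinearMap.congr_fun hl μ)).trans (hg μ)) y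

end

end Vale.Agent.P269.Cv
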