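import Vale.Agent.P269.Cv.Nod
import Vale.Agent.P269.Cv.Dict
import Vale.Agent.P269.Base.Pol

/-!
# Embedding of abstract nodal curves by complete linear systems
-/

set_option linter.unusedSectionVars false

namespace Vale.Agent.P269.Cv

open Set Function Topology Filter Module

variable {X : Type} [TopologicalSpace X] {R : RS X} {L L' : LB R} {s s' : X → ℂ} {x y : X}
  {U : Set X} {N : Finset (X × X)} {ι : Type} [Fintype ι] {M : ι → ℕ} {o : ι} {A : ι → LB R}
  {π : X → V M} {C : Set (V M)}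

theorem LB.Sec.ord_eq_one (h : L.Sec s x) : L.ord s x = 1 ↔ s x = 0 ∧ deriv (L.loc s x) 0 ≠ 0 := by
  refine ⟨fun a => ?_, fun a => AnalyticAt.analyticOrderAt_eq_one_of_zero_deriv_ne_zero h
    (LB.loc_zero.trans a.1) a.2⟩
  have := (analyticOrderAt_eq_nat_iff_iteratedDeriv_eq_zero h (n := 1)).1 a
  exact ⟨by simpa using this.1 0, by simpa using this.2⟩

theorem LB.Sec.two_le_ord (h : L.Sec s x) : 2 ≤ L.ord s x ↔ s x = 0 ∧ deriv (L.loc s x) 0 = 0 := by
  refine (natCast_le_analyticOrderAt_iff_iteratedDeriv_eq_zero h (n := 2)).trans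
    ⟨fun a => ⟨by simpa using a 0, by simpa using a 1⟩, fun a i hi => ?_⟩
  interval_cases i
  exacts [by simpa using a.1, by simpa using a.2]

theorem bz_add (A : ι → LB R) (a b : ι → ℤ) : bz A (a + b) = bz A a * bz A b := by
  simp [bz, zpow_add, Finset.prod_mul_distrib]

theorem bz_sub (A : ι → LB R) (a b : ι → ℤ) : bz A (a - b) = bz A a / bz A b := by
  simp [bz, zpow_sub, div_eq_mul_inv, Finset.prod_mul_distrib]

@[simp] theorem bz_zero (A : ι → LB R) : bz A 0 = 1 := by simp [bz]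

theorem bz_single [DecidableEq ι] (A : ι → LB R) (i : ι) (n : ℤ) :
    bz A (Pi.single i n) = A i ^ n := by
  rw [bz, Finset.prod_eq_single i (fun j _ h => by simp [h]) (by simp), Pi.single_eq_same]

theorem bz_smul (A : ι → LB R) (n : ℤ) (a : ι → ℤ) : bz A (n • a) = bz A a ^ n := by
  simp [bz, ← Finset.prod_zpow, ← zpow_mul, mul_comm]

/-- the cone over the image -/
def cone (π : X → V M) : Set (V M) := {c | ∃ x, ∃ t : ι → ℂ, (∀ i, t i ≠ 0) ∧ c = t • π x}

variable (N A π) in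
/-- the coordinates of `π` span the spaces of sections -/
structure Full : Prop where
  sec : ∀ i j, (fun x => π x i j) ∈ H0 N (A i)
  span : ∀ i, ∀ s ∈ H0 N (A i), ∃ l : (Fin (M i) → ℂ) →L[ℂ] ℂ, ∀ x, s x = l (π x i)

theorem lin_mem (h : ∀ i j, (fun x => π x i j) ∈ H0 N (A i)) (i : ι)
    (l : (Fin (M i) → ℂ) →L[ℂ] ℂ) : (fun x => l (π x i)) ∈ H0 N (A i) := by
  have : (fun x => l (π x i)) = ∑ j, l (Pi.single j 1) • fun x => π x i j := funext fun x => by
    conv_lhs => rw [pi_eq_sum_univ' (π x i), map_sum]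
    simp [mul_comm]
  rw [this]
  exact Submodule.sum_mem _ fun j _ => Submodule.smul_mem _ _ (h i j)

theorem an_br' (h : ∀ i j, (A i).Sec (fun x => π x i j) x) : AnalyticAt ℂ (br A π x) 0 :=
  analyticAt_pi_iff.2 fun i => analyticAt_pi_iff.2 fun j => h i j

theorem loc_lin (i : ι) (l : (Fin (M i) → ℂ) →L[ℂ] ℂ) (x : X) :
    (A i).loc (fun y => l (π y i)) x = fun t => l (br A π x t i) := funext fun t => by
  have : br A π x t i = ((A i).φ x (R.i x t))⁻¹ • π (R.i x t) i :=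
    funext fun j => div_eq_inv_mul _ _
  rw [this, LB.loc, map_smul, smul_eq_mul, div_eq_inv_mul]

theorem deriv_loc_lin (h : ∀ i j, (A i).Sec (fun x => π x i j) x) (i : ι)
    (l : (Fin (M i) → ℂ) →L[ℂ] ℂ) :
    deriv ((A i).loc (fun y => l (π y i)) x) 0 = l (deriv (br A π x) 0 i) := by
  rw [loc_lin]
  exact ((l ∘L ContinuousLinearMap.proj (R := ℂ) (φ := fun i => Fin (M i) → ℂ) i).hasFDerivAt
    |>.comp_hasDerivAt 0 (an_br' h).differentiableAt.hasDerivAt).deriv

/-- the functions on `X` given by forms of degree `a` -/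
noncomputable def PP (π : X → V M) (a : ι → ℕ) : Submodule ℂ (X → ℂ) :=
  (Base.Pol M a).map (LinearMap.funLeft ℂ ℂ π)

theorem mem_PP {a : ι → ℕ} : s ∈ PP π a ↔ ∃ μ : Tens M a, ∀ x, s x = val μ (π x) :=
  ⟨fun ⟨_, ⟨μ, e⟩, b⟩ => ⟨μ, fun x => by rw [← b, ← e]; rfl⟩,
    fun ⟨μ, e⟩ => ⟨_, Base.val_mem μ, (funext e).symm⟩⟩

theorem PP_mul (a b : ι → ℕ) : PP π a * PP π b ≤ PP π (a + b) :=
  Submodule.mul_le.2 fun _ ⟨_, h, e⟩ _ ⟨_, h', e'⟩ => ⟨_, Base.Pol.mul h h', e ▸ e' ▸ rfl⟩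

theorem Full.le_PP [DecidableEq ι] (h : Full N A π) (i : ι) : H0 N (A i) ≤ PP π (Pi.single i 1) :=
  fun s hs => let ⟨l, e⟩ := h.span i s hs; ⟨_, Base.Pol.lin i l, (funext e).symm⟩

theorem nat_ind [DecidableEq ι] {p : (ι → ℕ) → Prop} (h1 : ∀ i, p (Pi.single i 1))
    (h2 : ∀ a ≠ 0, ∀ i, p a → p (a + Pi.single i 1)) : ∀ a ≠ 0, p a := by
  intro a ha
  induction hn : ∑ i, a i generalizing a with
  | zero => exact absurd (funext fun i => Finset.sum_eq_zero_iff.1 hn i (Finset.mem_univ i)) ha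
  | succ n ih =>
    obtain ⟨i, hi⟩ := ne_iff.1 ha
    have e : a = (a - Pi.single i 1) + Pi.single i 1 := funext fun j => by
      by_cases b : j = i
      · subst b
        have : a j ≠ 0 := hi
        simp; omega
      · simp [b]
    by_cases b : a - Pi.single i 1 = 0
    · rw [e, b, zero_add]; exact h1 i
    · rw [e]
      refine h2 _ b i (ih _ b ?_)
      rw [e] at hn
      simpa [Finset.sum_add_distrib] using hn

theorem Full.normal (h : Full N A π) (h2 : ∀ a : ι → ℕ, a ≠ 0 → ∀ i,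
    H0 N ((bz A fun i => a i) * A i) ≤ H0 N (bz A fun i => a i) * H0 N (A i)) :
    ∀ a : ι → ℕ, a ≠ 0 → H0 N (bz A fun i => a i) ≤ PP π a := by
  classical
  have e : ∀ i, (fun j => ((Pi.single i 1 : ι → ℕ) j : ℤ)) = Pi.single i 1 := fun i =>
    funext fun j => by by_cases b : j = i <;> simp [b]
  refine nat_ind (fun i => ?_) fun a ha i ih => ?_
  · rw [e, bz_single, zpow_one]; exact h.le_PP i
  · have : (bz A fun j => ((a + Pi.single i 1 : ι → ℕ) j : ℤ)) = (bz A fun i => a i) * A i := by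
      rw [← zpow_one (A i), ← bz_single, ← bz_add, ← e]
      congr 1
    rw [this]
    exact (h2 a ha i).trans ((mul_le_mul' ih (h.le_PP i)).trans (PP_mul _ _))

variable [T2Space X] [CompactSpace X]

theorem deg_bz (A : ι → LB R) (a : ι → ℤ) : deg (bz A a) = ∑ i, a i * deg (A i) := by
  simp [bz, deg_prod, deg_zpow]

theorem degOn_bz (A : ι → LB R) (a : ι → ℤ) (U : Set X) :
    degOn (bz A a) U = ∑ i, a i * degOn (A i) U := by
  simp [bz, degOn_prod, degOn_zpow]

theorem degOn_empty : degOn L ∅ = 0 := degOn_of_ne (s := 1) (by simp) (by simp)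

theorem degOn_inter_add_diff {W : Set X} (hU : IsClopen U) (hW : IsClopen W) :
    degOn L (U ∩ W) + degOn L (U \ W) = degOn L U := by
  rw [degOn_eq hU, degOn_eq (hU.inter hW), degOn_eq (hU.diff hW), ← deg_mul]
  exact congrArg deg (LB.ext (funext₂ fun x y => by
    by_cases a : x ∈ U <;> by_cases b : x ∈ W <;> simp [LB.res, a, b]))

theorem Ge.nonneg (h : Ge L 0) (U : Set X) : 0 ≤ degOn L U := by
  by_cases a : IsClopen U
  · exact U.eq_empty_or_nonempty.elim (fun b => by rw [b, degOn_empty]) (h U a)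
  · simp [degOn, a]

theorem Ge.le_deg (h : Ge L 0) (hU : IsClopen U) : degOn L U ≤ deg L := by
  have := degOn_add_compl (L := L) hU
  have := h.nonneg Uᶜ
  omega

theorem Ge.one_of (h : Ge L 0) (h' : ∀ x, ∃ s ∈ L.Γ, x ∈ Gen s ∧ s x = 0) : Ge L 1 :=
  fun U a ⟨x, b⟩ => by
    obtain ⟨s, c, d, e⟩ := h' x
    have f := card_le_degOn (a.inter (isClopen_gen c)) (fun x _ => c x) inter_subset_right
      (T := {x}) (by simpa using ⟨⟨b, d⟩, e⟩)
    have := degOn_inter_add_diff (L := L) a (isClopen_gen c)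
    have := h.nonneg (U \ Gen s)
    simp at f
    omega

theorem exists_ge (L : LB R) : ∃ n : ℕ, Ge L (-n) := by
  obtain ⟨E, a, b⟩ := exists_eff L
  refine ⟨(deg E).toNat, fun U c d => ?_⟩
  have := b.ge U c d
  have := a.ge.le_deg c
  rw [degOn_mul] at *
  omega

theorem ge_of_bpf (h : ∀ x, ∃ s ∈ L.Γ, s x ≠ 0) : Ge L 0 :=
  let ⟨s, a, b, _⟩ := exists_gen le_rfl h finite_empty
  Eff.ge ⟨s, a, b⟩

theorem exists_full (h : ∀ i, finrank ℂ (H0 N (A i)) = M i) : ∃ π : X → V M, Full N A π ∧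
    ∀ i, LinearIndependent ℂ fun j x => π x i j := by
  let b := fun i => finBasisOfFinrankEq ℂ (H0 N (A i)) (h i)
  refine ⟨fun x i j => (b i j).1 x, ⟨fun i j => (b i j).2, fun i s hs =>
    ⟨∑ j, (b i).repr ⟨s, hs⟩ j • ContinuousLinearMap.proj j, fun x => ?_⟩⟩, fun i =>
      (b i).linearIndependent.map' (H0 N (A i)).subtype (Submodule.ker_subtype _)⟩
  have := congrFun (congrArg Subtype.val ((b i).sum_repr ⟨s, hs⟩)) x
  rw [Submodule.coe_sum, Finset.sum_apply] at this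
  simpa using this.symm

/-- **very ample bundles embed the curve** -/
theorem Full.par (h : Full N A π) (hN : Nd N) (ho : Ge (A o / omega R N ∅) 3)
    (hb : ∀ i x, ∃ s ∈ H0 N (A i), s x ≠ 0) : Par o (cone π) N A π := by
  have ne : ∀ x i, π x i ≠ 0 := fun x i e => by
    obtain ⟨s, a, b⟩ := hb i x
    obtain ⟨l, c⟩ := h.span i s a
    exact b (by rw [c, e, map_zero])
  have one : ∀ s ∈ H0 N (A o), ∃ l : (Fin (M o) → ℂ) →L[ℂ] ℂ, ∀ x, s x = l (π x o) ∧
      deriv ((A o).loc s x) 0 = l (deriv (br A π x) 0 o) := fun s a => by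
    obtain ⟨l, c⟩ := h.span o s a
    exact ⟨l, fun x => ⟨c x, by rw [funext c, deriv_loc_lin fun i j => (h.sec i j).1 x]⟩⟩
  refine ⟨hN, h.sec, ne, fun _ => Iff.rfl, fun x y t e => by_contra fun a => ?_, fun x => ?_,
    fun n hn => ?_⟩
  · obtain ⟨s, b, c, d⟩ := exists_sep hN ho a
    obtain ⟨l, f⟩ := h.span o s b
    exact d (by rw [f, e, Pi.smul_apply', map_smul, ← f, c, smul_zero])
  · obtain ⟨s, a, b⟩ := exists_ord_one hN ho x
    obtain ⟨l, c⟩ := one s a
    rw [(a.1 x).ord_eq_one, (c x).1, (c x).2] at b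
    refine LinearIndependent.pair_iff.2 fun u v e => ?_
    have : v = 0 := by simpa [b.1, b.2] using congrArg l e
    exact ⟨by simpa [this, ne x o] using e, this⟩
  · obtain ⟨s, a, b, b'⟩ := exists_cross hN ho (x := n.1) (y := n.2) (.inl hn)
    obtain ⟨s', a', d, d'⟩ := exists_cross hN ho (x := n.2) (y := n.1) (.inr hn)
    obtain ⟨l, c⟩ := one s a
    obtain ⟨l', c'⟩ := one s' a'
    rw [(a.1 _).ord_eq_one, (c _).1, (c _).2] at b
    rw [(a.1 _).two_le_ord, (c _).2] at b'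
    rw [(a'.1 _).ord_eq_one, (c' _).2] at d
    rw [(a'.1 _).two_le_ord, (c' _).1, (c' _).2] at d'
    refine Fintype.linearIndependent_iff.2 fun g e => ?_
    rw [Fin.sum_univ_three] at e
    have e1 : g 1 = 0 := by simpa [b.1, b.2, b'.2] using congrArg l e
    have e2 : g 2 = 0 := by simpa [d'.1, d.2, d'.2] using congrArg l' e
    have e0 : g 0 = 0 := by simpa [e1, e2, ne n.1 o] using e
    intro i
    fin_cases i
    exacts [e0, e1, e2]

theorem Par.isCurve (h : Par o C N A π) (hn : ∀ a : ι → ℕ, a ≠ 0 → H0 N (bz A fun i => a i) ≤ PP π a)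
    (h1 : ∀ a : ι → ℕ, a ≠ 0 → h1 N (bz A fun i => a i) = 0) :
    IsCurve o (gen R N) (fun i => deg (A i)) C :=
  h.isCurve_iff.2 fun a ha => ⟨fun _ hs => mem_PP.1 (hn a ha hs), by
    rw [finrank_H0 (h1 a ha), deg_bz]⟩

theorem ge_bz {B : LB R} (h0 : ∀ i, Ge (A i) 0) (h : ∀ i, Ge (A i / B) 0) {a : ι → ℕ} (ha : a ≠ 0) :
    Ge ((bz A fun i => a i) / B) 0 := fun U b c => by
  obtain ⟨i, hi⟩ := ne_iff.1 ha
  have d := h i U b c
  have e : (a i : ℤ) * degOn (A i) U ≤ ∑ j, (a j : ℤ) * degOn (A j) U :=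
    Finset.single_le_sum (f := fun j => (a j : ℤ) * degOn (A j) U)
      (fun j _ => mul_nonneg (by positivity) (h0 j U b c)) (Finset.mem_univ i)
  have f : (1 : ℤ) ≤ a i := by
    have : a i ≠ 0 := hi
    omega
  have := h0 i U b c
  rw [degOn_div] at d ⊢
  rw [degOn_bz]
  nlinarith

/-- **EMB**: bundles whose degrees are close to those of a large power of an ample bundle `B` with
`B / ω` nef embed the curve as a projectively normal curve -/
theorem Full.isCurve (h : Full N A π) (hN : Nd N) {B : LB R} (hB : Ge B 1)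
    (hω : Ge (B / omega R N ∅) 0) {k c : ℕ} (hk : 2 * c + 7 ≤ k)
    (hA : ∀ i, Ge (A i * B ^ c / B ^ k) 0) (hA' : ∀ i, Ge (B ^ k * B ^ c / A i) 0) :
    Par o (cone π) N A π ∧ IsCurve o (gen R N) (fun i => deg (A i)) (cone π) := by
  have hk' : 2 * (c : ℤ) + 7 ≤ k := by omega
  have g3 : ∀ F : LB R, Ge (F * B ^ c / B ^ k) 0 → Ge (F / omega R N ∅) 3 ∧ Ge F 0 := fun F a => by
    constructor <;> intro U d e
    all_goals
      have := hB U d e
      have := hω U d e
      have := a U d e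
      simp only [degOn_div, degOn_pow, degOn_mul] at *
      nlinarith
  have gb : ∀ a : ι → ℕ, a ≠ 0 → Ge ((bz A fun i => a i) * B ^ c / B ^ k) 0 := fun a ha => by
    have := ge_bz (B := B ^ k / B ^ c) (fun i => (g3 _ (hA i)).2)
      (fun i => by rw [div_div_eq_mul_div]; exact hA i) ha
    rwa [div_div_eq_mul_div] at this
  have p := h.par hN (g3 _ (hA o)).1 fun i => exists_ne hN ((g3 _ (hA i)).1.mono (by norm_num))
  exact ⟨p, p.isCurve (h.normal fun a ha i => H0_le_mul_of_ge hN hB hω hk (gb a ha) (hA i) (hA' i))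
    fun a ha => h1_eq_zero hN ((g3 _ (gb a ha)).1.mono (by norm_num))⟩

theorem Par.bpf (h : Par o C N A π) (i : ι) (x : X) : ∃ s ∈ H0 N (A i), s x ≠ 0 :=
  let ⟨j, a⟩ := ne_iff.1 (h.ne x i)
  ⟨_, h.sec i j, a⟩

theorem Par.ge_zero (h : Par o C N A π) (i : ι) : Ge (A i) 0 :=
  ge_of_bpf fun x => let ⟨s, a, b⟩ := h.bpf i x; ⟨s, a.1, b⟩

theorem Par.exists_ord_one (h : Par o C N A π) (x : X) : ∃ l : (Fin (M o) → ℂ) →L[ℂ] ℂ,
    (A o).ord (fun y => l (π y o)) x = 1 := by
  obtain ⟨l, a, b⟩ := Submodule.exists_dual_map_eq_bot_of_notMem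
    (p := ℂ ∙ π x o) (x := deriv (br A π x) 0 o) (fun a => by
      obtain ⟨c, e⟩ := Submodule.mem_span_singleton.1 a
      simpa using (LinearIndependent.pair_iff.1 (h.imm x) c (-1) (by simp [e])).2) inferInstance
  refine ⟨l.toContinuousLinearMap, ((lin_mem h.sec o _).1 x).ord_eq_one.2 ⟨?_, ?_⟩⟩
  · exact (Submodule.eq_bot_iff _).1 b _ ⟨_, Submodule.mem_span_singleton_self _, rfl⟩
  · rwa [deriv_loc_lin fun i j => (h.sec i j).1 x]

theorem Par.ge_one (h : Par o C N A π) : Ge (A o) 1 := (h.ge_zero o).one_of fun x => by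
  obtain ⟨l, a⟩ := h.exists_ord_one x
  have b := (lin_mem h.sec o l).1
  exact ⟨_, b, (b x).ord_ne_top.1 (by rw [a]; simp), ((b x).ord_eq_one.1 a).1⟩

/-- the numbers of `IsCurve` are the genus and the degrees -/
theorem Par.numbers (h : Par o C N A π) {g : ℤ} {m : ι → ℤ} (hC : IsCurve o g m C) :
    gen R N = g ∧ (∀ i, deg (A i) = m i) ∧ ∀ a : ι → ℕ, a ≠ 0 → h1 N (bz A fun i => a i) = 0 := by
  classical
  obtain ⟨n, hn⟩ := exists_ge (omega R N ∅)⁻¹
  have k : ∀ a : ι → ℕ, n < a o → ∑ i, (a i : ℤ) * deg (A i) - gen R N = ∑ i, a i * m i - g :=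
    fun a ha => by
      have b := (h.isCurve_iff.1 hC a fun e => by simp [e] at ha).2
      rw [finrank_H0 (h1_eq_zero h.nd fun U c d => ?_), deg_bz] at b
      · omega
      have e : (a o : ℤ) * degOn (A o) U ≤ ∑ j, (a j : ℤ) * degOn (A j) U :=
        Finset.single_le_sum (f := fun j => (a j : ℤ) * degOn (A j) U)
          (fun j _ => mul_nonneg (by positivity) (h.ge_zero j U c d)) (Finset.mem_univ o)
      have := h.ge_one U c d
      have := hn U c d
      have : (n : ℤ) + 1 ≤ a o := by omega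
      rw [degOn_div, degOn_bz]
      rw [degOn_inv] at *
      nlinarith
  have s1 : ∀ (i : ι) (q : ℕ) (f : ι → ℤ), ∑ j, ((Pi.single i q : ι → ℕ) j : ℤ) * f j = q * f i :=
    fun i q f => by
      rw [Finset.sum_eq_single i (fun j _ b => by simp [b]) (by simp), Pi.single_eq_same]
  have k0 := k (Pi.single o (n + 1)) (by simp)
  have d : ∀ i, deg (A i) = m i := fun i => by
    have := k (Pi.single o (n + 1) + Pi.single i 1) (by simp; omega)
    simp only [Pi.add_apply, Nat.cast_add, add_mul, Finset.sum_add_distrib, s1] at this k0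
    omega
  simp only [d] at k0
  refine ⟨by omega, d, fun a ha => ?_⟩
  rw [h1, (h.isCurve_iff.1 hC a ha).2, deg_bz]
  simp only [d]
  omega

end Vale.Agent.P269.Cv
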