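import Vale.Agent.P269.Cv.Cut
import Vale.Agent.P269.Cv.Rat

/-!
# Embedding by bundles of different sizes; uniform bounds for stable maps
-/

set_option linter.unusedSectionVars false

namespace Vale.Agent.P269.Cv

open Set Function Topology Filter Module

variable {X : Type} [TopologicalSpace X] {R : RS X} {L L' B : LB R} {N : Finset (X × X)}
  {ι : Type} [Fintype ι] {M : ι → ℕ} {o : ι} {A : ι → LB R} {π : X → V M} [T2Space X]
  [CompactSpace X]

variable (N) in
/-- `L` is a product of base point free bundles that are small compared with `F` -/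
def Small (L F : LB R) : Prop :=
  L ∈ Submonoid.closure {P | Bpf N P ∧ Ge (F / P / omega R N ∅) 1}

theorem Small.mono {F F' : LB R} (h : Small N L F) (e : Ge (F' / F) 0) : Small N L F' :=
  Submonoid.closure_mono (fun P a => And.intro a.1 fun U b d => by
    have := a.2 U b d
    have := e U b d
    simp only [degOn_div] at *
    omega) h

theorem Small.bpf {F : LB R} (h : Small N L F) : Bpf N L := by
  induction h using Submonoid.closure_induction with
  | mem _ a => exact a.1
  | one => exact fun _ => ⟨1, H0.one_mem, one_ne_zero⟩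
  | mul _ _ _ _ a b => exact a.mul b

theorem Small.H0_le {F : LB R} (h : Small N L F) (hN : Nd N) : H0 N (F * L) ≤ H0 N F * H0 N L :=
  H0_le_mul_closure hN (fun _ a => a) h

theorem small_of_ge {F : LB R} (hN : Nd N) (hB : Ge B 1) (hω : Ge (B / omega R N ∅) 0) {k c : ℕ}
    (hk : c + 6 ≤ k) (hA : Ge (L * B ^ c / B ^ k) 0) (hA' : Ge (B ^ k * B ^ c / L) 0)
    (hF : Ge (F / B ^ (2 * c + 7)) 0) : Small N L F :=
  Submonoid.closure_mono (fun P a => And.intro a.1 fun U b d => by
    have := a.2 U b d
    have := hB U b d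
    have := hω U b d
    have := hF U b d
    simp only [degOn_div, degOn_pow] at *
    push_cast at *
    linarith) (mem_closure_of_ge hN hB hω hk hA hA')

theorem ge_bz_nat (h : ∀ i, Ge (A i) 0) (a : ι → ℕ) : Ge (bz A fun i => a i) 0 := by
  simpa [bz] using Ge.prod (T := Finset.univ) fun i _ => (h i).pow (a i)

theorem ge_bz_div (h : ∀ i, Ge (A i) 0) {a : ι → ℕ} {k : ι} (hk : a k ≠ 0) :
    Ge ((bz A fun i => a i) / A k) 0 := by
  classical
  rw [← zpow_one (A k), ← bz_single, ← bz_sub]
  convert ge_bz_nat h (a - Pi.single k 1) using 3 with i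
  by_cases e : i = k <;> simp [e]
  omega

/-- **EMB** for bundles that are small compared with each other -/
theorem Full.isCurve_of_small (h : Full N A π) (hN : Nd N) (ho : Ge (A o / omega R N ∅) 3)
    (h1 : ∀ i, Ge (A i / omega R N ∅) 1) (hs : ∀ i i', Small N (A i) (A i')) :
    Par o (cone π) N A π ∧ IsCurve o (gen R N) (fun i => deg (A i)) (cone π) := by
  have b : ∀ i, Bpf N (A i) := fun i => (hs i i).bpf
  have p := h.par hN ho b
  refine ⟨p, p.isCurve (h.normal fun a ha i => ?_) fun a ha =>
    h1_eq_zero hN fun U d e => ?_⟩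
  all_goals
    obtain ⟨k, hk⟩ := ne_iff.1 ha
    have f := ge_bz_div (fun i => (b i).ge) hk
  · exact ((hs i k).mono f).H0_le hN
  · have := f U d e
    have := h1 k U d e
    simp only [degOn_div] at *
    omega

/-- **EMB** for bundles close to possibly different powers of `B` -/
theorem Full.isCurve' (h : Full N A π) (hN : Nd N) (hB : Ge B 1) (hω : Ge (B / omega R N ∅) 0)
    {k : ι → ℕ} {c : ℕ} (hk : ∀ i, 3 * c + 7 ≤ k i) (hA : ∀ i, Ge (A i * B ^ c / B ^ k i) 0)
    (hA' : ∀ i, Ge (B ^ k i * B ^ c / A i) 0) :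
    Par o (cone π) N A π ∧ IsCurve o (gen R N) (fun i => deg (A i)) (cone π) := by
  have k1 : ∀ i U, IsClopen U → U.Nonempty → (2 * c + 7) * degOn B U ≤ degOn (A i) U :=
    fun i U a b => by
      have := hA i U a b
      have := hB U a b
      have : (3 * c + 7 : ℤ) ≤ k i := by exact_mod_cast hk i
      simp only [degOn_div, degOn_mul, degOn_pow] at *
      nlinarith
  have k2 : ∀ i, Ge (A i / omega R N ∅) 3 := fun i U a b => by
    have := k1 i U a b
    have := hB U a b
    have := hω U a b
    simp only [degOn_div] at *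
    nlinarith
  exact h.isCurve_of_small hN (k2 o) (fun i => (k2 i).mono (by norm_num)) fun i i' =>
    small_of_ge hN hB hω (by have := hk i; omega) (hA i) (hA' i) fun U a b => by
      have := k1 i' U a b
      simp only [degOn_div, degOn_pow]
      push_cast
      linarith

theorem degOn_K_le_omega (N : Finset (X × X)) (P : Finset X) (U : Set X) :
    degOn R.K U ≤ degOn (omega R N P) U := by
  have a : ∀ p : X, 0 ≤ degOn (R.pt p) U := fun p => (eff_pt p).ge.nonneg U
  rw [degOn_omega, add_assoc]
  exact le_add_of_nonneg_right (add_nonneg (Finset.sum_nonneg fun n _ => add_nonneg (a _) (a _))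
    (Finset.sum_nonneg fun _ _ => a _))

/-- **uniform bounds**: if `T ^ n ⊗ L^(±1)` are nef and `B = ω_log ⊗ T ^ 3` is ample, then `L` is
bounded by `B ^ n` -/
theorem ge_of_ample {T : LB R} {P : Finset X} {n : ℕ} (hn : 0 < n) (hT : Ge (T ^ n) 0)
    (hB : Ge (omega R N P * T ^ 3) 1) : Ge (omega R N P * T ^ 3 / T) 0 := by
  refine (ge_iff_comp le_rfl).2 fun x => ?_
  have a := (exists_comp (R := R) x).1
  have b := (degOn_K_ge (R := R) a isConnected_connectedComponent).1
  have := degOn_K_le_omega (R := R) N P (connectedComponent x)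
  have := (hT.of_pow' hn.ne') _ a ⟨x, mem_connectedComponent⟩
  have := hB _ a ⟨x, mem_connectedComponent⟩
  simp only [degOn_div, degOn_mul, degOn_pow] at *
  omega

end Vale.Agent.P269.Cv
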