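import Vale.Agent.P269.Cv.Defs
import Vale.Agent.P275RR.Mod
import Vale.Agent.P275GC.Ex

/-!
# Comparison with Dolbeault cohomology: finiteness, additivity of the Euler characteristic
-/

set_option linter.unusedSectionVars false

namespace Vale.Agent.P269.Cv

open Set Function Topology Filter Module Metric P275GC P275RR

variable {X : Type} [TopologicalSpace X] {R : RS X}

/-- A chart compatible with the complex structure. -/
def RS.Cmp (R : RS X) (E : OpenPartialHomeomorph X ℂ) : Prop :=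
  ∀ y ∈ E.source, R.Hol E y ∧ R.d E y ≠ 0

theorem RS.cmp_e (R : RS X) (x : X) : R.Cmp (R.e x) := R.hol x

namespace RS.Cmp

variable {E : OpenPartialHomeomorph X ℂ} {y : X} {z : ℂ}

theorem an_tr (h : R.Cmp E) (hy : y ∈ E.source) :
    AnalyticAt ℂ (fun t => R.e y (E.symm t)) (E y) := by
  have h0 : (0 : ℂ) ∈ ((R.e y).symm.trans E).source :=
    ⟨R.zero_mem y, by
      show R.i y 0 ∈ E.source
      rw [R.i_zero]; exact hy⟩
  have e0 : ((R.e y).symm.trans E) 0 = E y := congrArg E (R.i_zero y)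
  have b := ((R.e y).symm.trans E).analyticAt_symm'
    (i := ContinuousLinearEquiv.unitsEquivAut ℂ (Units.mk0 _ (h y hy).2)) h0 (h y hy).1 (by
      ext
      simp
      rfl)
  rw [e0] at b
  exact b

theorem ev_src (hy : y ∈ E.source) : ∀ᶠ t in 𝓝 (E y), E.symm t ∈ (R.e y).source :=
  E.continuousAt_symm (E.map_source hy) (by rw [E.left_inv hy]; exact R.src_nhds y)

theorem ev_tr {α : Type} (f : X → α) (hy : y ∈ E.source) :
    (fun t => f (R.i y (R.e y (E.symm t)))) =ᶠ[𝓝 (E y)] fun t => f (E.symm t) :=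
  (ev_src hy).mono fun _ ht => congrArg f (R.i_e ht)

theorem hol_iff {F : Type} [NormedAddCommGroup F] [NormedSpace ℂ F] [CompleteSpace F] {f : X → F}
    (h : R.Cmp E) (hy : y ∈ E.source) :
    R.Hol f y ↔ AnalyticAt ℂ (fun t => f (E.symm t)) (E y) :=
  ⟨fun a => (AnalyticAt.comp_of_eq a (h.an_tr hy) (by rw [E.left_inv hy, R.zero])).congr
    (ev_tr f hy), fun a => (Hol.comp a (h y hy).1).congr
      (Eventually.mono (E.open_source.mem_nhds hy) fun _ hz => congrArg f (E.left_inv hz))⟩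

theorem hol_iff' {F : Type} [NormedAddCommGroup F] [NormedSpace ℂ F] [CompleteSpace F] {f : X → F}
    (h : R.Cmp E) (hz : z ∈ E.target) :
    R.Hol f (E.symm z) ↔ AnalyticAt ℂ (fun t => f (E.symm t)) z := by
  rw [h.hol_iff (E.map_target hz), E.right_inv hz]

theorem d_eq {f : X → ℂ} (h : R.Cmp E) (hy : y ∈ E.source) (a : R.Hol f y) :
    R.d f y = deriv (fun t => f (E.symm t)) (E y) * R.d E y := by
  rw [← d_comp ((h.hol_iff hy).1 a) (h y hy).1]
  exact d_congr (Eventually.mono (E.open_source.mem_nhds hy) fun z hz =>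
    congrArg f (E.left_inv hz).symm)

theorem order_eq {f : X → ℂ} (h : R.Cmp E) (hy : y ∈ E.source) :
    analyticOrderAt (fun t => f (E.symm t)) (E y) = analyticOrderAt (fun t => f (R.i y t)) 0 := by
  have a : deriv (fun t => R.e y (E.symm t)) (E y) ≠ 0 := fun e => by
    have := h.d_eq hy (hol_e (R.mem y))
    rw [e, zero_mul, d_e_self] at this
    exact one_ne_zero this
  rw [← analyticOrderAt_congr (ev_tr (R := R) f hy)]
  have := analyticOrderAt_comp_of_deriv_ne_zero (f := fun t => f (R.i y t)) (h.an_tr hy) a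
  rw [E.left_inv hy, R.zero] at this
  exact this

/-- the order of vanishing in any chart and any frame -/
theorem ord_eq {L : LB R} {s η : X → ℂ} (h : R.Cmp E) (hy : y ∈ E.source) (hs : L.Sec s y)
    (hη : L.Sec η y) (h0 : η y ≠ 0) :
    analyticOrderAt (fun t => s (E.symm t) / η (E.symm t)) (E y) = L.ord s y := by
  rw [h.order_eq (f := fun z => s z / η z) hy]
  have := LB.ord_mul hs (hη.inv h0)
  rw [(LB.ord_eq_zero (hη.inv h0)).2 (inv_ne_zero h0), add_zero, mul_inv_cancel] at this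
  rw [← this, LB.ord]
  congr 1
  funext t
  simp [LB.loc, div_eq_mul_inv]

end RS.Cmp

/-- the charted space structure -/
@[reducible] noncomputable def RS.cs (R : RS X) : ChartedSpace ℂ X :=
  ⟨range R.e, R.e, R.mem, fun x => ⟨x, rfl⟩⟩

theorem RS.exists_at [CompactSpace X] (R : RS X) {p : X → X → Prop}
    (hp : ∀ x, ∀ᶠ y in 𝓝 x, p x y) : ∃ (A : At X) (c : Fin A.N → X),
      ∀ i, R.Cmp (A.e i) ∧ ∀ y ∈ (A.e i).source, p (c i) y := by
  let _ := R.cs
  have rad : ∀ x, ∃ r, 0 < r ∧ ball (chartAt ℂ x x) r ⊆ (chartAt ℂ x).target ∧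
      ∀ hr : 0 < r, ∀ y ∈ (dch x hr).source, p x y := fun x => by
    obtain ⟨r, hr, h⟩ := Metric.mem_nhds_iff.1 ((R.tgt_nhds x).and (R.ev_iff.1 (hp x)))
    rw [← R.zero x] at h
    refine ⟨r, hr, fun z hz => (h hz).1, fun _ y hy => ?_⟩
    rw [dch_src] at hy
    exact R.i_e hy.1 ▸ (h hy.2).2
  choose r hr h1 h2 using rad
  have cm : ∀ x, R.Cmp (dch x (hr x)) := fun x y hy => by
    have a : R.Hol (R.e x) y := hol_e (dch_src.1 hy).1
    refine ⟨(hol_const _).mul (a.sub (hol_const _)), ?_⟩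
    have := d_comp (u := fun w => ((4 / r x : ℝ) : ℂ) * (w - R.e x x)) (by fun_prop) a
    refine this ▸ mul_ne_zero ?_ (d_e_ne (dch_src.1 hy).1)
    simp [(hr x).ne']
  obtain ⟨T, hT⟩ := isCompact_univ.elim_finite_subcover
    (fun x : X => (dch x (hr x)).source ∩ dch x (hr x) ⁻¹' ball 0 1)
    (fun x => (dch x (hr x)).isOpen_inter_preimage isOpen_ball) fun y _ =>
      mem_iUnion.2 ⟨y, dch_src.2 ⟨R.mem y, mem_ball_self (hr y)⟩, by
        rw [mem_preimage, dch_self]; exact mem_ball_self one_pos⟩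
  let c : Fin T.card → X := fun i => (T.equivFin.symm i).1
  refine ⟨⟨T.card, 4, by norm_num, fun i => dch (c i) (hr _), fun i => dch_tgt (h1 _), fun x => ?_,
    fun i j z hz => ?_⟩, c, fun i => ⟨cm _, h2 _ (hr _)⟩⟩
  · obtain ⟨y, hy, a, b⟩ := mem_iUnion₂.1 (hT (mem_univ x))
    have e : c (T.equivFin ⟨y, hy⟩) = y := by simp [c]
    exact ⟨T.equivFin ⟨y, hy⟩, by rw [e]; exact a, by rw [e]; exact mem_ball_zero_iff.1 b⟩
  · exact (((cm _).hol_iff' ((dch_tgt (h1 _)).symm ▸ hz.1)).1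
      (cm _ _ hz.2).1).differentiableAt.differentiableWithinAt

variable {A : At X} {L L' : LB R} {ψ ψ' : Fin A.N → X → ℂ} {i j : Fin A.N} {z : ℂ}

variable (A L) in
/-- frames over the charts of an atlas -/
def Fr (ψ : Fin A.N → X → ℂ) : Prop := ∀ i, ∀ y ∈ (A.e i).source, L.Sec (ψ i) y ∧ ψ i y ≠ 0

variable (A) in
/-- the cocycle of a family of frames -/
noncomputable def co (ψ : Fin A.N → X → ℂ) : Co A ℂ := fun i j z =>
  ψ j ((A.e i).symm z) / ψ i ((A.e i).symm z)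

variable (A) in
/-- the local expressions of a section -/
noncomputable def fam (ψ : Fin A.N → X → ℂ) (s : X → ℂ) : Fam A ℂ := fun i z =>
  s ((A.e i).symm z) / ψ i ((A.e i).symm z)

theorem Fr.mul (h : Fr A L ψ) (h' : Fr A L' ψ') : Fr A (L * L') (ψ * ψ') := fun i y hy =>
  ⟨(h i y hy).1.mul (h' i y hy).1, mul_ne_zero (h i y hy).2 (h' i y hy).2⟩

theorem Fr.div (h : Fr A L ψ) (h' : Fr A L' ψ') : Fr A (L / L') (ψ / ψ') := fun i y hy =>
  ⟨(h i y hy).1.div (h' i y hy).1 (h' i y hy).2, div_ne_zero (h i y hy).2 (h' i y hy).2⟩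

theorem fr_K (hA : ∀ i, R.Cmp (A.e i)) : Fr A R.K fun i => R.d (A.e i) := fun i y hy =>
  ⟨(hA i y hy).1.sec_d, (hA i y hy).2⟩

theorem Fr.an (hA : ∀ i, R.Cmp (A.e i)) (h : Fr A L ψ) {s : X → ℂ} (hz : z ∈ ball (0 : ℂ) A.R) :
    L.Sec s ((A.e i).symm z) ↔ AnalyticAt ℂ (fam A ψ s i) z := by
  rw [(h i _ (At.map_tgt hz)).1.iff_div (h i _ (At.map_tgt hz)).2,
    (hA i).hol_iff' (At.mem_tgt.2 hz)]
  rfl

theorem Fr.cc (hA : ∀ i, R.Cmp (A.e i)) (h : Fr A L ψ) : A.Cc (co A ψ) where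
  hol i j z hz := ((h.an hA hz.1).1 (h j _ hz.2).1).differentiableAt.differentiableWithinAt
  one i z hz := div_self (h i _ (At.map_tgt hz)).2
  mul i j k z hz _ := by
    simp only [co, At.symm_tr hz]
    field_simp [(h j _ hz.2).2]

theorem Fr.sv (h : Fr A L ψ) (s : X → ℂ) : SV A (ln A (co A ψ)) (fam A ψ s) := fun i j z hz => by
  simp only [ln_apply, co, fam, At.symm_tr hz]
  field_simp [(h j _ hz.2).2]

/-- the family of a section -/
noncomputable def Fr.toH (hA : ∀ i, R.Cmp (A.e i)) (h : Fr A L ψ) :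
    L.Γ →ₗ[ℂ] P275RR.H0 A (ln A (co A ψ)) where
  toFun s := ⟨cut A (fam A ψ s), cut_mem0 (fun _ _ hz =>
    ((h.an hA hz).1 (s.2 _)).differentiableAt.differentiableWithinAt) (h.sv s)⟩
  map_add' s t := Subtype.ext (funext₂ fun i z => by
    by_cases hz : z ∈ ball (0 : ℂ) A.R <;> simp [cut, hz, fam, add_div])
  map_smul' c s := Subtype.ext (funext₂ fun i z => by
    by_cases hz : z ∈ ball (0 : ℂ) A.R <;> simp [cut, hz, fam, mul_div_assoc])

/-- the function on `X` given by a family -/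
noncomputable def glue (ψ : Fin A.N → X → ℂ) (u : Fam A ℂ) (y : X) : ℂ :=
  u (ch A y) (pc A y) * ψ (ch A y) y

theorem fam_glue {u : Fam A ℂ} (hu : SV A (ln A (co A ψ)) u)
    (hz : z ∈ ball (0 : ℂ) A.R) : fam A ψ (glue ψ u) i z = u i z := by
  obtain ⟨a, b⟩ := O_ch (i := i) hz rfl
  rw [hu i _ z a, b, ln_apply, fam, glue, co]
  ring

theorem Fr.toH_bij (hA : ∀ i, R.Cmp (A.e i)) (h : Fr A L ψ) : Bijective (h.toH hA) := by
  refine ⟨(injective_iff_map_eq_zero _).2 fun s hs => Subtype.ext (funext fun y => ?_),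
    fun u => ⟨⟨glue ψ u.1, fun y => ?_⟩, Subtype.ext (Nz.ext (nz_cut _) u.2.2.2 fun i z hz => ?_)⟩⟩
  · have : cut A (fam A ψ s) (ch A y) (pc A y) = 0 := congrFun₂ (congrArg Subtype.val hs) _ _
    rw [cut_of _ (pc_ball y), fam, symm_pc] at this
    exact (div_eq_zero_iff.1 this).resolve_right (h _ y (ch_src y)).2
  · rw [← symm_pc (A := A) y, h.an hA (pc_ball y)]
    exact (u.2.1.an (pc_ball y) _).congr (Eventually.mono (isOpen_ball.mem_nhds (pc_ball y))
      fun w hw => (fam_glue u.2.2.1 hw).symm)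
  · exact (cut_of _ hz).trans (fam_glue u.2.2.1 hz)

theorem Fr.h0_eq (hA : ∀ i, R.Cmp (A.e i)) (h : Fr A L ψ) :
    h0 A (ln A (co A ψ)) = finrank ℂ L.Γ :=
  (LinearEquiv.ofBijective _ (h.toH_bij hA)).finrank_eq.symm

theorem Fr.sd (hA : ∀ i, R.Cmp (A.e i)) (h : Fr A L ψ) : SD A (ContinuousLinearMap.mul ℂ ℂ)
    (ln A (co A ((fun i => R.d (A.e i)) / ψ))) (ln A (co A ψ)) where
  bij := ⟨fun a b e => by simpa using congrArg (fun l : ℂ →L[ℂ] ℂ => l 1) e,
    fun l => ⟨l 1, by ext; simp⟩⟩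
  eq i j z hz y x := by
    have a := (hA i).d_eq (At.map_tgt hz.1) (hA j _ hz.2).1
    rw [At.rinv hz.1] at a
    simp only [ln_apply, co, ContinuousLinearMap.mul_apply', Pi.div_apply, a, At.d]
    have := (h i _ (At.map_tgt hz.1)).2
    have := (h j _ hz.2).2
    have := (hA i _ (At.map_tgt hz.1)).2
    unfold At.tr
    field_simp

variable [T2Space X]

theorem Fr.h1_eq (hA : ∀ i, R.Cmp (A.e i)) (h : Fr A L ψ) :
    P275RR.h1 A (ln A (co A ψ)) = finrank ℂ (R.K / L).Γ := by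
  rw [P275RR.h1_eq (cc_ln (h.cc hA)) (cc_ln (((fr_K hA).div h).cc hA)) (h.sd hA),
    ((fr_K hA).div h).h0_eq hA]

theorem Fr.chi_eq (hA : ∀ i, R.Cmp (A.e i)) (h : Fr A L ψ) :
    P275RR.chi A (ln A (co A ψ)) = chi L := by
  rw [P275RR.chi, h.h0_eq hA, h.h1_eq hA, chi]

variable [CompactSpace X]

theorem exists_fr (L L' : LB R) : ∃ (A : At X) (ψ ψ' : Fin A.N → X → ℂ),
    (∀ i, R.Cmp (A.e i)) ∧ Fr A L ψ ∧ Fr A L' ψ' := by
  obtain ⟨A, c, h⟩ := R.exists_at fun x => (L.sec_φ x).and (L'.sec_φ x)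
  exact ⟨A, fun i => L.φ (c i), fun i => L'.φ (c i), fun i => (h i).1,
    fun i y hy => ⟨((h i).2 y hy).1, L.ne _ _⟩, fun i y hy => ⟨((h i).2 y hy).2, L'.ne _ _⟩⟩

instance fin_Γ (L : LB R) : FiniteDimensional ℂ L.Γ := by
  obtain ⟨A, ψ, -, hA, h, -⟩ := exists_fr L L
  have := fin_H0 (cc_ln (h.cc hA))
  exact (LinearEquiv.ofBijective _ (h.toH_bij hA)).symm.finiteDimensional

/-- **additivity**: multiplication by a section with finitely many zeros -/
theorem chi_mul (L : LB R) {s : X → ℂ} (hs : s ∈ L'.Γ) (Z : Finset X) (hZ : ∀ y ∉ Z, s y ≠ 0)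
    (m : X → ℕ) (hm : ∀ x ∈ Z, L'.ord s x = m x) : chi (L * L') = chi L + ∑ x ∈ Z, m x ∧
      finrank ℂ (R.K / (L * L')).Γ ≤ finrank ℂ (R.K / L).Γ := by
  obtain ⟨A, ψ, ψ', hA, h, h'⟩ := exists_fr L L'
  have := mod_aux (Z := Z) (φ := fun i z => fam A ψ' s i z • (1 : ℂ →L[ℂ] ℂ)) (cc_ln (h.cc hA))
    (cc_ln ((h.mul h').cc hA)) ⟨fun i z hz => ?_, fun i j z hz x => ?_⟩ m (fun i z hz a => ?_)
    fun x hx => ?_
  · rwa [h.chi_eq hA, (h.mul h').chi_eq hA, h.h1_eq hA, (h.mul h').h1_eq hA] at this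
  · exact (((h'.an hA hz).1 (hs _)).smul
      analyticAt_const).differentiableAt.differentiableWithinAt
  · simp only [ln_apply, co, fam, At.symm_tr hz, smul_apply, Pi.mul_apply,
      one_apply_eq_self, smul_eq_mul]
    field_simp [(h' j _ hz.2).2]
  · rw [isUnit_iff_det, det_smul', det_one', mul_one]
    exact pow_ne_zero _ (div_ne_zero (hZ _ a) (h' i _ (At.map_tgt hz)).2)
  · simp only [det_smul', det_one', mul_one, finrank_self, pow_one]
    rw [← hm x hx]
    exact (hA _).ord_eq (ch_src x) (hs x) (h' _ x (ch_src x)).1 (h' _ x (ch_src x)).2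

end Vale.Agent.P269.Cv
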