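import Vale.Agent.P269.Cv.Emb
import Vale.Agent.P269.Base.Crv

/-!
# Forms that cut out a curve; projective normality with nef factors
-/

set_option linter.unusedSectionVars false

namespace Vale.Agent.P269.Cv

open Set Function Topology Filter Module

variable {X : Type} [TopologicalSpace X] {R : RS X} {L L' : LB R} {s s' : X → ℂ} {x y : X}
  {U : Set X} {N : Finset (X × X)} {ι : Type} [Fintype ι] {M : ι → ℕ} {o : ι} {A : ι → LB R}
  {π : X → V M} {C : Set (V M)} [T2Space X] [CompactSpace X]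

theorem PP_le (h : ∀ i j, (fun x => π x i j) ∈ H0 N (A i)) (a : ι → ℕ) :
    PP π a ≤ H0 N (bz A fun i => a i) := fun _ hs =>
  let ⟨μ, e⟩ := mem_PP.1 hs
  funext e ▸ val_mem h μ

theorem Par.le_PP (h : Par o C N A π) {g : ℤ} {m : ι → ℤ} (hC : IsCurve o g m C) {a : ι → ℕ}
    (ha : a ≠ 0) : H0 N (bz A fun i => a i) ≤ PP π a := fun s hs =>
  mem_PP.2 ((h.isCurve_iff.1 hC a ha).1 s hs)

theorem exists_lin_sep {n : ℕ} {u v : Fin n → ℂ} (h : ∀ t : ℂ, v ≠ t • u) :
    ∃ l : (Fin n → ℂ) →L[ℂ] ℂ, l u = 0 ∧ l v ≠ 0 := by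
  obtain ⟨l, a, b⟩ := Submodule.exists_dual_map_eq_bot_of_notMem (p := ℂ ∙ u) (x := v)
    (fun a => let ⟨c, e⟩ := Submodule.mem_span_singleton.1 a; h c e.symm) inferInstance
  exact ⟨l.toContinuousLinearMap,
    (Submodule.eq_bot_iff _).1 b _ ⟨_, Submodule.mem_span_singleton_self _, rfl⟩, a⟩

/-- **the curve is cut out by the forms of degree `a` that vanish on it** -/
theorem Par.exists_cut (h : Par o C N A π) {g : ℤ} {m : ι → ℤ} (hC : IsCurve o g m C) {a : ι → ℕ}
    (ha : ∀ i, 2 ≤ a i) (ho : 3 ≤ a o) {c : V M} (hc : ∀ i, c i ≠ 0) (hn : c ∉ C) :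
    ∃ μ : Tens M a, (∀ y ∈ C, val μ y = 0) ∧ val μ c ≠ 0 := by
  classical
  let W : Submodule ℂ (X → ℂ) :=
    (Base.Pol M 1 ⊓ LinearMap.ker (LinearMap.proj c)).map (LinearMap.funLeft ℂ ℂ π)
  have hW : W ≤ H0 N (bz A fun i => (1 : ι → ℕ) i) :=
    (Submodule.map_mono inf_le_left).trans (PP_le h.sec 1)
  have bp : ∀ x, ∃ s ∈ W, s x ≠ 0 := fun x => by
    obtain ⟨i, hi⟩ : ∃ i, ∀ t : ℂ, π x i ≠ t • c i := by
      by_contra! b
      choose t ht using b
      have ne : ∀ i, t i ≠ 0 := fun i e => h.ne x i (by rw [ht, e, zero_smul])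
      exact hn (Dict.inv_smul ne c ▸ h.cone _ (fun i => inv_ne_zero (ne i)) _
        ((funext ht : π x = t • c) ▸ h.mem x))
    obtain ⟨l, b, d⟩ := exists_lin_sep hi
    obtain ⟨ζ, e⟩ := Base.exists_lin_one (h.ne x)
    refine ⟨_, ⟨_, ⟨Base.Pol.mono (update ζ i l) 1, ?_⟩, rfl⟩, ?_⟩
    · exact Finset.prod_eq_zero (Finset.mem_univ i) (by simp [b])
    · refine Finset.prod_ne_zero_iff.2 fun j _ => ?_
      by_cases f : j = i
      · subst f; simpa using d
      · simp [f, e]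
  obtain ⟨_, w, _, w', b⟩ := exists_pencil (hW.trans H0_le) bp
  have e1 : (bz A fun i => (a - 1 : ι → ℕ) i) * (bz A fun i => (1 : ι → ℕ) i) =
      bz A fun i => a i := by
    rw [← bz_add]; congr 1; funext i; have := ha i; simp; omega
  have e2 : (bz A fun i => (a - 1 : ι → ℕ) i) / (bz A fun i => (1 : ι → ℕ) i) =
      bz A fun i => (a - 2 : ι → ℕ) i := by
    rw [← bz_sub]; congr 1; funext i; have := ha i; simp; omega
  have n0 : a ≠ 0 := fun e => by simp [e] at ho
  have n1 : a - 1 ≠ 0 := fun e => by have := congrFun e o; simp at this; omega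
  have n2 : a - 2 ≠ 0 := fun e => by have := congrFun e o; simp at this; omega
  obtain ⟨ζ, hζ⟩ := Base.exists_lin_one hc
  obtain ⟨f, d, f', d', e⟩ := pencil (hW w) (hW w') b (e2 ▸ (h.numbers hC).2.2 _ n2)
    (e1 ▸ (h.numbers hC).2.2 _ n0) (e1 ▸ PP_le h.sec a ⟨_, Base.Pol.mono ζ a, rfl⟩)
  obtain ⟨S, ⟨p, q⟩, rfl⟩ := w
  obtain ⟨S', ⟨p', q'⟩, rfl⟩ := w'
  obtain ⟨F, r, rfl⟩ := h.le_PP hC n1 d
  obtain ⟨F', r', rfl⟩ := h.le_PP hC n1 d'
  have e3 : a - 1 + 1 = a := funext fun i => by have := ha i; simp; omega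
  have G := sub_mem (Base.Pol.mono ζ a) (add_mem (Base.Pol.mul' r p e3) (Base.Pol.mul' r' p' e3))
  obtain ⟨μ, hμ⟩ := Base.mem_Pol.1 G
  refine ⟨μ, fun y hy => ?_, ?_⟩
  · obtain ⟨x, t, -, rfl⟩ := (h.img y).1 hy
    rw [Dict.val_smul, hμ]
    exact mul_eq_zero_of_right _ (sub_eq_zero.2 (congrFun e x))
  · have q1 : S c = 0 := q
    have q2 : S' c = 0 := q'
    simp [hμ, hζ, q1, q2]

variable (N) in
/-- base point free -/
def Bpf (L : LB R) : Prop := ∀ x, ∃ s ∈ H0 N L, s x ≠ 0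

theorem Bpf.ge (h : Bpf N L) : Ge L 0 := ge_of_bpf fun x => let ⟨s, a, b⟩ := h x; ⟨s, a.1, b⟩

theorem Bpf.mul (h : Bpf N L) (h' : Bpf N L') : Bpf N (L * L') := fun x =>
  let ⟨_, a, b⟩ := h x
  let ⟨_, a', b'⟩ := h' x
  ⟨_, H0.mul_mem a a', mul_ne_zero b b'⟩

/-- multiplication by a product of small base point free bundles -/
theorem H0_le_mul_closure (hN : Nd N) {F : LB R} {S : Set (LB R)}
    (hS : ∀ P ∈ S, Bpf N P ∧ Ge (F / P / omega R N ∅) 1) (hL : L ∈ Submonoid.closure S) :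
    H0 N (F * L) ≤ H0 N F * H0 N L := by
  suffices Ge L 0 ∧ H0 N (F * L) ≤ H0 N F * H0 N L from this.2
  induction hL using Submonoid.closure_induction_right with
  | one =>
    refine ⟨eff_one.ge, fun s hs => ?_⟩
    simpa using Submodule.mul_mem_mul (mul_one F ▸ hs : s ∈ H0 N F) (H0.one_mem (N := N) (R := R))
  | mul_right L _ P hP ih =>
    refine ⟨by simpa using ih.1.mul (hS P hP).1.ge, ?_⟩
    rw [← mul_assoc]
    refine (H0_le_mul le_rfl (hS P hP).1 (h1_eq_zero hN fun U a b => ?_)).trans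
      ((mul_le_mul_left ih.2 _).trans ?_)
    · have := ih.1 U a b
      have := (hS P hP).2 U a b
      simp only [degOn_div, degOn_mul] at *
      omega
    · rw [mul_assoc]
      exact mul_le_mul_right H0_mul_le _

/-- a bundle close to `B ^ k` is a product of small base point free bundles -/
theorem mem_closure_of_ge {B : LB R} (hN : Nd N) (hB : Ge B 1) (hω : Ge (B / omega R N ∅) 0)
    {k c : ℕ} (hk : c + 6 ≤ k) (hA : Ge (L * B ^ c / B ^ k) 0) (hA' : Ge (B ^ k * B ^ c / L) 0) :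
    L ∈ Submonoid.closure {P | Bpf N P ∧ Ge (B ^ (2 * c + 5) / P) 0} := by
  have key : ∀ P : LB R, Ge (P / B ^ 3) 0 → Ge (B ^ (2 * c + 5) / P) 0 →
      P ∈ Submonoid.closure {P | Bpf N P ∧ Ge (B ^ (2 * c + 5) / P) 0} := fun P a b =>
    Submonoid.subset_closure ⟨exists_ne hN fun U d e => by
      have := hB U d e
      have := hω U d e
      have := a U d e
      simp only [degOn_div, degOn_pow] at *
      omega, b⟩
  generalize Submonoid.closure {P | Bpf N P ∧ Ge (B ^ (2 * c + 5) / P) 0} = S at key ⊢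
  have pw : ∀ m, 3 ≤ m → B ^ m ∈ S := fun m hm => by
    have k5 : ∀ j : ℕ, 3 ≤ j → j ≤ 5 → B ^ j ∈ S := fun j a b => by
      refine key _ (fun U d e => ?_) fun U d e => ?_
      all_goals
        have := hB U d e
        simp only [degOn_div, degOn_pow]
        push_cast
        nlinarith
    induction m using Nat.strong_induction_on with
    | _ m ih =>
      by_cases a : m ≤ 5
      · exact k5 m hm a
      obtain ⟨j, rfl⟩ : ∃ j, m = j + 3 := ⟨m - 3, by omega⟩
      rw [pow_add]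
      exact mul_mem (ih j (by omega) (by omega)) (k5 3 le_rfl (by norm_num))
  obtain ⟨m, rfl⟩ : ∃ m, k = m + c + 3 := ⟨k - c - 3, by omega⟩
  have : L / B ^ m ∈ S := by
    refine key _ (fun U d e => ?_) fun U d e => ?_
    all_goals
      have := hB U d e
      have := hA U d e
      have := hA' U d e
      simp only [degOn_div, degOn_pow, degOn_mul] at *
      push_cast at *
      nlinarith
  exact mul_div_cancel (B ^ m) L ▸ mul_mem (pw m (by omega)) this

theorem nat_ind' [DecidableEq ι] {p : (ι → ℕ) → Prop} (h0 : p 0)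
    (h : ∀ a i, p a → p (a + Pi.single i 1)) (a : ι → ℕ) : p a := by
  by_cases e : a = 0
  · exact e ▸ h0
  · exact nat_ind (fun i => by simpa using h 0 i h0) (fun a _ i => h a i) a e

/-- normality in the degrees that involve the factor `i₀` -/
theorem Full.normal_of_ne (h : Full N A π) (i₀ : ι) (h2 : ∀ a : ι → ℕ, a i₀ ≠ 0 → ∀ i,
    H0 N ((bz A fun i => a i) * A i) ≤ H0 N (bz A fun i => a i) * H0 N (A i)) :
    ∀ a : ι → ℕ, a i₀ ≠ 0 → H0 N (bz A fun i => a i) ≤ PP π a := by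
  classical
  have e : ∀ i, (fun j => ((Pi.single i 1 : ι → ℕ) j : ℤ)) = Pi.single i 1 := fun i =>
    funext fun j => by by_cases b : j = i <;> simp [b]
  have k : ∀ b : ι → ℕ, H0 N (bz A fun i => (Pi.single i₀ 1 + b : ι → ℕ) i) ≤
      PP π (Pi.single i₀ 1 + b) := nat_ind' (by
    rw [add_zero, e, bz_single, zpow_one]; exact h.le_PP i₀) fun a i ih => by
      have : (bz A fun j => ((Pi.single i₀ 1 + (a + Pi.single i 1) : ι → ℕ) j : ℤ)) =
          (bz A fun i => (Pi.single i₀ 1 + a : ι → ℕ) i) * A i := by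
        rw [← zpow_one (A i), ← bz_single, ← bz_add, ← e i, ← add_assoc]
        congr 1
      rw [this, ← add_assoc]
      exact (h2 _ (by simp) i).trans ((mul_le_mul' ih (h.le_PP i)).trans (PP_mul _ _))
  intro a ha
  have : a = Pi.single i₀ 1 + (a - Pi.single i₀ 1) := funext fun j => by
    by_cases b : j = i₀
    · subst b; simp; omega
    · simp [b]
  rw [this]
  exact k _

end Vale.Agent.P269.Cv
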