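import Vale.Agent.P269.Defs.Curve

/-!
# Riemann surfaces, line bundles, nodal curves: definitions and local calculus

A line bundle has set theoretically trivialised fibres: a section is a function `X → ℂ`, and the
holomorphic structure is given by a local frame `φ x` near each point `x`.
-/

set_option linter.unusedSectionVars false

namespace Vale.Agent.P269.Cv

open Set Function Topology Filter Module

/-- A Riemann surface structure: a centred chart at each point. -/
structure RS (X : Type) [TopologicalSpace X] where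
  e : X → OpenPartialHomeomorph X ℂ
  mem : ∀ x, x ∈ (e x).source
  zero : ∀ x, e x x = 0
  hol : ∀ x, ∀ y ∈ (e x).source, AnalyticAt ℂ (fun t => e x ((e y).symm t)) 0 ∧
    deriv (fun t => e x ((e y).symm t)) 0 ≠ 0

variable {X : Type} [TopologicalSpace X]

/-- Construction from charts that are compatible near the centres. -/
noncomputable def RS.of (e : X → OpenPartialHomeomorph X ℂ) (mem : ∀ x, x ∈ (e x).source)
    (zero : ∀ x, e x x = 0) (hol : ∀ x, ∀ᶠ y in 𝓝 x, AnalyticAt ℂ (fun t => e x ((e y).symm t)) 0 ∧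
      deriv (fun t => e x ((e y).symm t)) 0 ≠ 0) : RS X where
  e x := (e x).restrOpen (interior {y | AnalyticAt ℂ (fun t => e x ((e y).symm t)) 0 ∧
      deriv (fun t => e x ((e y).symm t)) 0 ≠ 0}) isOpen_interior
  mem x := ⟨mem x, mem_interior_iff_mem_nhds.2 (hol x)⟩
  zero := zero
  hol x _ h := (interior_subset (s := {y | AnalyticAt ℂ (fun t => e x ((e y).symm t)) 0 ∧
      deriv (fun t => e x ((e y).symm t)) 0 ≠ 0}) h.2 :)

namespace RS

variable (R : RS X) {F : Type} [NormedAddCommGroup F] [NormedSpace ℂ F] [CompleteSpace F]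
  {x y : X} {t : ℂ}

/-- the inverse of the chart at `x` -/
noncomputable def i (x : X) (t : ℂ) : X := (R.e x).symm t

/-- `f` is holomorphic at `x` -/
def Hol (f : X → F) (x : X) : Prop := AnalyticAt ℂ (fun t => f (R.i x t)) 0

/-- the differential, in the coordinate centred at each point -/
noncomputable def d (f : X → ℂ) (y : X) : ℂ := deriv (fun t => f (R.i y t)) 0

theorem i_e (h : y ∈ (R.e x).source) : R.i x (R.e x y) = y := (R.e x).left_inv h

theorem e_i (h : t ∈ (R.e x).target) : R.e x (R.i x t) = t := (R.e x).right_inv h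

theorem i_mem (h : t ∈ (R.e x).target) : R.i x t ∈ (R.e x).source := (R.e x).map_target h

theorem i_zero (x : X) : R.i x 0 = x := by
  conv_lhs => rw [← R.zero x]
  exact R.i_e (R.mem x)

theorem zero_mem (x : X) : (0 : ℂ) ∈ (R.e x).target := R.zero x ▸ (R.e x).map_source (R.mem x)

theorem src_nhds' (h : y ∈ (R.e x).source) : ∀ᶠ z in 𝓝 y, z ∈ (R.e x).source :=
  (R.e x).open_source.mem_nhds h

theorem src_nhds (x : X) : ∀ᶠ y in 𝓝 x, y ∈ (R.e x).source := R.src_nhds' (R.mem x)

theorem tgt_nhds (x : X) : ∀ᶠ t in 𝓝 (0 : ℂ), t ∈ (R.e x).target :=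
  (R.e x).open_target.mem_nhds (R.zero_mem x)

theorem contAt_i (h : t ∈ (R.e x).target) : ContinuousAt (R.i x) t := (R.e x).continuousAt_symm h

theorem contAt_e (h : y ∈ (R.e x).source) : ContinuousAt (R.e x) y := (R.e x).continuousAt h

theorem tends_i (x : X) : Tendsto (R.i x) (𝓝 0) (𝓝 x) := by
  have := R.contAt_i (R.zero_mem x)
  rwa [ContinuousAt, R.i_zero] at this

theorem tends_e (x : X) : Tendsto (R.e x) (𝓝 x) (𝓝 0) := by
  have := R.contAt_e (R.mem x)
  rwa [ContinuousAt, R.zero] at this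

theorem map_i' (h : t ∈ (R.e x).target) : map (R.i x) (𝓝 t) = 𝓝 (R.i x t) :=
  (R.e x).symm.map_nhds_eq h

theorem map_i (x : X) : map (R.i x) (𝓝 0) = 𝓝 x := by
  rw [R.map_i' (R.zero_mem x), R.i_zero]

theorem ev_iff {p : X → Prop} : (∀ᶠ y in 𝓝 x, p y) ↔ ∀ᶠ t in 𝓝 0, p (R.i x t) := by
  rw [← R.map_i x, eventually_map]

theorem e_eq_zero (h : y ∈ (R.e x).source) : R.e x y = 0 ↔ y = x :=
  ⟨fun a => (R.e x).injOn h (R.mem x) (a.trans (R.zero x).symm), fun a => a ▸ R.zero x⟩

theorem i_eq (h : t ∈ (R.e x).target) : R.i x t = x ↔ t = 0 :=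
  ⟨fun a => by rw [← R.e_i h, a, R.zero], fun a => a ▸ R.i_zero x⟩

theorem ev_ne_iff {p : X → Prop} : (∀ᶠ y in 𝓝[≠] x, p y) ↔ ∀ᶠ t in 𝓝[≠] 0, p (R.i x t) := by
  rw [eventually_nhdsWithin_iff, eventually_nhdsWithin_iff, R.ev_iff]
  refine eventually_congr ((R.tgt_nhds x).mono fun t h => ?_)
  simp only [mem_compl_iff, mem_singleton_iff, R.i_eq h]

include R in
theorem neBot (x : X) : (𝓝[≠] x).NeBot :=
  ⟨fun h => by
    have : ∀ᶠ y in 𝓝[≠] x, False := by rw [h]; exact eventually_bot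
    exact (R.ev_ne_iff.1 this).exists.choose_spec⟩

/-- the inverse transition map is analytic -/
theorem an_tr (h : y ∈ (R.e x).source) :
    AnalyticAt ℂ (fun t => R.e y (R.i x t)) (R.e x y) := by
  have a := (R.hol x y h).1
  have h0 : (0 : ℂ) ∈ ((R.e y).symm.trans (R.e x)).source :=
    ⟨R.zero_mem y, by
      show R.i y 0 ∈ (R.e x).source
      rw [R.i_zero]; exact h⟩
  have e0 : ((R.e y).symm.trans (R.e x)) 0 = R.e x y := congrArg (R.e x) (R.i_zero y)
  have b := ((R.e y).symm.trans (R.e x)).analyticAt_symm'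
    (i := ContinuousLinearEquiv.unitsEquivAut ℂ (Units.mk0 _ (R.hol x y h).2)) h0 a (by
      ext
      simp
      rfl)
  rw [e0] at b
  exact b

variable {R} {f g : X → F}

theorem hol_iff (h : y ∈ (R.e x).source) :
    R.Hol f y ↔ AnalyticAt ℂ (fun t => f (R.i x t)) (R.e x y) := by
  constructor
  · intro a
    have b := AnalyticAt.comp_of_eq a (R.an_tr h) (by rw [R.i_e h, R.zero])
    refine b.congr ?_
    have : ∀ᶠ t in 𝓝 (R.e x y), R.i x t ∈ (R.e y).source :=
      R.contAt_i ((R.e x).map_source h) (by rw [R.i_e h]; exact R.src_nhds y)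
    exact this.mono fun t ht => congrArg f (R.i_e ht)
  · intro a
    have b := AnalyticAt.comp_of_eq a (R.hol x y h).1 (congrArg (R.e x) (R.i_zero y))
    refine b.congr ?_
    have : ∀ᶠ t in 𝓝 0, R.i y t ∈ (R.e x).source :=
      R.tends_i y ((R.e x).open_source.mem_nhds h)
    exact this.mono fun t ht => congrArg f (R.i_e ht)

theorem hol_iff' (h : t ∈ (R.e x).target) :
    R.Hol f (R.i x t) ↔ AnalyticAt ℂ (fun t => f (R.i x t)) t := by
  rw [hol_iff (R.i_mem h), R.e_i h]

theorem Hol.eventually (h : R.Hol f x) : ∀ᶠ y in 𝓝 x, R.Hol f y :=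
  R.ev_iff.2 ((AnalyticAt.eventually_analyticAt h).and (R.tgt_nhds x) |>.mono fun _ a =>
    (hol_iff' a.2).2 a.1)

theorem Hol.congr (h : R.Hol f x) (e : f =ᶠ[𝓝 x] g) : R.Hol g x :=
  AnalyticAt.congr h (R.ev_iff.1 e)

theorem Hol.continuousAt (h : R.Hol f x) : ContinuousAt f x := by
  have := AnalyticAt.continuousAt h
  rw [ContinuousAt, R.i_zero] at this
  rw [ContinuousAt, ← R.map_i x]
  exact this

theorem hol_e (h : y ∈ (R.e x).source) : R.Hol (R.e x) y := (R.hol x y h).1

theorem hol_const (c : F) : R.Hol (fun _ => c) x := analyticAt_const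

theorem Hol.add (a : R.Hol f x) (b : R.Hol g x) : R.Hol (fun z => f z + g z) x := AnalyticAt.add a b

theorem Hol.sub (a : R.Hol f x) (b : R.Hol g x) : R.Hol (fun z => f z - g z) x := AnalyticAt.sub a b

theorem Hol.neg (a : R.Hol f x) : R.Hol (fun z => -f z) x := AnalyticAt.neg a

theorem Hol.smul {c : X → ℂ} (a : R.Hol c x) (b : R.Hol g x) : R.Hol (fun z => c z • g z) x :=
  AnalyticAt.smul a b

theorem Hol.comp {G : Type} [NormedAddCommGroup G] [NormedSpace ℂ G] {u : F → G}
    (a : AnalyticAt ℂ u (f x)) (b : R.Hol f x) : R.Hol (fun z => u (f z)) x :=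
  AnalyticAt.comp_of_eq a b (congrArg f (R.i_zero x))

variable {f g : X → ℂ}

theorem Hol.mul (a : R.Hol f x) (b : R.Hol g x) : R.Hol (fun z => f z * g z) x := AnalyticAt.mul a b

theorem Hol.inv (a : R.Hol f x) (h : f x ≠ 0) : R.Hol (fun z => (f z)⁻¹) x :=
  AnalyticAt.inv a (by rwa [R.i_zero])

theorem Hol.div (a : R.Hol f x) (b : R.Hol g x) (h : g x ≠ 0) : R.Hol (fun z => f z / g z) x :=
  AnalyticAt.div a b (by rwa [R.i_zero])

theorem Hol.pow (a : R.Hol f x) (n : ℕ) : R.Hol (fun z => f z ^ n) x := AnalyticAt.pow a n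

theorem Hol.zero_or_ne {f : X → F} (a : R.Hol f x) :
    (∀ᶠ y in 𝓝 x, f y = 0) ∨ ∀ᶠ y in 𝓝[≠] x, f y ≠ 0 :=
  (AnalyticAt.eventually_eq_zero_or_eventually_ne_zero a).imp R.ev_iff.2 R.ev_ne_iff.2

theorem d_e_ne (h : y ∈ (R.e x).source) : R.d (R.e x) y ≠ 0 := (R.hol x y h).2

theorem d_e_self (x : X) : R.d (R.e x) x = 1 := by
  have : (fun t => R.e x (R.i x t)) =ᶠ[𝓝 0] id :=
    (R.tgt_nhds x).mono fun t h => R.e_i h
  rw [d, this.deriv_eq, deriv_id]

theorem d_congr (e : f =ᶠ[𝓝 x] g) : R.d f x = R.d g x := EventuallyEq.deriv_eq (R.ev_iff.1 e)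

/-- the chain rule -/
theorem d_comp {u : ℂ → ℂ} (a : AnalyticAt ℂ u (f x)) (b : R.Hol f x) :
    R.d (fun z => u (f z)) x = deriv u (f x) * R.d f x := by
  have := deriv_comp (h₂ := u) (h := fun t => f (R.i x t)) 0
    (by rw [R.i_zero]; exact a.differentiableAt) (AnalyticAt.differentiableAt b)
  rw [R.i_zero] at this
  exact this

theorem d_eq (h : y ∈ (R.e x).source) (a : R.Hol f y) :
    R.d f y = deriv (fun t => f (R.i x t)) (R.e x y) * R.d (R.e x) y := by
  rw [← d_comp ((hol_iff h).1 a) (hol_e h)]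
  exact d_congr ((R.src_nhds' h).mono fun z hz =>
    congrArg f (R.i_e hz).symm)

theorem Hol.d_div (h : y ∈ (R.e x).source) (a : R.Hol f y) :
    R.Hol (fun z => R.d f z / R.d (R.e x) z) y := by
  have b : R.Hol (fun z => deriv (fun t => f (R.i x t)) (R.e x z)) y :=
    Hol.comp ((hol_iff h).1 a).deriv (hol_e h)
  refine b.congr ((a.eventually.and (R.src_nhds' h)).mono fun z hz => ?_)
  simp only
  rw [d_eq hz.2 hz.1, mul_div_cancel_right₀ _ (d_e_ne hz.2)]

end RS

/-- A holomorphic line bundle whose fibres are identified with `ℂ`; `φ x` is a holomorphic frame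
near `x`. -/
@[ext] structure LB (R : RS X) where
  φ : X → X → ℂ
  self : ∀ x, φ x x = 1
  ne : ∀ x y, φ x y ≠ 0
  hol : ∀ x, ∀ᶠ y in 𝓝 x, R.Hol (fun z => φ x z / φ y z) y

namespace LB

variable {R : RS X} {L L' : LB R} {s s' : X → ℂ} {x y : X}

open Classical in
/-- Construction from frames `ψ x` that do not vanish near `x`. -/
noncomputable def of (ψ : X → X → ℂ) (ne : ∀ x, ∀ᶠ y in 𝓝 x, ψ x y ≠ 0)
    (hol : ∀ x, ∀ᶠ y in 𝓝 x, R.Hol (fun z => ψ x z / ψ y z) y) : LB R where
  φ x y := if ψ x y = 0 then 1 else ψ x y / ψ x x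
  self x := by rw [if_neg (ne x).self_of_nhds, div_self (ne x).self_of_nhds]
  ne x y := by
    split_ifs with h
    exacts [one_ne_zero, div_ne_zero h (ne x).self_of_nhds]
  hol x := ((hol x).and (ne x).eventually_nhds).mono fun y h =>
    (h.1.mul (RS.hol_const (ψ y y / ψ x x))).congr ((h.2.and (ne y)).mono fun z hz => by
      simp only [if_neg hz.1, if_neg hz.2]
      field_simp [hz.2, (ne x).self_of_nhds, (ne y).self_of_nhds])

instance : One (LB R) := ⟨⟨1, fun _ => rfl, fun _ _ => one_ne_zero, fun _ =>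
  .of_forall fun _ => RS.hol_const ((1 : ℂ) / 1)⟩⟩

noncomputable instance : Mul (LB R) := ⟨fun L L' => ⟨L.φ * L'.φ, fun x => by simp [L.self, L'.self],
  fun x y => mul_ne_zero (L.ne x y) (L'.ne x y), fun x => ((L.hol x).and (L'.hol x)).mono
    fun _ h => (h.1.mul h.2).congr (.of_forall fun z => by simp [mul_div_mul_comm])⟩⟩

noncomputable instance : Inv (LB R) := ⟨fun L => ⟨L.φ⁻¹, fun x => by simp [L.self],
  fun x y => inv_ne_zero (L.ne x y), fun x => (L.hol x).mono fun y h =>
    (h.inv (div_ne_zero (L.ne _ _) (L.ne _ _))).congr (.of_forall fun z => by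
      simp [div_eq_mul_inv, mul_comm])⟩⟩

@[simp] theorem one_φ : (1 : LB R).φ x y = 1 := rfl

@[simp] theorem mul_φ : (L * L').φ x y = L.φ x y * L'.φ x y := rfl

@[simp] theorem inv_φ : (L⁻¹).φ x y = (L.φ x y)⁻¹ := rfl

noncomputable instance : CommGroup (LB R) where
  mul_assoc _ _ _ := LB.ext (mul_assoc _ _ _)
  one_mul _ := LB.ext (one_mul _)
  mul_one _ := LB.ext (mul_one _)
  inv_mul_cancel L := LB.ext (funext₂ fun x y => inv_mul_cancel₀ (L.ne x y))
  mul_comm _ _ := LB.ext (mul_comm _ _)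

/-- the value of the frame as a homomorphism -/
noncomputable def φh (x y : X) : LB R →* ℂ := ⟨⟨fun L => L.φ x y, rfl⟩, fun _ _ => rfl⟩

@[simp] theorem pow_φ (n : ℕ) : (L ^ n).φ x y = L.φ x y ^ n := map_pow (φh x y) L n

@[simp] theorem zpow_φ (n : ℤ) : (L ^ n).φ x y = L.φ x y ^ n := by
  cases n with
  | ofNat n => simp
  | negSucc n => simp

@[simp] theorem div_φ : (L / L').φ x y = L.φ x y / L'.φ x y := by
  rw [div_eq_mul_inv, mul_φ, inv_φ, div_eq_mul_inv]

theorem prod_φ {α : Type} (T : Finset α) (A : α → LB R) :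
    (∏ a ∈ T, A a).φ x y = ∏ a ∈ T, (A a).φ x y := map_prod (φh x y) A T

variable (L) in
/-- the local expression of a section in the chart and the frame at `x` -/
noncomputable def loc (s : X → ℂ) (x : X) (t : ℂ) : ℂ := s (R.i x t) / L.φ x (R.i x t)

variable (L) in
/-- `s` is a holomorphic section near `x` -/
def Sec (s : X → ℂ) (x : X) : Prop := AnalyticAt ℂ (L.loc s x) 0

variable (L) in
/-- the order of vanishing -/
noncomputable def ord (s : X → ℂ) (x : X) : ℕ∞ := analyticOrderAt (L.loc s x) 0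

theorem sec_iff : L.Sec s x ↔ R.Hol (fun z => s z / L.φ x z) x := Iff.rfl

@[simp] theorem loc_zero : L.loc s x 0 = s x := by rw [loc, R.i_zero, L.self, div_one]

theorem loc_mul : (L * L').loc (s * s') x = L.loc s x * L'.loc s' x :=
  funext fun _ => mul_div_mul_comm _ _ _ _

theorem loc_inv : L⁻¹.loc s⁻¹ x = (L.loc s x)⁻¹ :=
  funext fun _ => by simp [loc, div_eq_mul_inv, mul_comm]

theorem loc_add : L.loc (s + s') x = L.loc s x + L.loc s' x := funext fun _ => add_div _ _ _

theorem loc_sub : L.loc (s - s') x = L.loc s x - L.loc s' x := funext fun _ => sub_div _ _ _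

theorem loc_smul (c : ℂ) : L.loc (c • s) x = c • L.loc s x := funext fun _ => mul_div_assoc _ _ _

theorem loc_congr (e : s =ᶠ[𝓝 x] s') : L.loc s x =ᶠ[𝓝 0] L.loc s' x :=
  (R.ev_iff.1 e).mono fun t h => by simp only [loc, h]

theorem sec_one : (1 : LB R).Sec s x ↔ R.Hol s x := by simp [sec_iff]

theorem Sec.congr (h : L.Sec s x) (e : s =ᶠ[𝓝 x] s') : L.Sec s' x :=
  AnalyticAt.congr h (loc_congr e)

theorem Sec.mul (a : L.Sec s x) (b : L'.Sec s' x) : (L * L').Sec (s * s') x := by
  rw [Sec, loc_mul]; exact AnalyticAt.mul a b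

theorem Sec.inv (a : L.Sec s x) (h : s x ≠ 0) : L⁻¹.Sec s⁻¹ x := by
  rw [Sec, loc_inv]; exact AnalyticAt.inv a (by rwa [loc_zero])

theorem Sec.div (a : L.Sec s x) (b : L'.Sec s' x) (h : s' x ≠ 0) : (L / L').Sec (s / s') x := by
  rw [div_eq_mul_inv, div_eq_mul_inv]; exact a.mul (b.inv h)

theorem Sec.add (a : L.Sec s x) (b : L.Sec s' x) : L.Sec (s + s') x := by
  rw [Sec, loc_add]; exact AnalyticAt.add a b

theorem Sec.sub (a : L.Sec s x) (b : L.Sec s' x) : L.Sec (s - s') x := by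
  rw [Sec, loc_sub]; exact AnalyticAt.sub a b

theorem Sec.smul (a : L.Sec s x) (c : ℂ) : L.Sec (c • s) x := by
  rw [Sec, loc_smul]; exact AnalyticAt.smul (f := fun _ => c) analyticAt_const a

theorem sec_zero : L.Sec 0 x := by
  have : L.loc 0 x = fun _ => 0 := funext fun _ => zero_div _
  rw [Sec, this]; exact analyticAt_const

theorem Sec.hol_mul (a : R.Hol s x) (b : L.Sec s' x) : L.Sec (s * s') x := by
  simpa using (sec_one.2 a).mul b

theorem Sec.pow (a : L.Sec s x) (n : ℕ) : (L ^ n).Sec (s ^ n) x := by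
  induction n with
  | zero => exact sec_one.2 (RS.hol_const (1 : ℂ))
  | succ n ih => rw [pow_succ, pow_succ]; exact ih.mul a

theorem Sec.zpow (a : L.Sec s x) (h : s x ≠ 0) (n : ℤ) : (L ^ n).Sec (s ^ n) x := by
  cases n with
  | ofNat n => simpa using a.pow n
  | negSucc n => simpa using (a.pow (n + 1)).inv (pow_ne_zero _ h)

theorem Sec.prod {α : Type} {T : Finset α} {A : α → LB R} {u : α → X → ℂ}
    (h : ∀ a ∈ T, (A a).Sec (u a) x) : (∏ a ∈ T, A a).Sec (∏ a ∈ T, u a) x := by
  classical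
  induction T using Finset.induction_on with
  | empty => exact sec_one.2 (RS.hol_const (1 : ℂ))
  | insert a T ha ih =>
    rw [Finset.prod_insert ha, Finset.prod_insert ha]
    exact (h a (Finset.mem_insert_self _ _)).mul (ih fun b hb => h b (Finset.mem_insert_of_mem hb))

theorem sec_φ (L : LB R) (x : X) : ∀ᶠ y in 𝓝 x, L.Sec (L.φ x) y := L.hol x

/-- the quotient of two sections of the same bundle -/
theorem Sec.hol_div (a : L.Sec s x) (b : L.Sec s' x) (h : s' x ≠ 0) :
    R.Hol (fun z => s z / s' z) x := by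
  have := a.div b h
  rwa [div_self', sec_one] at this

/-- any non vanishing section is a frame -/
theorem Sec.iff_div (b : L.Sec s' x) (h : s' x ≠ 0) :
    L.Sec s x ↔ R.Hol (fun z => s z / s' z) x := by
  refine ⟨fun a => a.hol_div b h, fun a => (Sec.hol_mul a b).congr ?_⟩
  have : ∀ᶠ z in 𝓝 x, s' z / L.φ x z ≠ 0 :=
    (sec_iff.1 b).continuousAt.eventually_ne (by rwa [L.self, div_one])
  exact this.mono fun z hz => div_mul_cancel₀ _ (div_ne_zero_iff.1 hz).1

theorem Sec.eventually (a : L.Sec s x) : ∀ᶠ y in 𝓝 x, L.Sec s y :=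
  ((sec_iff.1 a).eventually.and (L.sec_φ x)).mono fun y h => (h.2.iff_div (L.ne x y)).2 h.1

theorem Sec.ev_ne (a : L.Sec s x) (h : s x ≠ 0) : ∀ᶠ y in 𝓝 x, s y ≠ 0 :=
  ((sec_iff.1 a).continuousAt.eventually_ne (by rwa [L.self, div_one])).mono fun _ hz =>
    (div_ne_zero_iff.1 hz).1

theorem Sec.zero_or_ne (a : L.Sec s x) : (∀ᶠ y in 𝓝 x, s y = 0) ∨ ∀ᶠ y in 𝓝[≠] x, s y ≠ 0 :=
  (sec_iff.1 a).zero_or_ne.imp (fun h => h.mono fun y hy => by simpa [L.ne] using hy)
    fun h => h.mono fun _ hy => (div_ne_zero_iff.1 hy).1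

theorem sec_of {ψ : X → X → ℂ} (ne : ∀ x, ∀ᶠ y in 𝓝 x, ψ x y ≠ 0)
    (hol : ∀ x, ∀ᶠ y in 𝓝 x, R.Hol (fun z => ψ x z / ψ y z) y) :
    (of ψ ne hol).Sec s x ↔ R.Hol (fun z => s z / ψ x z) x := by
  have a : (of ψ ne hol).Sec (ψ x) x := sec_iff.2 <| (RS.hol_const (ψ x x)).congr
    ((ne x).mono fun z hz => by
    simp only [of, if_neg hz]
    field_simp [(ne x).self_of_nhds])
  exact a.iff_div (ne x).self_of_nhds

theorem ord_mul (a : L.Sec s x) (b : L'.Sec s' x) :
    (L * L').ord (s * s') x = L.ord s x + L'.ord s' x := by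
  rw [ord, loc_mul]; exact analyticOrderAt_mul a b

theorem ord_eq_zero (a : L.Sec s x) : L.ord s x = 0 ↔ s x ≠ 0 := by
  rw [ord, AnalyticAt.analyticOrderAt_eq_zero a, loc_zero]

theorem ord_eq_top : L.ord s x = ⊤ ↔ ∀ᶠ y in 𝓝 x, s y = 0 := by
  rw [ord, analyticOrderAt_eq_top, R.ev_iff]
  simp [loc, L.ne]

variable (L) in
/-- holomorphic sections -/
def Γ : Submodule ℂ (X → ℂ) where
  carrier := {s | ∀ x, L.Sec s x}
  add_mem' a b x := (a x).add (b x)
  zero_mem' _ := sec_zero
  smul_mem' c _ a x := (a x).smul c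

/-- the trivial bundle in which `c` is a holomorphic frame -/
noncomputable def cst (R : RS X) (c : X → ℂ) (hc : ∀ x, c x ≠ 0) : LB R where
  φ x y := c y / c x
  self x := div_self (hc x)
  ne x y := div_ne_zero (hc y) (hc x)
  hol x := .of_forall fun y => (RS.hol_const (c y / c x)).congr (.of_forall fun z => by
    field_simp [hc])

theorem cst_mem {c : X → ℂ} (hc : ∀ x, c x ≠ 0) : c ∈ (cst R c hc).Γ := fun x =>
  sec_iff.2 <| (RS.hol_const (c x)).congr (.of_forall fun z => by
    simp only [cst]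
    field_simp [hc])

open Classical in
/-- the bundle which is `L` on the open and closed set `U` and trivial outside -/
noncomputable def res (L : LB R) {U : Set X} (hU : IsClopen U) : LB R where
  φ x y := if x ∈ U then L.φ x y else 1
  self x := by simp [L.self]
  ne x y := by
    split_ifs
    exacts [L.ne x y, one_ne_zero]
  hol x := by
    by_cases h : x ∈ U
    · exact ((L.hol x).and (hU.isOpen.mem_nhds h)).mono fun y a => by
        simpa [h, show y ∈ U from a.2] using a.1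
    · exact Eventually.mono (p := fun y => y ∉ U) (hU.compl.isOpen.mem_nhds h) fun y a => by
        simpa [h, show y ∉ U from a] using RS.hol_const (1 : ℂ)

end LB

namespace RS

variable (R : RS X) {x y p : X}

/-- the canonical bundle -/
noncomputable def K : LB R := LB.of (fun x => R.d (R.e x))
  (fun x => (R.src_nhds x).mono fun _ h => d_e_ne h)
  fun x => (R.src_nhds x).mono fun y h => (hol_e h).d_div (R.mem y)

variable {R} in
theorem sec_K {s : X → ℂ} : R.K.Sec s x ↔ R.Hol (fun z => s z / R.d (R.e x) z) x := LB.sec_of _ _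

variable {R} in
theorem Hol.sec_d {f : X → ℂ} (h : R.Hol f x) : R.K.Sec (R.d f) x := sec_K.2 (h.d_div (R.mem x))

variable {R} in
theorem K_φ (h : y ∈ (R.e x).source) : R.K.φ x y = R.d (R.e x) y := by
  simp [K, LB.of, d_e_ne h, d_e_self]

variable {R} in
theorem Hol.loc_d {f : X → ℂ} (h : R.Hol f x) :
    R.K.loc (R.d f) x =ᶠ[𝓝 0] deriv fun t => f (R.i x t) :=
  ((R.ev_iff.1 h.eventually).and (R.tgt_nhds x)).mono fun t a => by
    rw [LB.loc, K_φ (R.i_mem a.2), d_eq (R.i_mem a.2) a.1,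
      mul_div_cancel_right₀ _ (d_e_ne (R.i_mem a.2)), R.e_i a.2]

variable [T2Space X]

open Classical in
/-- the bundle `O(p)`; the value at `p` of a section is its residue -/
noncomputable def pt (p : X) : LB R where
  φ x y := if x = p ∧ y ∈ (R.e p).source ∧ y ≠ p then (R.e p y)⁻¹ else 1
  self x := if_neg fun h => h.2.2 h.1
  ne x y := by
    split_ifs with h
    exacts [inv_ne_zero fun a => h.2.2 ((R.e_eq_zero h.2.1).1 a), one_ne_zero]
  hol x := by
    by_cases h : x = p
    · subst h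
      refine (R.src_nhds x).mono fun y a => ?_
      by_cases b : y = x
      · subst b
        refine (hol_const (1 : ℂ)).congr (.of_forall fun z => (div_self ?_).symm)
        split_ifs with h
        exacts [inv_ne_zero fun a => h.2.2 ((R.e_eq_zero h.2.1).1 a), one_ne_zero]
      · refine ((hol_e a).inv fun c => b ((R.e_eq_zero a).1 c)).congr
          (((eventually_ne_nhds b).and (R.src_nhds' a)).mono fun z hz => ?_)
        simp [b, hz.1, show z ∈ (R.e x).source from hz.2]
    · exact (eventually_ne_nhds h).mono fun y a => by simpa [h, a] using hol_const (1 : ℂ)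

open Classical in
/-- the canonical section of `O(p)` -/
noncomputable def can (p : X) : X → ℂ := fun y => if y = p then 0 else 1

theorem pt_φ_ne (h : x ≠ p) : (R.pt p).φ x y = 1 := if_neg fun a => h a.1

theorem loc_can_self (p : X) : (R.pt p).loc (can p) p =ᶠ[𝓝 0] id :=
  (R.tgt_nhds p).mono fun t h => by
    by_cases a : t = 0
    · simp [a, can]
    · simp [LB.loc, can, pt, R.i_eq h, a, R.i_mem h, R.e_i h]

theorem can_mem (p : X) : can p ∈ (R.pt p).Γ := fun x => by
  by_cases h : x = p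
  · subst h
    exact analyticAt_id.congr (R.loc_can_self x).symm
  · exact LB.sec_iff.2 <| (hol_const (1 : ℂ)).congr ((eventually_ne_nhds h).mono fun z hz => by
      simp [R.pt_φ_ne h, can, hz])

theorem ord_can (p : X) : (R.pt p).ord (can p) p = 1 := by
  rw [LB.ord, analyticOrderAt_congr (R.loc_can_self p)]
  exact analyticOrderAt_id

end RS

/-- The pairs of points that are glued are pairwise disjoint. -/
structure Nd (N : Finset (X × X)) : Prop where
  ne : ∀ n ∈ N, ∀ n' ∈ N, n.1 ≠ n'.2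
  inj1 : InjOn Prod.fst (N : Set (X × X))
  inj2 : InjOn Prod.snd (N : Set (X × X))

/-- `x` is not one of the points that are glued. -/
def Sm (N : Finset (X × X)) (x : X) : Prop := ∀ n ∈ N, n.1 ≠ x ∧ n.2 ≠ x

variable {R : RS X} (N : Finset (X × X)) (L : LB R)

/-- sections on the nodal curve -/
def H0 : Submodule ℂ (X → ℂ) where
  carrier := {s | s ∈ L.Γ ∧ ∀ n ∈ N, s n.1 = s n.2}
  add_mem' a b := ⟨add_mem a.1 b.1, fun n h => by simp [a.2 n h, b.2 n h]⟩
  zero_mem' := ⟨zero_mem _, fun _ _ => rfl⟩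
  smul_mem' c _ a := ⟨Submodule.smul_mem _ c a.1, fun n h => by simp [a.2 n h]⟩

/-- the Euler characteristic on the normalisation -/
noncomputable def chi : ℤ := finrank ℂ L.Γ - finrank ℂ (R.K / L).Γ

/-- the degree -/
noncomputable def deg : ℤ := chi L - chi (1 : LB R)

open Classical in
/-- the degree on an open and closed subset -/
noncomputable def degOn (U : Set X) : ℤ := if h : IsClopen U then deg (L.res h) else 0

variable (R) in
/-- the arithmetic genus -/
noncomputable def gen : ℤ := 1 - chi (1 : LB R) + N.card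

/-- `h¹` of the nodal curve -/
noncomputable def h1 : ℤ := finrank ℂ (H0 N L) - (deg L + 1 - gen R N)

open Classical in
variable (R) in
/-- the dualising bundle with logarithmic poles at the points of `P`: the value of a section at
`n.1`, `n.2`, `p ∈ P` is the residue, minus the residue, the residue -/
noncomputable def omega [T2Space X] (P : Finset X) : LB R :=
  R.K * (∏ n ∈ N, R.pt n.1 * R.pt n.2) * (∏ p ∈ P, R.pt p) *
    LB.cst R (fun x => if ∃ n ∈ N, n.2 = x then -1 else 1) fun x => by split_ifs <;> simp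

variable {ι : Type} [Fintype ι] {M : ι → ℕ}

/-- the bundle `O(a)` -/
noncomputable def bz (A : ι → LB R) (a : ι → ℤ) : LB R := ∏ i, A i ^ a i

/-- the branch at `x` of the map `π` -/
noncomputable def br (A : ι → LB R) (π : X → V M) (x : X) (t : ℂ) : V M :=
  fun i j => (A i).loc (fun y => π y i j) x t

/-- The first four conditions of `IsCurve`. -/
structure IsNodal (o : ι) (C : Set (V M)) : Prop where
  ne_zero : ∀ c ∈ C, ∀ i, c i ≠ 0
  closed : ∀ c ∈ closure C, (∀ i, c i ≠ 0) → c ∈ C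
  cone : ∀ t : ι → ℂ, (∀ i, t i ≠ 0) → ∀ c ∈ C, t • c ∈ C
  nodal : ∀ c ∈ C, ∃ γ₁ γ₂, (IsBranch o C γ₁ ∧ γ₁ 0 = c ∧ γ₂ = γ₁ ∨ IsCross o C c γ₁ γ₂) ∧
    ∀ ε > 0, ∀ᶠ y in 𝓝[C] c, ∃ (t : ι → ℂ) (z : ℂ), ‖z‖ < ε ∧ (y = t • γ₁ z ∨ y = t • γ₂ z)

theorem _root_.Vale.Agent.P269.IsCurve.isNodal {o : ι} {g : ℤ} {m : ι → ℤ} {C : Set (V M)}
    (h : IsCurve o g m C) : IsNodal o C := ⟨h.ne_zero, h.closed, h.cone, h.nodal⟩

/-- `π : X → V M` presents the multicone `C` as the surface `X` with the pairs `N` glued, and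
`O(e_i)` is the bundle `A i`. -/
structure Par (o : ι) (C : Set (V M)) (N : Finset (X × X)) (A : ι → LB R) (π : X → V M) :
    Prop where
  nd : Nd N
  sec : ∀ i j, (fun x => π x i j) ∈ H0 N (A i)
  ne : ∀ x i, π x i ≠ 0
  img : ∀ c, c ∈ C ↔ ∃ x, ∃ t : ι → ℂ, (∀ i, t i ≠ 0) ∧ c = t • π x
  inj : ∀ x y, ∀ t : ι → ℂ, π y = t • π x → x = y ∨ (x, y) ∈ N ∨ (y, x) ∈ N
  imm : ∀ x, LinearIndependent ℂ ![π x o, deriv (br A π x) 0 o]
  cross : ∀ n ∈ N, LinearIndependent ℂ
    ![π n.1 o, deriv (br A π n.1) 0 o, deriv (br A π n.2) 0 o]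

end Vale.Agent.P269.Cv
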