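import Vale.Agent.P269.Cv.RR

/-!
# Line bundles on nodal curves: `h¹`, monotonicity, vanishing, generation, the pencil trick
-/

set_option linter.unusedSectionVars false

namespace Vale.Agent.P269.Cv

open Set Function Topology Filter Module

variable {X : Type} [TopologicalSpace X] {R : RS X} {L L' : LB R} {s s' : X → ℂ} {x y p : X}
  {U : Set X} {N N' : Finset (X × X)} {n : X × X}

theorem H0_le : H0 N L ≤ L.Γ := fun _ h => h.1

theorem H0_empty : H0 ∅ L = L.Γ := le_antisymm H0_le fun _ h => ⟨h, by simp⟩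

theorem H0_anti (h : N ⊆ N') : H0 N' L ≤ H0 N L := fun _ a => ⟨a.1, fun n b => a.2 n (h b)⟩

theorem H0.mul_mem (a : s ∈ H0 N L) (b : s' ∈ H0 N L') : s * s' ∈ H0 N (L * L') :=
  ⟨LB.mul_mem a.1 b.1, fun n h => by simp [a.2 n h, b.2 n h]⟩

theorem H0.inv_mem (a : s ∈ H0 N L) (h : ∀ x, s x ≠ 0) : s⁻¹ ∈ H0 N L⁻¹ :=
  ⟨LB.inv_mem a.1 h, fun n h => by simp [a.2 n h]⟩

theorem H0.pow_mem (a : s ∈ H0 N L) (k : ℕ) : s ^ k ∈ H0 N (L ^ k) :=
  ⟨LB.pow_mem a.1 k, fun n h => by simp [a.2 n h]⟩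

theorem H0.zpow_mem (a : s ∈ H0 N L) (h : ∀ x, s x ≠ 0) (k : ℤ) : s ^ k ∈ H0 N (L ^ k) :=
  ⟨LB.zpow_mem a.1 h k, fun n h => by simp [a.2 n h]⟩

theorem H0.one_mem : (1 : X → ℂ) ∈ H0 N (1 : LB R) := ⟨LB.one_mem, fun _ _ => rfl⟩

theorem H0.prod_mem {α : Type} {T : Finset α} {A : α → LB R} {u : α → X → ℂ}
    (h : ∀ a ∈ T, u a ∈ H0 N (A a)) : ∏ a ∈ T, u a ∈ H0 N (∏ a ∈ T, A a) :=
  ⟨LB.prod_mem fun a b => (h a b).1, fun n hn => by
    simp only [Finset.prod_apply]
    exact Finset.prod_congr rfl fun a b => (h a b).2 n hn⟩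

theorem H0_mul_le : H0 N L * H0 N L' ≤ H0 N (L * L') :=
  Submodule.mul_le.2 fun _ a _ b => H0.mul_mem a b

theorem Nd.mono (h : Nd N') (e : N ⊆ N') : Nd N :=
  ⟨fun n a n' b => h.ne n (e a) n' (e b), h.inj1.mono e, h.inj2.mono e⟩

theorem nd_empty : Nd (∅ : Finset (X × X)) := ⟨by simp, by simp, by simp⟩

theorem Nd.sm_erase [DecidableEq X] (h : Nd N) (hn : n ∈ N) :
    Sm (N.erase n) n.1 ∧ Sm (N.erase n) n.2 :=
  ⟨fun m a => ⟨fun e => (Finset.mem_erase.1 a).1 (h.inj1 (Finset.mem_of_mem_erase a) hn e),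
    (h.ne n hn m (Finset.mem_of_mem_erase a)).symm⟩, fun m a =>
    ⟨h.ne m (Finset.mem_of_mem_erase a) n hn,
      fun e => (Finset.mem_erase.1 a).1 (h.inj2 (Finset.mem_of_mem_erase a) hn e)⟩⟩

theorem not_sm : ¬Sm N x ↔ ∃ n ∈ N, n.1 = x ∨ n.2 = x := by
  simp only [Sm, not_forall, not_and_or, not_not, exists_prop]

theorem finrank_le_succ {W W' : Submodule ℂ (X → ℂ)} [FiniteDimensional ℂ W]
    [FiniteDimensional ℂ W'] (f : (X → ℂ) →ₗ[ℂ] ℂ) (u : X → ℂ)
    (h : ∀ s ∈ W, f s = 0 → ∃ s' ∈ W', s = s' * u) : finrank ℂ W ≤ finrank ℂ W' + 1 := by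
  have a := LinearMap.finrank_range_add_finrank_ker (f.domRestrict W)
  have b : finrank ℂ (LinearMap.range (f.domRestrict W)) ≤ 1 :=
    (Submodule.finrank_le _).trans (finrank_self ℂ).le
  have c : finrank ℂ ((LinearMap.ker (f.domRestrict W)).map W.subtype) ≤
      finrank ℂ (W'.map (LinearMap.mulRight ℂ u)) := Submodule.finrank_mono (by
    rintro _ ⟨s, hs, rfl⟩
    obtain ⟨s', a, b⟩ := h s s.2 hs
    exact ⟨s', a, b.symm⟩)
  rw [Submodule.finrank_map_subtype_eq] at c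
  have := Submodule.finrank_map_le (LinearMap.mulRight ℂ u) W'
  omega

/-- a section which does not vanish at finitely many given points -/
theorem exists_forall_ne (W : Submodule ℂ (X → ℂ)) {T : Set X} (hT : T.Finite)
    (h : ∀ x ∈ T, ∃ s ∈ W, s x ≠ 0) : ∃ s ∈ W, ∀ x ∈ T, s x ≠ 0 := by
  induction T, hT using Set.Finite.induction_on with
  | empty => exact ⟨0, zero_mem _, by simp⟩
  | @insert y T _ hT ih =>
    obtain ⟨s, a, b⟩ := ih fun x hx => h x (mem_insert_of_mem _ hx)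
    obtain ⟨s', a', b'⟩ := h y (mem_insert _ _)
    obtain ⟨c, hc⟩ := ((hT.insert y).image fun x => -s x / s' x).exists_notMem
    refine ⟨s + c • s', add_mem a (W.smul_mem _ a'), fun x hx e => hc ⟨x, hx, ?_⟩⟩
    have e' : s x + c * s' x = 0 := e
    have : s' x ≠ 0 := fun d => by
      rcases hx with rfl | hx
      exacts [b' d, b x hx (by simpa [d] using e')]
    field_simp
    linear_combination -e'

variable [T2Space X] [CompactSpace X]

instance fin_H0 (N : Finset (X × X)) (L : LB R) : FiniteDimensional ℂ (H0 N L) :=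
  Submodule.finiteDimensional_of_le H0_le

theorem h1_eq : h1 N L = finrank ℂ (H0 N L) - chi L + N.card := by
  rw [h1, gen, chi_eq L]; ring

theorem finrank_H0 (h : h1 N L = 0) : (finrank ℂ (H0 N L) : ℤ) = deg L + 1 - gen R N :=
  sub_eq_zero.1 h

theorem h1_empty : h1 ∅ L = finrank ℂ (R.K / L).Γ := by
  rw [h1_eq, H0_empty, chi]; simp

theorem h1_mono (h : N ⊆ N') : h1 N L ≤ h1 N' L := by
  classical
  obtain ⟨T, rfl, -⟩ : ∃ T, N' = T ∪ N ∧ True := ⟨N', (Finset.union_eq_left.2 h).symm, trivial⟩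
  clear h
  induction T using Finset.induction_on with
  | empty => simp
  | insert n T _ ih =>
    refine ih.trans ?_
    rw [Finset.insert_union]
    by_cases hn : n ∈ T ∪ N
    · rw [Finset.insert_eq_of_mem hn]
    have := finrank_le_succ (W := H0 (T ∪ N) L) (W' := H0 (insert n (T ∪ N)) L)
      ⟨⟨fun s => s n.1 - s n.2, fun _ _ => by simp; ring⟩, fun _ _ => by simp; ring⟩ 1
      fun s a b => ⟨s, ⟨a.1, fun m hm => (Finset.mem_insert.1 hm).elim
        (fun e => e ▸ sub_eq_zero.1 b) (a.2 m)⟩, (mul_one s).symm⟩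
    rw [h1_eq, h1_eq, Finset.card_insert_of_notMem hn]
    push_cast
    omega

theorem h1_nonneg (N : Finset (X × X)) (L : LB R) : 0 ≤ h1 N L :=
  le_trans (by rw [h1_empty]; positivity) (h1_mono (Finset.empty_subset N))

/-- the inequality of Riemann -/
theorem riemann (N : Finset (X × X)) (L : LB R) : deg L + 1 - gen R N ≤ finrank ℂ (H0 N L) :=
  sub_nonneg.1 (h1_nonneg N L)

theorem can_mem0 (h : Sm N p) : RS.can p ∈ H0 N (R.pt p) :=
  ⟨R.can_mem p, fun n hn => by rw [can_ne (h n hn).1, can_ne (h n hn).2]⟩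

theorem exists_div0 (hp : Sm N p) (h : s ∈ H0 N (L * R.pt p)) (h0 : s p = 0) :
    ∃ s' ∈ H0 N L, s = s' * RS.can p ∧ ∀ y ≠ p, s' y = s y :=
  let ⟨s', a, b, c⟩ := exists_div h.1 h0
  ⟨s', ⟨a, fun n hn => by rw [c _ (hp n hn).1, c _ (hp n hn).2, h.2 n hn]⟩, b, c⟩

theorem h1_mul_pt (hp : Sm N p) (L : LB R) : h1 N (L * R.pt p) ≤ h1 N L := by
  have := finrank_le_succ (W := H0 N (L * R.pt p)) (W' := H0 N L) (LinearMap.proj p) (RS.can p)
    fun s a b => let ⟨s', c, d, _⟩ := exists_div0 hp a b; ⟨s', c, d⟩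
  rw [h1_eq, h1_eq, chi_mul_eq, deg_pt]
  omega

theorem finrank_iso (h : s ∈ H0 N L') (h0 : ∀ x, s x ≠ 0) (L : LB R) :
    finrank ℂ (H0 N (L * L')) = finrank ℂ (H0 N L) :=
  le_antisymm (finrank_le_of_forall s fun t a => ⟨t * s⁻¹, by
    simpa using H0.mul_mem a (H0.inv_mem h h0), funext fun x => by simp [h0 x]⟩)
    (finrank_le_of_forall s⁻¹ fun t a => ⟨t * s, H0.mul_mem a h, funext fun x => by simp [h0 x]⟩)

theorem h1_iso (h : s ∈ H0 N L') (h0 : ∀ x, s x ≠ 0) (L : LB R) : h1 N (L * L') = h1 N L := by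
  rw [h1_eq, h1_eq, finrank_iso h h0, chi_mul_eq, deg_of_ne h.1 h0, add_zero]

theorem Eff.deg_nonneg (h : Eff L) : 0 ≤ deg L :=
  let ⟨_, b, c⟩ := h
  degOn_univ (L := L) ▸ card_le_degOn isClopen_univ (fun x _ => b x) c.ge (T := ∅) (by simp)

/-- **monotonicity** -/
theorem h1_mul_le (h : s ∈ H0 N L') (g : Gen s = univ) (hN : ∀ n ∈ N, s n.1 ≠ 0) (L : LB R) :
    h1 N (L * L') ≤ h1 N L := by
  obtain ⟨k, hk⟩ := Int.eq_ofNat_of_zero_le (Eff.deg_nonneg ⟨s, h.1, g⟩)
  induction k generalizing L' s with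
  | zero =>
    refine (h1_iso h (fun x hx => ?_) L).le
    have := card_le_degOn isClopen_univ (fun x _ => h.1 x) g.ge (T := {x}) (by simpa using hx)
    rw [degOn_univ, hk] at this
    simp at this
  | succ k ih =>
    by_cases h0 : ∀ x, s x ≠ 0
    · exact (h1_iso h h0 L).le
    push Not at h0
    obtain ⟨p, hp⟩ := h0
    have sp : Sm N p := fun n hn => ⟨fun e => hN n hn (e ▸ hp), fun e => hN n hn (by
      rw [h.2 n hn, e, hp])⟩
    have e : L' = L' / R.pt p * R.pt p := (div_mul_cancel _ _).symm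
    obtain ⟨s', a, b, c⟩ := exists_div0 sp (e ▸ h) hp
    rw [e, ← mul_assoc]
    refine (h1_mul_pt sp _).trans (ih a ?_ (fun n hn => c _ (sp n hn).1 ▸ hN n hn) ?_)
    · rw [b, gen_mul, gen_can, inter_univ] at g
      exact g
    · rw [deg_div, deg_pt, hk]; push_cast; ring

theorem exists_div_node [DecidableEq X] (hN : Nd N) (hn : n ∈ N) (h : s ∈ H0 N L) (h0 : s n.1 = 0) :
    ∃ s' ∈ H0 (N.erase n) (L / (R.pt n.1 * R.pt n.2)), s = s' * (RS.can n.1 * RS.can n.2) := by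
  have e : L = L / (R.pt n.1 * R.pt n.2) * R.pt n.2 * R.pt n.1 := by
    rw [mul_assoc, mul_comm (R.pt n.2), div_mul_cancel]
  obtain ⟨t, a, b, c⟩ := exists_div0 (hN.sm_erase hn).1
    (e ▸ H0_anti (Finset.erase_subset n N) h) h0
  obtain ⟨t', a', b', -⟩ := exists_div0 (hN.sm_erase hn).2 a (by
    rw [c _ (hN.ne n hn n hn).symm, ← h.2 n hn, h0])
  exact ⟨t', a', by rw [b, b']; ring⟩

theorem mul_node_mem [DecidableEq X] (hN : Nd N) (hn : n ∈ N)
    (h : s ∈ H0 (N.erase n) (L / (R.pt n.1 * R.pt n.2))) :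
    s * (RS.can n.1 * RS.can n.2) ∈ H0 N L := by
  have := H0.mul_mem h (H0.mul_mem (can_mem0 (hN.sm_erase hn).1) (can_mem0 (hN.sm_erase hn).2))
  rw [div_mul_cancel] at this
  refine ⟨this.1, fun m hm => ?_⟩
  by_cases e : m = n
  · simp [e]
  · exact this.2 m (Finset.mem_erase.2 ⟨e, hm⟩)

theorem h1_le_erase [DecidableEq X] (hN : Nd N) (hn : n ∈ N) (L : LB R) :
    h1 N L ≤ h1 (N.erase n) (L / (R.pt n.1 * R.pt n.2)) := by
  have := finrank_le_succ (W := H0 N L) (LinearMap.proj n.1) _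
    fun s a b => exists_div_node hN hn a b
  have c := Finset.card_erase_add_one hn
  rw [h1_eq, h1_eq, div_eq_mul_inv, chi_mul_eq, deg_inv, deg_mul, deg_pt, deg_pt]
  rw [div_eq_mul_inv] at this
  omega

theorem h1_le_empty (hN : Nd N) (L : LB R) :
    h1 N L ≤ h1 ∅ (L / ∏ n ∈ N, R.pt n.1 * R.pt n.2) := by
  classical
  induction N using Finset.induction_on generalizing L with
  | empty => simp
  | insert n N hn ih =>
    refine (h1_le_erase hN (Finset.mem_insert_self n N) L).trans ?_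
    rw [Finset.erase_insert hn, Finset.prod_insert hn, ← div_div L _ (∏ n ∈ N, _)]
    exact ih (hN.mono (Finset.subset_insert n N)) (L / (R.pt n.1 * R.pt n.2))

theorem degOn_omega (N : Finset (X × X)) (P : Finset X) (U : Set X) : degOn (omega R N P) U =
    degOn R.K U + ∑ n ∈ N, (degOn (R.pt n.1) U + degOn (R.pt n.2) U) +
      ∑ p ∈ P, degOn (R.pt p) U := by
  simp only [omega, degOn_mul, degOn_prod, degOn_cst, add_zero]

theorem deg_omega (N : Finset (X × X)) (P : Finset X) :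
    deg (omega R N P) = 2 * gen R N - 2 + P.card := by
  simp only [omega, deg_mul, deg_prod, deg_cst, deg_pt, deg_K, gen, Finset.sum_const]
  simp
  ring

theorem ge_omega (N : Finset (X × X)) (P : Finset X) : Ge (omega R N P / omega R N ∅) 0 :=
  fun U a _ => by
    rw [degOn_div, degOn_omega, degOn_omega, Finset.sum_empty, add_zero, add_sub_cancel_left]
    exact Finset.sum_nonneg fun p _ => by rw [degOn_pt a]; split_ifs <;> simp

/-- **vanishing** -/
theorem h1_eq_zero (hN : Nd N) (h : Ge (L / omega R N ∅) 1) : h1 N L = 0 := by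
  refine le_antisymm ((h1_le_empty hN L).trans ?_) (h1_nonneg N L)
  rw [h1_empty, Ge.finrank_eq_zero fun U a b => ?_]
  · simp
  · have := h U a b
    simp only [degOn_div, degOn_inv, degOn_omega, degOn_prod, degOn_mul, Finset.sum_empty] at *
    omega

theorem exists_ne_sm (hp : Sm N p) (h : h1 N (L / R.pt p) = 0) : ∃ s ∈ H0 N L, s p ≠ 0 := by
  by_contra! a
  have e : L = L / R.pt p * R.pt p := (div_mul_cancel _ _).symm
  have := finrank_le_of_forall (W := H0 N L) (W' := H0 N (L / R.pt p)) (RS.can p) fun s b =>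
    let ⟨s', c, d, _⟩ := exists_div0 hp (e ▸ b) (a s b); ⟨s', c, d⟩
  have b := h1_nonneg N L
  rw [h1_eq] at h b
  rw [div_eq_mul_inv, chi_mul_eq, deg_inv, deg_pt] at h
  rw [div_eq_mul_inv] at this
  omega

theorem exists_ne_node [DecidableEq X] (hN : Nd N) (hn : n ∈ N)
    (h : h1 (N.erase n) (L / (R.pt n.1 * R.pt n.2)) = 0) : ∃ s ∈ H0 N L, s n.1 ≠ 0 := by
  by_contra! a
  have := finrank_le_of_forall (W := H0 N L) _ fun s b => exists_div_node hN hn b (a s b)
  have b := h1_nonneg N L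
  have c := Finset.card_erase_add_one hn
  rw [h1_eq] at h b
  rw [div_eq_mul_inv, chi_mul_eq, deg_inv, deg_mul, deg_pt, deg_pt] at h
  rw [div_eq_mul_inv] at this
  omega

variable {k : ℤ}

theorem Ge.div_pt (h : Ge (L / L') (k + 1)) (p : X) : Ge (L / R.pt p / L') k := by
  have := h.mul (ge_inv_pt p)
  rwa [← div_eq_mul_inv, div_right_comm, add_neg_cancel_right] at this

theorem Ge.erase [DecidableEq X] (h : Ge (L / omega R N ∅) k) (hn : n ∈ N) :
    Ge (L / (R.pt n.1 * R.pt n.2) / omega R (N.erase n) ∅) k := fun U a b => by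
  have := h U a b
  simp only [degOn_div, degOn_omega, degOn_mul, ← Finset.add_sum_erase N _ hn] at *
  omega

/-- **base point freeness** -/
theorem exists_ne (hN : Nd N) (h : Ge (L / omega R N ∅) 2) (x : X) : ∃ s ∈ H0 N L, s x ≠ 0 := by
  classical
  by_cases hx : Sm N x
  · exact exists_ne_sm hx (h1_eq_zero hN (Ge.div_pt h x))
  · obtain ⟨n, hn, e⟩ := not_sm.1 hx
    obtain ⟨s, a, b⟩ := exists_ne_node hN hn (h1_eq_zero (hN.mono (Finset.erase_subset n N))
      ((h.erase hn).mono one_le_two))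
    exact ⟨s, a, e.elim (fun e => e ▸ b) fun e => e ▸ a.2 n hn ▸ b⟩

/-- the sections that vanish at `x` -/
theorem exists_twist (hN : Nd N) (L : LB R) (x : X) : ∃ (N' : Finset (X × X)) (E : LB R)
    (u : X → ℂ), Nd N' ∧ u ∈ E.Γ ∧ E.ord u x = 1 ∧ (∀ s ∈ H0 N' (L / E), s * u ∈ H0 N L) ∧
      (∀ y, u y = 0 → x = y ∨ (x, y) ∈ N ∨ (y, x) ∈ N) ∧
      ∀ k, Ge (L / omega R N ∅) (k + 1) → Ge (L / E / omega R N' ∅) k := by
  classical
  by_cases hx : Sm N x
  · refine ⟨N, R.pt x, RS.can x, hN, R.can_mem x, R.ord_can x, fun s a => ?_, fun y a => .inl ?_,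
      fun k a => a.div_pt x⟩
    · simpa using H0.mul_mem a (can_mem0 hx)
    · exact by_contra fun b => by simp [can_ne (Ne.symm b)] at a
  · obtain ⟨n, hn, e⟩ := not_sm.1 hx
    have ne := hN.ne n hn n hn
    refine ⟨N.erase n, _, _, hN.mono (Finset.erase_subset n N),
      LB.mul_mem (R.can_mem n.1) (R.can_mem n.2), ?_, fun s a => mul_node_mem hN hn a,
      fun y a => ?_, fun k a => (a.erase hn).mono (by omega)⟩
    · rw [LB.ord_mul (R.can_mem _ _) (R.can_mem _ _)]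
      rcases e with rfl | rfl
      · rw [R.ord_can, (LB.ord_eq_zero (R.can_mem _ _)).2 (by simp [can_ne ne]), add_zero]
      · rw [R.ord_can, (LB.ord_eq_zero (R.can_mem _ _)).2 (by simp [can_ne ne.symm]), zero_add]
    · have : y = n.1 ∨ y = n.2 := by
        by_contra! b
        simp [can_ne b.1, can_ne b.2] at a
      rcases e with rfl | rfl <;> rcases this with rfl | rfl <;> simp [hn]

/-- **separation of points** -/
theorem exists_sep (hN : Nd N) (h : Ge (L / omega R N ∅) 3) (e : ¬(x = y ∨ (x, y) ∈ N ∨ (y, x) ∈ N)) :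
    ∃ s ∈ H0 N L, s x = 0 ∧ s y ≠ 0 := by
  obtain ⟨N', E, u, a, b, c, d, f, g⟩ := exists_twist hN L x
  obtain ⟨s, hs, h0⟩ := exists_ne a (g 2 h) y
  refine ⟨_, d s hs, mul_eq_zero_of_right _ (by_contra fun z => ?_),
    mul_ne_zero h0 fun z => e (f y z)⟩
  rw [(LB.ord_eq_zero (b x)).2 z] at c
  exact zero_ne_one c

/-- **separation of tangent vectors** -/
theorem exists_ord_one (hN : Nd N) (h : Ge (L / omega R N ∅) 3) (x : X) :
    ∃ s ∈ H0 N L, L.ord s x = 1 := by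
  obtain ⟨N', E, u, a, b, c, d, -, g⟩ := exists_twist hN L x
  obtain ⟨s, hs, h0⟩ := exists_ne a (g 2 h) x
  refine ⟨_, d s hs, ?_⟩
  have := LB.ord_mul (hs.1 x) (b x)
  rwa [div_mul_cancel, c, (LB.ord_eq_zero (hs.1 x)).2 h0, zero_add] at this

/-- separation of the two tangent vectors at a node -/
theorem exists_cross (hN : Nd N) (h : Ge (L / omega R N ∅) 3) (e : (x, y) ∈ N ∨ (y, x) ∈ N) :
    ∃ s ∈ H0 N L, L.ord s x = 1 ∧ 2 ≤ L.ord s y := by
  classical
  obtain ⟨n, hn, a⟩ : ∃ n ∈ N, n.1 = x ∧ n.2 = y ∨ n.1 = y ∧ n.2 = x :=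
    e.elim (fun e => ⟨_, e, .inl ⟨rfl, rfl⟩⟩) fun e => ⟨_, e, .inr ⟨rfl, rfl⟩⟩
  have ne := hN.ne n hn n hn
  have sm := hN.sm_erase hn
  obtain ⟨s, hs, h0, h1⟩ := exists_sep (x := y) (y := x) (hN.mono (Finset.erase_subset n N))
    (h.erase hn) (by
      rcases a with ⟨rfl, rfl⟩ | ⟨rfl, rfl⟩ <;> rintro (b | b | b)
      exacts [ne b.symm, (sm.1 _ b).2 rfl, (sm.1 _ b).1 rfl, ne b, (sm.1 _ b).1 rfl,
        (sm.1 _ b).2 rfl])
  have o : ∀ z, L.ord (s * (RS.can n.1 * RS.can n.2)) z = (L / (R.pt n.1 * R.pt n.2)).ord s z +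
      ((R.pt n.1).ord (RS.can n.1) z + (R.pt n.2).ord (RS.can n.2) z) := fun z => by
    rw [← LB.ord_mul (R.can_mem _ _) (R.can_mem _ _),
      ← LB.ord_mul (hs.1 z) (LB.mul_mem (R.can_mem _) (R.can_mem _) z), div_mul_cancel]
  have o1 := (LB.ord_eq_zero (R.can_mem n.2 n.1)).2 (by simp [can_ne ne])
  have o2 := (LB.ord_eq_zero (R.can_mem n.1 n.2)).2 (by simp [can_ne ne.symm])
  have o3 := (LB.ord_eq_zero (hs.1 x)).2 h1
  have o4 : 1 ≤ (L / (R.pt n.1 * R.pt n.2)).ord s y :=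
    Order.one_le_iff_ne_zero.2 (mt (LB.ord_eq_zero (hs.1 y)).1 (not_not.2 h0))
  refine ⟨_, mul_node_mem hN hn hs, ?_, ?_⟩ <;> rw [o] <;> rcases a with ⟨rfl, rfl⟩ | ⟨rfl, rfl⟩
  · rw [o3, o1, R.ord_can]; rfl
  · rw [o3, o2, R.ord_can]; rfl
  · rw [o2, R.ord_can, zero_add]; exact add_le_add_left o4 1
  · rw [o1, R.ord_can, add_zero]; exact add_le_add_left o4 1

variable (R) in
include R in
/-- a finite set that meets every component -/
theorem exists_finite_meets : ∃ T : Set X, T.Finite ∧ ∀ U, IsClopen U → U.Nonempty →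
    ∃ x ∈ T, x ∈ U := by
  have : ∀ x : X, ∃ W ∈ 𝓝 x, IsPreconnected W := fun x => by
    obtain ⟨r, hr, h⟩ := Metric.mem_nhds_iff.1 (R.tgt_nhds x)
    exact ⟨R.i x '' Metric.ball 0 r, R.map_i x ▸ image_mem_map (Metric.ball_mem_nhds _ hr),
      (convex_ball _ _).isPreconnected.image _ fun t ht => (R.contAt_i (h ht)).continuousWithinAt⟩
  choose W a b using this
  obtain ⟨T, hT⟩ := CompactSpace.elim_nhds_subcover W a
  refine ⟨T, T.finite_toSet, fun U c ⟨y, hy⟩ => ?_⟩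
  obtain ⟨x, d, e⟩ := mem_iUnion₂.1 (hT.ge (mem_univ y))
  exact ⟨x, d, (b x).subset_isClopen c ⟨y, e, hy⟩ (mem_of_mem_nhds (a x))⟩

/-- a generic member of a base point free system -/
theorem exists_gen {W : Submodule ℂ (X → ℂ)} (hW : W ≤ L.Γ) (h : ∀ x, ∃ s ∈ W, s x ≠ 0)
    {T : Set X} (hT : T.Finite) : ∃ s ∈ W, Gen s = univ ∧ ∀ x ∈ T, s x ≠ 0 := by
  obtain ⟨T', a, b⟩ := exists_finite_meets R
  obtain ⟨s, c, d⟩ := exists_forall_ne W (hT.union a) fun x _ => h x
  refine ⟨s, c, by_contra fun e => ?_, fun x hx => d x (.inl hx)⟩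
  obtain ⟨x, f, g⟩ := b _ (isClopen_gen (hW c)).compl (nonempty_compl.2 e)
  exact g ((hW c x).mem_gen (d x (.inr f)))

theorem h1_mul_le_of_bpf (h : ∀ x, ∃ s ∈ H0 N L', s x ≠ 0) (L : LB R) :
    h1 N (L * L') ≤ h1 N L :=
  let ⟨_, a, b, c⟩ := exists_gen H0_le h (N.finite_toSet.image Prod.fst)
  h1_mul_le a b (fun n hn => c _ ⟨n, hn, rfl⟩) L

theorem exists_pencil {W : Submodule ℂ (X → ℂ)} (hW : W ≤ L.Γ) (h : ∀ x, ∃ s ∈ W, s x ≠ 0) :
    ∃ s ∈ W, ∃ s' ∈ W, ∀ x, s x ≠ 0 ∨ s' x ≠ 0 := by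
  obtain ⟨s, a, b, -⟩ := exists_gen hW h finite_empty
  obtain ⟨s', c, d⟩ := exists_forall_ne W (LB.finite_zeros (hW a) b) fun x _ => h x
  exact ⟨s, a, s', c, fun x => (em (s x = 0)).symm.imp_right (d x)⟩

/-- **the base point free pencil trick** -/
theorem pencil {F P : LB R} (a : s ∈ H0 N P) (a' : s' ∈ H0 N P) (h : ∀ x, s x ≠ 0 ∨ s' x ≠ 0)
    (h1a : h1 N (F / P) = 0) (h1b : h1 N (F * P) = 0) {t : X → ℂ} (ht : t ∈ H0 N (F * P)) :
    ∃ f ∈ H0 N F, ∃ f' ∈ H0 N F, t = f * s + f' * s' := by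
  classical
  let Φ : H0 N F × H0 N F →ₗ[ℂ] H0 N (F * P) :=
    ((LinearMap.mulRight ℂ s).restrict fun _ b => H0.mul_mem b a).coprod
      ((LinearMap.mulRight ℂ s').restrict fun _ b => H0.mul_mem b a')
  let Ψ : H0 N (F / P) →ₗ[ℂ] H0 N F × H0 N F :=
    ((LinearMap.mulRight ℂ s').restrict fun _ b => by simpa using H0.mul_mem b a').prod
      (-(LinearMap.mulRight ℂ s).restrict fun _ b => by simpa using H0.mul_mem b a)
  have k : LinearMap.ker Φ ≤ LinearMap.range Ψ := fun f hf => by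
    have e : ∀ x, f.1.1 x * s x + f.2.1 x * s' x = 0 := congrFun (congrArg Subtype.val hf)
    let g : X → ℂ := fun x => if s' x = 0 then -f.2.1 x / s x else f.1.1 x / s' x
    have g1 : ∀ x, s' x ≠ 0 → g x = f.1.1 x / s' x := fun x hx => if_neg hx
    have g2 : ∀ x, s x ≠ 0 → g x = -f.2.1 x / s x := fun x hx => by
      by_cases b : s' x = 0
      · exact if_pos b
      · rw [g1 x b, div_eq_div_iff b hx]; linear_combination e x
    refine ⟨⟨g, fun x => ?_, fun n hn => ?_⟩, Prod.ext (Subtype.ext (funext fun x => ?_))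
      (Subtype.ext (funext fun x => ?_))⟩
    · rcases h x with b | b
      · exact (((neg_mem f.2.2).1 x).div (a.1 x) b).congr (((a.1 x).ev_ne b).mono fun y hy =>
          (g2 y hy).symm)
      · exact ((f.1.2.1 x).div (a'.1 x) b).congr (((a'.1 x).ev_ne b).mono fun y hy =>
          (g1 y hy).symm)
    · simp only [g, a.2 n hn, a'.2 n hn, f.1.2.2 n hn, f.2.2.2 n hn]
    · show g x * s' x = f.1.1 x
      rcases h x with b | b
      · rw [g2 x b]; field_simp; linear_combination -e x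
      · rw [g1 x b]; field_simp
    · show -(g x * s x) = f.2.1 x
      rcases h x with b | b
      · rw [g2 x b]; field_simp
      · rw [g1 x b]; field_simp; linear_combination -e x
  have r := LinearMap.finrank_range_add_finrank_ker Φ
  have r1 := (Submodule.finrank_mono k).trans (LinearMap.finrank_range_le Ψ)
  have r2 := riemann N F
  have r3 := finrank_H0 h1a
  have r4 := finrank_H0 h1b
  rw [finrank_prod] at r
  rw [deg_div] at r3
  rw [deg_mul] at r4
  have top : LinearMap.range Φ = ⊤ := Submodule.eq_top_of_finrank_eq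
    (le_antisymm (Submodule.finrank_le _) (by omega))
  obtain ⟨f, hf⟩ := LinearMap.range_eq_top.1 top ⟨t, ht⟩
  exact ⟨_, f.1.2, _, f.2.2, (congrArg Subtype.val hf).symm⟩

/-- **the lemma of Castelnuovo** -/
theorem H0_le_mul {F P : LB R} {W : Submodule ℂ (X → ℂ)} (hW : W ≤ H0 N P)
    (h : ∀ x, ∃ s ∈ W, s x ≠ 0) (h1a : h1 N (F / P) = 0) : H0 N (F * P) ≤ H0 N F * W := by
  obtain ⟨s, a, s', a', b⟩ := exists_pencil (hW.trans H0_le) h
  have m := h1_mul_le_of_bpf (N := N) fun x => let ⟨s, a, b⟩ := h x; ⟨s, hW a, b⟩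
  have c := (m F).trans (div_mul_cancel F P ▸ m (F / P))
  intro t ht
  obtain ⟨f, d, f', d', rfl⟩ := pencil (hW a) (hW a') b h1a
    (le_antisymm (h1a ▸ c) (h1_nonneg _ _)) ht
  exact add_mem (Submodule.mul_mem_mul d a) (Submodule.mul_mem_mul d' a')

theorem H0_le_mul_pow {F B : LB R} (hN : Nd N) (hB : Ge B 1) (hω : Ge (B / omega R N ∅) 0)
    (hF : Ge (F / B ^ 7) 0) {m : ℕ} (hm : 3 ≤ m) : H0 N (F * B ^ m) ≤ H0 N F * H0 N (B ^ m) := by
  have key : ∀ (F : LB R) (j : ℕ), 3 ≤ j → j ≤ 5 → Ge (F / B ^ 7) 0 →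
      H0 N (F * B ^ j) ≤ H0 N F * H0 N (B ^ j) := fun F j a b c =>
    H0_le_mul le_rfl (exists_ne hN fun U d e => by
      have := hB U d e
      have := hω U d e
      simp only [degOn_div, degOn_pow] at *
      nlinarith) (h1_eq_zero hN fun U d e => by
      have := hB U d e
      have := hω U d e
      have := c U d e
      simp only [degOn_div, degOn_pow] at *
      push_cast at *
      nlinarith)
  induction m using Nat.strong_induction_on with
  | _ m ih =>
    by_cases a : m ≤ 5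
    · exact key F m hm a hF
    obtain ⟨j, rfl⟩ : ∃ j, m = j + 3 := ⟨m - 3, by omega⟩
    rw [pow_add, ← mul_assoc]
    refine (key _ 3 le_rfl (by norm_num) fun U d e => ?_).trans
      ((mul_le_mul_left (ih j (by omega) (by omega)) _).trans ?_)
    · have := hB U d e
      have := hF U d e
      simp only [degOn_div, degOn_pow, degOn_mul] at *
      nlinarith
    · rw [mul_assoc]
      exact mul_le_mul_right H0_mul_le _

/-- **surjectivity of multiplication** for bundles whose degrees are close to those of `B ^ k` -/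
theorem H0_le_mul_of_ge {F A B : LB R} (hN : Nd N) (hB : Ge B 1) (hω : Ge (B / omega R N ∅) 0)
    {k c : ℕ} (hk : 2 * c + 7 ≤ k) (hF : Ge (F * B ^ c / B ^ k) 0) (hA : Ge (A * B ^ c / B ^ k) 0)
    (hA' : Ge (B ^ k * B ^ c / A) 0) : H0 N (F * A) ≤ H0 N F * H0 N A := by
  obtain ⟨m, rfl⟩ : ∃ m, k = m + c + 3 := ⟨k - c - 3, by omega⟩
  have e : F * A = F * B ^ m * (A / B ^ m) := by rw [mul_assoc, mul_div_cancel]
  have hm : (c : ℤ) + 4 ≤ m := by omega
  rw [e]
  refine (H0_le_mul le_rfl (exists_ne hN fun U d e => ?_) (h1_eq_zero hN fun U d e => ?_)).trans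
    ((mul_le_mul_left (H0_le_mul_pow hN hB hω (fun U d e => ?_) (by omega)) _).trans ?_)
  rotate_right
  · rw [mul_assoc]
    refine mul_le_mul_right (H0_mul_le.trans ?_) _
    rw [mul_div_cancel]
  all_goals
    have := hB U d e
    have := hω U d e
    have := hF U d e
    have := hA U d e
    have := hA' U d e
    simp only [degOn_div, degOn_pow, degOn_mul] at *
    push_cast at *
    nlinarith

end Vale.Agent.P269.Cv
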