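import Vale.Agent.P269.Cv.Map
import Vale.Agent.P275CT.Weyl

/-!
# The residue theorem for forms with simple poles
-/

set_option linter.unusedSectionVars false

namespace Vale.Agent.P269.Cv

open Set Function Topology Filter Metric MeasureTheory P275GC P275RR P275GC.At P281Z.Hm P275NA
  P275CT
open scoped ContDiff Real

variable {X : Type} [TopologicalSpace X] [T2Space X]

/-- a cut off function around a simple pole -/
theorem res_loc {A : At X} {σ : Fam A ℂ} {S : Finset X} (hσ : A.F10 σ)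
    (ha : ∀ i, ∀ z ∈ ball (0 : ℂ) A.R, (A.e i).symm z ∉ S → AnalyticAt ℂ (σ i) z) {p : X}
    {w : ℂ → ℂ} (hw : AnalyticAt ℂ w (pc A p))
    (e : ∀ᶠ z in 𝓝[≠] (pc A p), σ (ch A p) z = (z - pc A p)⁻¹ * w z) :
    ∃ β : X → ℂ, A.Sm ∞ (A.pl β) ∧ (∀ᶠ y in 𝓝 p, β y = 1) ∧
      (∀ q ∈ S, q ≠ p → ∀ᶠ y in 𝓝 q, β y = 0) ∧
      (A.Ct fun i z => σ i z • db (A.pl β i) z) ∧
      A.int (fun i z => σ i z • db (A.pl β i) z) = -((π : ℂ) * w (pc A p)) := by
  classical
  have h1 : ∀ᶠ z in 𝓝 (pc A p), (A.e (ch A p)).symm z ∉ S.erase p :=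
    (contAt_symm (pc_ball p)).eventually
      ((S.erase p).finite_toSet.isClosed.isOpen_compl.mem_nhds (by simp [symm_pc]))
  obtain ⟨r, hr, h2⟩ := Metric.mem_nhds_iff.1 ((hw.eventually_analyticAt.and h1).and
    ((eventually_nhdsWithin_iff.1 e).and (isOpen_ball.mem_nhds (pc_ball p))))
  obtain ⟨b, b1, b2, -, b3, b4⟩ := ex_cutC (pc A p) (r := r / 4) (R := r / 2) (by positivity)
    (by linarith)
  have hK := isCompact_closedBall (pc A p) (r / 2)
  have hs : closedBall (pc A p) (r / 2) ⊆ ball (pc A p) r := closedBall_subset_ball (by linarith)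
  have hR : closedBall (pc A p) (r / 2) ⊆ ball 0 A.R := fun z hz => (h2 (hs hz)).2.2
  have b0 : ∀ z ∈ ball (0 : ℂ) A.R, z ∉ closedBall (pc A p) (r / 2) → b z = 0 := fun z _ hz =>
    image_eq_zero_of_notMem_tsupport (b4 ▸ hz)
  have sm := sm_ext hK hR b1.contDiffOn b0 (ch A p)
  have o1 : ∀ᶠ y in 𝓝 p, A.ext (ch A p) b y = 1 := by
    filter_upwards [(A.e _).open_source.mem_nhds (ch_src p), ((A.e _).continuousAt (ch_src p))
      (closedBall_mem_nhds (pc A p) (by positivity : 0 < r / 4))] with y h3 h4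
    rw [ext_src h3, b3 _ h4]
  have o2 : ∀ q ∈ S, q ≠ p → ∀ᶠ y in 𝓝 q, A.ext (ch A p) b y = 0 := fun q hq hp =>
    Eventually.mono ((cpt_img hK hR _).isClosed.isOpen_compl.mem_nhds fun ⟨z, h3, h4⟩ =>
      (h2 (hs h3)).1.2 (h4 ▸ Finset.mem_erase.2 ⟨hp, hq⟩)) fun y hy => ext_off b0 hy
  have ct : A.Ct fun i z => σ i z • db (A.pl (A.ext (ch A p) b) i) z := fun i z hz => by
    refine ContinuousAt.continuousWithinAt ?_
    by_cases h3 : (A.e i).symm z ∈ S
    · obtain ⟨c, hc⟩ : ∃ c, ∀ᶠ y in 𝓝 ((A.e i).symm z), A.ext (ch A p) b y = c := by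
        by_cases h4 : (A.e i).symm z = p
        exacts [⟨1, h4 ▸ o1⟩, ⟨0, o2 _ h3 h4⟩]
      refine continuousAt_const (y := 0).congr
        ((wb_congr_ev (f := A.pl (A.ext (ch A p) b) i) (g := fun _ => c)
          ((contAt_symm hz).eventually hc) 1).mono fun x hx => ?_)
      beta_reduce
      rw [show db (A.pl (A.ext (ch A p) b) i) x = 0 from hx.trans (wb_const c 1 x), smul_zero]
    · exact (ha i z hz h3).continuousAt.smul (((sm.db (m := 0) (by simp)).ct).at hz i)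
  refine ⟨_, sm, o1, o2, ct, ?_⟩
  have hu : ContDiffOn ℝ 1 w (ball (pc A p) r) := fun z hz =>
    (cd_an (h2 hz).1.1).contDiffWithinAt
  have c1 : ContDiff ℝ 1 b := b1.of_le (by simp)
  have key := pomp0 (cd_cut isOpen_ball c1 (b4 ▸ hs) hu) (cs_cut b2 w) (pc A p)
  have d0 : ∀ z, z ∉ closedBall (pc A p) (r / 2) → db b z = 0 := fun z hz =>
    (wb_congr (notMem_tsupport_iff_eventuallyEq.1 (b4 ▸ hz)) 1).trans (wb_const 0 1 z)
  have v0 : ∀ z, z ∉ closedBall (pc A p) (r / 2) →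
      (z - pc A p)⁻¹ • db (fun z => b z • w z) z = 0 := fun z hz => by
    rw [show db (fun z => b z • w z) z = 0 from
      (wb_congr (ev_zero (b4 ▸ hz)) 1).trans (wb_const 0 1 z), smul_zero]
  have e1 : ∀ z ∈ ball (0 : ℂ) A.R, σ (ch A p) z • db (A.pl (A.ext (ch A p) b) (ch A p)) z =
      (z - pc A p)⁻¹ • db (fun z => b z • w z) z := fun z hz => by
    rw [show db (A.pl (A.ext (ch A p) b) (ch A p)) z = db b z from wb_congr
      (eventually_of_mem (isOpen_ball.mem_nhds hz) fun x hx => ext_symm hx) 1]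
    by_cases h3 : z ∈ closedBall (pc A p) (r / 2)
    · by_cases h4 : z = pc A p
      · rw [show db b z = 0 from (wb_congr (eventually_of_mem (h4 ▸ closedBall_mem_nhds (pc A p)
          (by positivity : 0 < r / 4)) b3) 1).trans (wb_const 1 1 z), h4]
        simp
      · rw [db_cut isOpen_ball c1 (b4 ▸ hs) hu, (h2 (hs h3)).2.1 h4,
          show db w z = 0 from wb_hol (h2 (hs h3)).1.1.differentiableAt 1]
        simp only [smul_eq_mul]
        ring
    · rw [v0 z h3, d0 z h3, smul_zero]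
  rw [int_loc (j := ch A p) (hσ.smul ((fn_pl _).f01 (sm.of_le (by simp)))) (fun i z hz h3 => by
      rw [show db (A.pl (A.ext (ch A p) b) i) z = 0 from
        (wb_congr (ev_ext hK hR b0 hz h3) 1).trans (wb_const 0 1 z), smul_zero])
    ((ct.integ _ hK hR).of_forall_sdiff_eq_zero isOpen_ball.measurableSet
      fun z a => (e1 z a.1).trans (v0 z a.2)), setIntegral_congr_fun isOpen_ball.measurableSet e1,
    setIntegral_eq_integral_of_forall_compl_eq_zero fun z a => v0 z fun c => a (hR c),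
    ← integral_add_left_eq_self _ (pc A p)]
  simp only [add_sub_cancel_left]
  rw [key, b3 _ (mem_closedBall_self (by positivity)), one_smul, smul_eq_mul]

/-- the residue theorem in an atlas -/
theorem res_at {A : At X} {σ : Fam A ℂ} {S : Finset X} {c : X → ℂ} (hσ : A.F10 σ)
    (ha : ∀ i, ∀ z ∈ ball (0 : ℂ) A.R, (A.e i).symm z ∉ S → AnalyticAt ℂ (σ i) z)
    (h : ∀ p ∈ S, ∃ w : ℂ → ℂ, AnalyticAt ℂ w (pc A p) ∧ w (pc A p) = c p ∧
      ∀ᶠ z in 𝓝[≠] (pc A p), σ (ch A p) z = (z - pc A p)⁻¹ * w z) : ∑ p ∈ S, c p = 0 := by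
  classical
  have h1 : ∀ p ∈ S, ∃ β : X → ℂ, A.Sm ∞ (A.pl β) ∧ (∀ᶠ y in 𝓝 p, β y = 1) ∧
      (∀ q ∈ S, q ≠ p → ∀ᶠ y in 𝓝 q, β y = 0) ∧ (A.Ct fun i z => σ i z • db (A.pl β i) z) ∧
      A.int (fun i z => σ i z • db (A.pl β i) z) = -((π : ℂ) * c p) := fun p hp =>
    let ⟨_, a, b, e⟩ := h p hp
    b ▸ res_loc hσ ha a e
  choose! β b1 b2 b3 b4 b5 using h1
  have o : ∀ i, ∀ z ∈ ball (0 : ℂ) A.R, (A.e i).symm z ∈ S →
      ∀ᶠ x in 𝓝 z, 1 - ∑ p ∈ S, A.pl (β p) i x = 0 := fun i z hz hq => by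
    refine (contAt_symm hz).eventually (p := fun y => 1 - ∑ p ∈ S, β p y = 0) ?_
    filter_upwards [b2 _ hq, (eventually_all_finset (S.erase ((A.e i).symm z))).2 fun p hp =>
      b3 p (Finset.mem_of_mem_erase hp) _ hq (Finset.ne_of_mem_erase hp).symm] with y h2 h3
    rw [← Finset.add_sum_erase _ _ hq, h2, Finset.sum_eq_zero h3, add_zero, sub_self]
  have cd : ∀ i, ∀ z ∈ ball (0 : ℂ) A.R,
      ContDiffAt ℝ 1 (fun x => 1 - ∑ p ∈ S, A.pl (β p) i x) z := fun i z hz =>
    contDiffAt_const.sub (ContDiffAt.sum fun p hp => ((b1 p hp).at hz i).of_le (by simp))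
  have st := F10.int_db (u := fun i z => (1 - ∑ p ∈ S, A.pl (β p) i z) • σ i z)
    (Sec.fn_smul hσ (fn_pl fun y => 1 - ∑ p ∈ S, β p y)) fun i z hz => by
      refine ContDiffAt.contDiffWithinAt ?_
      by_cases hq : (A.e i).symm z ∈ S
      · exact (contDiffAt_const (c := 0)).congr_of_eventuallyEq
          ((o i z hz hq).mono fun x hx => by simp only [hx, zero_smul])
      · exact cd_smul (cd i z hz) (cd_an (ha i z hz hq))
  rw [int_congr' (v := fun i z => -∑ p ∈ S, σ i z • db (A.pl (β p) i) z) fun i z hz => ?_,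
    int_neg, int_sum _ fun p hp => (b4 p hp).in, Finset.sum_congr rfl b5, Finset.sum_neg_distrib,
    neg_neg, ← Finset.mul_sum] at st
  · exact (mul_eq_zero.1 st).resolve_left pi_ne
  have e : db (fun x => 1 - ∑ p ∈ S, A.pl (β p) i x) z = -∑ p ∈ S, db (A.pl (β p) i) z := by
    have d := fun p hp => (b1 p hp).df (by simp) hz i
    rw [db, wb_sub (differentiableAt_const _) (DifferentiableAt.fun_sum d), wb_const, wb_sum _ d,
      zero_sub]
  rw [← Finset.smul_sum, ← smul_neg, ← e]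
  by_cases hq : (A.e i).symm z ∈ S
  · rw [show db (fun x => 1 - ∑ p ∈ S, A.pl (β p) i x) z = 0 from
      (wb_congr (o i z hz hq) 1).trans (wb_const 0 1 z), smul_zero]
    exact (wb_congr ((o i z hz hq).mono fun x hx => by simp only [hx, zero_smul]) 1).trans
      (wb_const 0 1 z)
  · have a := (ha i z hz hq).differentiableAt
    rw [db, wb_smul ((cd i z hz).differentiableAt one_ne_zero) (a.restrictScalars ℝ), wb_hol a,
      smul_zero, add_zero, smul_eq_mul, smul_eq_mul, mul_comm]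

variable [CompactSpace X] {R : RS X} {s : X → ℂ}

/-- **the residue theorem** -/
theorem sum_res {S : Finset X} (hs : s ∈ (lg R S).Γ) : ∑ p ∈ S, s p = 0 := by
  classical
  obtain ⟨A, -, -, hA, -⟩ := exists_fr (1 : LB R) 1
  refine res_at (A := A) (σ := fam A (fun i => R.d (A.e i)) s) (fun i j z hz => ?_)
    (fun i z hz hq => ((fr_K hA).an hA hz).1 ?_) fun p hp => ?_
  · have a := (hA i).d_eq (At.map_tgt hz.1) (hA j _ hz.2).1
    rw [At.rinv hz.1] at a
    rw [(fr_K hA).sv s i j z hz, ln_apply, co, a,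
      mul_div_cancel_right₀ _ (hA i _ (At.map_tgt hz.1)).2]
    rfl
  · have a := hs ((A.e i).symm z)
    rw [LB.sec_iff] at a ⊢
    refine a.congr (.of_forall fun y => ?_)
    beta_reduce
    rw [lg, LB.mul_φ, LB.prod_φ, Finset.prod_eq_one, mul_one]
    exact fun q h => R.pt_φ_ne (ne_of_mem_of_not_mem h hq).symm
  · have c := hA _ p (ch_src p)
    have h1 : R.Hol (fun y => s y / (lg R S).φ p y * (R.d (R.e p) y / R.d (A.e (ch A p)) y) *
        dslope (fun t => A.e (ch A p) (R.i p t)) 0 (R.e p y)) p :=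
      ((LB.sec_iff.1 (hs p)).mul ((c.1.sec_d.iff_div c.2).1 (RS.hol_e (R.mem p)).sec_d)).mul
        (RS.Hol.comp (by rw [R.zero]; exact an_dsl c.1) (RS.hol_e (R.mem p)))
    refine ⟨_, ((hA _).hol_iff (ch_src p)).1 h1, ?_, ?_⟩
    · simp only [symm_pc, LB.self, R.d_e_self, R.zero, dslope_same]
      rw [div_one, mul_assoc, one_div, show deriv (fun t => A.e (ch A p) (R.i p t)) 0 =
        R.d (A.e (ch A p)) p from rfl, inv_mul_cancel₀ c.2, mul_one]
    · filter_upwards [self_mem_nhdsWithin, nhdsWithin_le_nhds (isOpen_ball.mem_nhds (pc_ball p)),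
        nhdsWithin_le_nhds (RS.Cmp.ev_src (R := R) (ch_src p))] with z h2 h3 h4
      have h5 : (A.e (ch A p)).symm z ≠ p := fun a => h2 (by rw [← At.rinv h3, a]; rfl)
      have h6 : R.e p ((A.e (ch A p)).symm z) ≠ 0 := fun a => h5 ((R.e_eq_zero h4).1 a)
      rw [fam, lg, LB.mul_φ, LB.prod_φ, Finset.prod_eq_single_of_mem p hp
        fun q _ a => R.pt_φ_ne a.symm, RS.K_φ h4, dslope_of_ne _ h6, slope_def_field, R.i_e h4,
        R.i_zero, At.rinv h3, show (R.pt p).φ p ((A.e (ch A p)).symm z) =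
          (R.e p ((A.e (ch A p)).symm z))⁻¹ from if_pos ⟨rfl, h4, h5⟩, sub_zero]
      have h7 : z - A.e (ch A p) p ≠ 0 := sub_ne_zero.2 h2
      have h8 := RS.d_e_ne h4
      unfold pc
      field_simp

open Classical in
/-- the residue theorem on a union of components -/
theorem sum_res_on {S : Finset X} {U : Set X} (hU : IsClopen U) (hs : ∀ x ∈ U, (lg R S).Sec s x) :
    ∑ p ∈ S with p ∈ U, s p = 0 := by
  have := sum_res (LB.piecewise_mem hU hs fun x _ => (zero_mem (lg R S).Γ) x)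
  rwa [Finset.sum_filter]

/-- the residue theorem on a nodal curve -/
theorem sum_res_omega {N : Finset (X × X)} {P : Finset X} (hN : Nd N) (hP : ∀ p ∈ P, Sm N p)
    (hs : s ∈ H0 N (omega R N P)) : ∑ p ∈ P, s p = 0 := by
  classical
  have hc : ∀ x, (if ∃ n ∈ N, n.2 = x then -1 else 1 : ℂ) ≠ 0 := fun x => by split_ifs <;> simp
  have a := LB.mul_mem hs.1 (LB.inv_mem (LB.cst_mem (R := R) hc) hc)
  rw [omega_eq hN hP, mul_inv_cancel_right] at a
  have b := sum_res a
  rw [Finset.sum_union, Finset.sum_union, Finset.sum_image hN.inj1, Finset.sum_image hN.inj2,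
    ← Finset.sum_add_distrib, Finset.sum_eq_zero fun n hn => ?_, zero_add] at b
  · rw [← b]
    refine Finset.sum_congr rfl fun p hp => ?_
    simp only [Pi.mul_apply, Pi.inv_apply]
    rw [if_neg fun ⟨n, c, d⟩ => (hP p hp n c).2 d, inv_one, mul_one]
  · simp only [Pi.mul_apply, Pi.inv_apply]
    rw [if_neg fun ⟨n', c, d⟩ => hN.ne n hn n' c d.symm, if_pos ⟨n, hn, rfl⟩, hs.2 n hn]
    ring
  · exact Finset.disjoint_left.2 fun x a b => by
      obtain ⟨n, a, d⟩ := Finset.mem_image.1 a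
      obtain ⟨n', b, c⟩ := Finset.mem_image.1 b
      exact hN.ne n a n' b (d.trans c.symm)
  · exact Finset.disjoint_left.2 fun x a b => by
      rcases Finset.mem_union.1 a with a | a <;> obtain ⟨n, a, d⟩ := Finset.mem_image.1 a
      exacts [(hP x b n a).1 d, (hP x b n a).2 d]

end Vale.Agent.P269.Cv
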